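import Crest.Agent.N325.Mt.Fc2

/-!
# Row 325, Mt (helper90): stems, blossoms and augmenting paths from two stems, local rematching
-/

set_option autoImplicit false
open Finset

namespace Crest.Agent.N325.Mt

variable {V S U : Finset ℕ} {E : ℕ → ℕ → Prop} {m m' : ℕ → ℕ} {z y u u' : ℕ}
  {P Q : List (ℕ × ℕ)}

/-- `Stm E z P u`: the path `z, a₁, b₁, …, a_k, b_k = u` for `P = [(a₁,b₁),…]` -/
inductive Stm (E : ℕ → ℕ → Prop) : ℕ → List (ℕ × ℕ) → ℕ → Prop
  | nil (z : ℕ) : Stm E z [] z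
  | cons {z u a b : ℕ} {P : List (ℕ × ℕ)} : E z a → E a b → Stm E b P u → Stm E z ((a, b) :: P) u

theorem Stm.snoc {a b : ℕ} (h : Stm E z P u) (e : E u a) (e' : E a b) :
    Stm E z (P ++ [(a, b)]) b := by
  induction h with
  | nil => exact .cons e e' (.nil _)
  | cons e1 e2 _ ih => exact .cons e1 e2 (ih e)

theorem Stm.ear (h : Stm E z P u) (k : Ear E u Q y) : Ear E z (P ++ Q) y := by
  induction h with
  | nil => exact k
  | cons e1 e2 _ ih => exact .cons e1 e2 (ih k)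

theorem Ear.snoc {a b : ℕ} (h : Ear E z P a) (e : E a b) (e' : E b y) :
    Ear E z (P ++ [(a, b)]) y := by
  induction h with
  | nil k => exact .cons k e (.nil e')
  | cons e1 e2 _ ih => exact .cons e1 e2 (ih e)

theorem Stm.rev (hE : ∀ a b, E a b → E b a) (h : Stm E y Q u') (e : E u u') :
    Ear E u (Q.reverse.map Prod.swap) y := by
  induction h with
  | nil => exact .nil e
  | cons e1 e2 _ ih =>
    rw [List.reverse_cons, List.map_append]
    exact (ih e).snoc (hE _ _ e2) (hE _ _ e1)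

theorem vs_swap_perm (Q : List (ℕ × ℕ)) : (vs (Q.reverse.map Prod.swap)).Perm (vs Q) := by
  refine (vs_perm ((List.reverse_perm Q).map _)).trans ?_
  induction Q with
  | nil => exact .refl _
  | cons e Q ih => exact (List.Perm.swap _ _ _).trans ((ih.cons _).cons _)

/-- two stems and an edge between their ends -/
theorem Stm.join (hE : ∀ a b, E a b → E b a) (h : Stm E z P u) (h' : Stm E y Q u') (e : E u u') :
    Ear E z (P ++ Q.reverse.map Prod.swap) y ∧
      (vs (P ++ Q.reverse.map Prod.swap)).Perm (vs P ++ vs Q) :=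
  ⟨h.ear (h'.rev hE e), by rw [vs_append]; exact (vs_swap_perm Q).append_left _⟩

/-- **a blossom**: two disjoint stems from the factor-critical set `S` (e.g. `{β}`) -/
theorem FC.stems (hE : ∀ a b, E a b → E b a) (f : FC S E) (hz : z ∈ S) (hy : y ∈ S)
    (h : Stm E z P u) (h' : Stm E y Q u') (e : E u u') (nd : (vs P ++ vs Q).Nodup)
    (d : ∀ v ∈ vs P ++ vs Q, v ∉ S) : FC (S ∪ (vs P ++ vs Q).toFinset) E := by
  obtain ⟨a, b⟩ := h.join hE h' e
  rw [← List.toFinset_eq_of_perm _ _ b]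
  exact f.ear hE hz hy a (b.nodup_iff.2 nd) fun v k => d v (b.mem_iff.1 k)

/-- the other edges of a path -/
def shf : ℕ → List (ℕ × ℕ) → ℕ → List (ℕ × ℕ)
  | z, [], y => [(z, y)]
  | z, e :: P, y => (z, e.1) :: shf e.2 P y

theorem vs_shf (z : ℕ) (P : List (ℕ × ℕ)) (y : ℕ) : vs (shf z P y) = z :: (vs P ++ [y]) := by
  induction P generalizing z with
  | nil => rfl
  | cons e P ih => simp [shf, ih]

theorem Ear.alt (h : Ear E z P y) (k : ∀ e ∈ P, m e.1 = e.2 ∧ e.1 ≠ e.2) (ey : m y = y) :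
    Alt E m z (shf z P y) := by
  induction h with
  | nil e => exact .last e ey
  | @cons z y a b P e1 _ _ ih =>
    obtain ⟨k1, k2⟩ := k (a, b) List.mem_cons_self
    simp only at k1 k2
    exact .cons e1 (k1 ▸ k2.symm) (k1 ▸ ih (fun e c => k e (List.mem_cons_of_mem _ c)) ey)

theorem ne_of_nodup_vs (nd : (vs P).Nodup) : ∀ e ∈ P, e.1 ≠ e.2 := fun _ he =>
  (flp_of_mem (m := id) nd he).2.2

theorem Ear.aug (h : Ear E z P y) (k : ∀ e ∈ P, m e.1 = e.2) (ez : m z = z) (ey : m y = y)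
    (nd : (z :: y :: vs P).Nodup) (s : ∀ v ∈ z :: y :: vs P, v ∈ V) : Aug V E m z (shf z P y) := by
  have p : (vs (shf z P y)).Perm (z :: y :: vs P) := by
    rw [vs_shf]; exact (List.perm_append_singleton _ _).cons _
  exact ⟨ez, h.alt (fun e he => ⟨k e he, ne_of_nodup_vs nd.of_cons.of_cons e he⟩) ey,
    p.nodup_iff.2 nd, fun v c => s v (p.mem_iff.1 c)⟩

theorem Imp.not_max (hE : ∀ a b, E a b → E b a) (hm : IsM V E m) (h : Imp V E m P) :
    ¬Max V E m := fun k => by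
  have := k _ (h.1.isM hE hm)
  have := h.ex_flp
  omega

/-- **two disjoint stems from exposed vertices give an augmenting path** -/
theorem Stm.imp (hE : ∀ a b, E a b → E b a) (hm : IsM V E m) (h : Stm E z P u) (h' : Stm E y Q u')
    (e : E u u') (k : ∀ e ∈ P ++ Q, m e.1 = e.2) (ez : m z = z) (ey : m y = y)
    (nd : (z :: y :: (vs P ++ vs Q)).Nodup) (s : ∀ v ∈ z :: y :: (vs P ++ vs Q), v ∈ V) :
    Imp V E m (shf z (P ++ Q.reverse.map Prod.swap) y) := by
  obtain ⟨a, b⟩ := h.join hE h' e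
  have p := (b.cons y).cons z
  refine (a.aug (fun f hf => ?_) ez ey (p.nodup_iff.2 nd) fun v c => s v (p.mem_iff.1 c)).imp hm
  rcases List.mem_append.1 hf with hf | hf
  · exact k f (List.mem_append_left _ hf)
  · obtain ⟨x, hx, rfl⟩ := List.mem_map.1 hf
    have hx := List.mem_reverse.1 hx
    have := k x (List.mem_append_right _ hx)
    simp only [Prod.fst_swap, Prod.snd_swap, ← this]
    exact hm.inv (s _ (by simp [mem_vs.2 ⟨x, hx, .inl rfl⟩]))

/-- rematching an `m`-closed set perfectly -/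
theorem IsM.rematch (hm : IsM V E m) (s : U ⊆ V) (c : ∀ v ∈ U, m v ∈ U) (p : IsP U E m')
    (k : ∀ v ∈ V, v ∉ U → m' v = m v) : IsM V E m' ∧ ex V m' + ex U m = ex V m := by
  refine ⟨fun v hv => ?_, ?_⟩
  · by_cases h : v ∈ U
    · exact ⟨s (p.1.mem h), p.1.inv h, p.1.adj h⟩
    · have h' : m v ∉ U := fun q => h (hm.inv hv ▸ c _ q)
      rw [k v hv h, k _ (hm.mem hv) h']
      exact hm v hv
  · rw [ex, ex, ex, ← card_union_of_disjoint]
    · congr 1
      ext v
      simp only [mem_union, mem_exs]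
      constructor
      · rintro (⟨a, b⟩ | ⟨a, b⟩)
        · exact ⟨a, k v a (fun q => p.2 v q b) ▸ b⟩
        · exact ⟨s a, b⟩
      · rintro ⟨a, b⟩
        by_cases h : v ∈ U
        exacts [.inr ⟨h, b⟩, .inl ⟨a, (k v a h).trans b⟩]
    · exact disjoint_left.2 fun v a b => p.2 v (mem_exs.1 b).1 (mem_exs.1 a).2

/-- classes `K x ∋ x` that are perfectly matched except for `x`, the `x` matched by the pairs `Q` -/
theorem isP_of_ports (hE : ∀ a b, E a b → E b a) {K : ℕ → Finset ℕ} (hU : ∀ v, v ∈ U ↔ ∃ x ∈ vs Q, v ∈ K x)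
    (hx : ∀ x ∈ vs Q, x ∈ K x ∧ IsP ((K x).erase x) E m')
    (hQ : ∀ e ∈ Q, m' e.1 = e.2 ∧ m' e.2 = e.1 ∧ e.1 ≠ e.2 ∧ E e.1 e.2) : IsP U E m' := by
  have key : ∀ v ∈ U, m' v ∈ U ∧ m' (m' v) = v ∧ m' v ≠ v ∧ E v (m' v) := fun v hv => by
    obtain ⟨x, a, b⟩ := (hU v).1 hv
    by_cases c : v = x
    · subst c
      obtain ⟨e, he, rfl | rfl⟩ := mem_vs.1 a
      · obtain ⟨q1, q2, q3, q4⟩ := hQ e he
        have := mem_vs.2 ⟨e, he, .inr rfl⟩
        rw [q1, q2]
        exact ⟨(hU _).2 ⟨_, this, (hx _ this).1⟩, rfl, q3.symm, q4⟩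
      · obtain ⟨q1, q2, q3, q4⟩ := hQ e he
        have := mem_vs.2 ⟨e, he, .inl rfl⟩
        rw [q2, q1]
        exact ⟨(hU _).2 ⟨_, this, (hx _ this).1⟩, rfl, q3, hE _ _ q4⟩
    · have hv' := mem_erase.2 ⟨c, b⟩
      have p := (hx x a).2
      exact ⟨(hU _).2 ⟨x, a, mem_of_mem_erase (p.1.mem hv')⟩, p.1.inv hv', p.2 v hv', p.adj hv'⟩
  exact ⟨fun v hv => ⟨(key v hv).1, (key v hv).2.1, fun _ => (key v hv).2.2.2⟩,
    fun v hv => (key v hv).2.2.1⟩

theorem IsP.even_card (h : IsP S E m) : Even #S := by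
  have := sum_involution (s := S) (f := fun _ => (1 : ZMod 2)) (fun v _ => m v)
    (fun _ _ => by decide) (fun v hv _ => h.2 v hv) (fun _ => h.1.mem) fun _ => h.1.inv
  simp only [sum_const, nsmul_eq_mul, mul_one] at this
  exact (ZMod.natCast_eq_zero_iff_even).1 this

end Crest.Agent.N325.Mt
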