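import Crest.Agent.N325.Mt.SImpl
import Crest.Agent.N325.Mt.Fc3

/-!
# Row 325, M6 (helper90): one search on an induced subgraph, moving the base of a blossom,
flipping a contracted patch
-/

set_option autoImplicit false
open Finset

namespace Crest.Agent.N325.Mt

variable {V W S : Finset ℕ} {E : ℕ → ℕ → Prop} {g : Gl}

/-- adjacency lists of the listed vertices, restricted to the marked vertices -/
def subAdj (adj : Arr (List ℕ)) (mk : Arr Bool) (Wl : List ℕ) : R (Arr (List ℕ)) :=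
  foldL (fun x A => filterP (fun u => mk.get u) (adj.get x) >>= fun l => pure (A.set x l)) Wl
    (.cst [])

theorem sp_subAdj (adj : Arr (List ℕ)) (mk : Arr Bool) (Wl : List ℕ) :
    Sp g (subAdj adj mk Wl) fun r t => (∀ x ∈ Wl, r.get x = (adj.get x).filter mk.get) ∧
      t ≤ 2 * (Wl.map fun x => (adj.get x).length).sum + 3 * Wl.length + 1 := by
  refine (sp_foldL' (fun l (A : Arr (List ℕ)) => ∀ x ∈ Wl, x ∈ l ∨ A.get x = (adj.get x).filter mk.get)
    (fun x => 2 * (adj.get x).length + 2) (fun a l s k => (sp_filterP _ _).bind fun r t h =>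
      sp_pure.2 ⟨fun x hx => ?_, h.2⟩) fun x hx => .inl hx).mono fun r t h =>
        ⟨fun x hx => (h.1 x hx).resolve_left List.not_mem_nil, h.2.trans (le_of_eq ?_)⟩
  · by_cases c : x = a
    · rw [c, Arr.get_set, if_pos rfl]; exact .inr h.1
    · rw [Arr.get_set, if_neg c]
      exact (k x hx).imp_left fun q => (List.mem_cons.1 q).resolve_left c
  · clear * -
    induction Wl with
    | nil => rfl
    | cons a l ih => simp only [List.map_cons, List.sum_cons, List.length_cons] at ih ⊢; omega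

/-- the matching `m` without the pairs that leave `W` -/
def rst (W : Finset ℕ) (m : ℕ → ℕ) (x : ℕ) : ℕ := if m x ∈ W then m x else x

theorem isM_rst {m : ℕ → ℕ} (h : ∀ x ∈ W, m x ∈ W → m (m x) = x ∧ (m x ≠ x → E x (m x))) :
    IsM W E (rst W m) := fun x hx => by
  by_cases c : m x ∈ W
  · have e : rst W m x = m x := if_pos c
    rw [e, rst, (h x hx c).1, if_pos hx]
    exact ⟨c, rfl, (h x hx c).2⟩
  · have e : rst W m x = x := if_neg c
    rw [e, e]
    exact ⟨hx, rfl, fun k => absurd rfl k⟩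

theorem IsM.rst {m : ℕ → ℕ} (h : IsM V E m) (s : W ⊆ V) : IsM W E (rst W m) :=
  isM_rst fun _ hx _ => ⟨h.inv (s hx), h.adj (s hx)⟩

theorem sCost_mono {adj adj' : Arr (List ℕ)} (s : W ⊆ V)
    (h : ∀ x ∈ W, (adj'.get x).length ≤ (adj.get x).length) : sCost W adj' ≤ sCost V adj := by
  have a : ∑ x ∈ W, (adj'.get x).length ≤ ∑ x ∈ V, (adj.get x).length :=
    (sum_le_sum h).trans (sum_le_sum_of_subset s)
  have b := card_le_card s
  have c := Nat.mul_le_mul b
    (show 2 * Nat.log 2 #W + 15 ≤ 2 * Nat.log 2 #V + 15 by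
      have := Nat.log_mono_right (b := 2) b; omega)
  unfold sCost; omega

/-- restrict `m` to the listed vertices, search there; returns the restricted matching too -/
def searchOn (adj : Arr (List ℕ)) (Wl : List ℕ) (fu : ℕ) (m : Arr ℕ) :
    R (Arr ℕ × Option (List (ℕ × ℕ))) :=
  setAllP (fun _ => true) Wl (.cst false) >>= fun mk => subAdj adj mk Wl >>= fun A =>
    setAllP (fun x => if mk.get (m.get x) then m.get x else x) Wl m >>= fun m0 =>
      search A Wl fu m0 >>= fun o => pure (m0, o)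

theorem sp_searchOn {adj : Arr (List ℕ)} {Wl : List ℕ} {fu : ℕ} {m : Arr ℕ}
    (hE : ∀ a b, E a b → E b a) (hA : Adj V E adj) (s : W ⊆ V) (nd : Wl.Nodup)
    (hW : ∀ v, v ∈ Wl ↔ v ∈ W) (hm : IsM W E (rst W m.get)) (hX : #W ≤ g.X)
    (hf : sCost W adj ≤ fu) :
    Sp g (searchOn adj Wl fu m) fun r t => (∀ x, r.1.get x = if x ∈ W then rst W m.get x else m.get x) ∧
      IsM W E r.1.get ∧ Found W E r.1.get r.2 ∧ t + #W + 1 ≤ 2 * sCost W adj := by
  have eV : Wl.toFinset = W := by ext v; simp [hW]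
  have cV : Wl.length = #W := by rw [← eV, List.toFinset_card_of_nodup nd]
  have sV : (Wl.map fun v => (adj.get v).length).sum = ∑ v ∈ W, (adj.get v).length := by
    rw [← eV, List.sum_toFinset _ nd]
  refine (sp_setAllP _ _ _).bind fun mk t1 ⟨a1, e1⟩ => (sp_subAdj adj mk Wl).bind
    fun A t2 ⟨a2, e2⟩ => (sp_setAllP _ _ _).bind fun m0 t3 ⟨a3, e3⟩ => ?_
  have k : ∀ u, mk.get u = true ↔ u ∈ W := fun u => by
    rw [a1, ← hW]; by_cases c : u ∈ Wl <;> simp [c]
  have e0 : ∀ x, m0.get x = if x ∈ W then rst W m.get x else m.get x := fun x => by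
    simp only [a3, k, hW, rst]
  have h0 : IsM W E m0.get := hm.congr fun v hv => by rw [e0, if_pos hv]
  have c : sCost W A ≤ sCost W adj := sCost_mono Subset.rfl fun x hx => by
    rw [a2 x ((hW x).2 hx)]; exact List.length_filter_le _ _
  refine (sp_search hE h0 (fun v hv u => ?_) nd hW hX (c.trans hf)).bind fun o t4 ⟨a4, e4⟩ =>
    sp_pure.2 ⟨e0, h0, a4, ?_⟩
  · rw [a2 v ((hW v).2 hv), List.mem_filter, hA v (s hv), k]
    exact ⟨fun q => ⟨q.2, q.1.2⟩, fun q => ⟨⟨s q.1, q.2⟩, q.1⟩⟩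
  · have : sCost W adj = 10 * ∑ v ∈ W, (adj.get v).length + (#W * (2 * Nat.log 2 #W) + #W * 15) +
      11 := by rw [sCost, mul_add]
    omega

/-- restrict `m` to the listed vertices and augment once there -/
def stepOn (adj : Arr (List ℕ)) (Wl : List ℕ) (fu : ℕ) (m : Arr ℕ) : R (Arr ℕ) :=
  searchOn adj Wl fu m >>= fun r => Option.casesOn r.2 (pure r.1) fun P => flpA r.1 P

theorem sp_stepOn {adj : Arr (List ℕ)} {Wl : List ℕ} {fu : ℕ} {m : Arr ℕ}
    (hE : ∀ a b, E a b → E b a) (hA : Adj V E adj) (s : W ⊆ V) (nd : Wl.Nodup)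
    (hW : ∀ v, v ∈ Wl ↔ v ∈ W) (hm : IsM W E (rst W m.get)) (hX : #W ≤ g.X)
    (hf : sCost W adj ≤ fu) :
    Sp g (stepOn adj Wl fu m) fun r t => (∀ x, x ∉ W → r.get x = m.get x) ∧ IsM W E r.get ∧
      (Max W E r.get ∨ ex W r.get + 2 ≤ ex W (rst W m.get)) ∧ t ≤ 2 * sCost W adj := by
  refine (sp_searchOn hE hA s nd hW hm hX hf).bind ?_
  rintro ⟨m0, _ | P⟩ t ⟨a, b, c, d⟩
  · exact ⟨fun x hx => (a x).trans (if_neg hx), b, .inl c, by omega⟩
  · have hP : Imp W E m0.get P := c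
    have l := hP.1.length_le
    refine (sp_flpA m0 P).mono fun r u k => ⟨fun x hx => ?_, k.1 ▸ hP.1.isM hE b, .inr ?_, by omega⟩
    · rw [k.1, flp_of_notMem fun q => hx (hP.1.sub x q)]; exact (a x).trans (if_neg hx)
    · have : ex W m0.get = ex W (rst W m.get) :=
        congrArg card (exs_congr fun v hv => (a v).trans (if_pos hv))
      rw [k.1, ← this]; exact hP.ex_flp

/-- move the exposed vertex of the factor-critical set `Sl` to `v` -/
def rebase (adj : Arr (List ℕ)) (Sl : List ℕ) (fu : ℕ) (m : Arr ℕ) (v : ℕ) : R (Arr ℕ) :=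
  filterP (fun x => if x = v then false else true) Sl >>= fun Wl => stepOn adj Wl fu m

/-- **moving the base** -/
theorem sp_rebase {adj : Arr (List ℕ)} {Sl : List ℕ} {fu b v : ℕ} {m : Arr ℕ}
    (hE : ∀ a b, E a b → E b a) (hA : Adj V E adj) (s : S ⊆ V) (nd : Sl.Nodup)
    (hS : ∀ v, v ∈ Sl ↔ v ∈ S) (pm : PM (S.erase v) E) (hm : IsP (S.erase b) E m.get)
    (hb : m.get b ∉ S.erase b) (hX : #S ≤ g.X) (hf : sCost S adj ≤ fu) :
    Sp g (rebase adj Sl fu m v) fun r t => IsP (S.erase v) E r.get ∧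
      (∀ x, x ∉ S.erase v → r.get x = m.get x) ∧ t ≤ 3 * sCost S adj := by
  have cV : Sl.length = #S := by
    rw [← List.toFinset_card_of_nodup nd]; congr 1; ext v; simp [hS]
  have c : sCost (S.erase v) adj ≤ sCost S adj := sCost_mono (erase_subset _ _) fun _ _ => le_rfl
  have h0 : IsM (S.erase v) E (rst (S.erase v) m.get) := isM_rst fun x hx k => by
    by_cases q : x = b
    · have : m.get x = x := by
        by_contra z
        exact hb (q ▸ mem_erase.2 ⟨z, mem_of_mem_erase k⟩)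
      exact ⟨by rw [this, this], fun z => absurd this z⟩
    · have := mem_erase.2 ⟨q, mem_of_mem_erase hx⟩
      exact ⟨hm.1.inv this, hm.1.adj this⟩
  have e2 : ex (S.erase v) (rst (S.erase v) m.get) ≤ 2 := by
    refine (card_le_card (t := {b, m.get v}) fun x k => ?_).trans card_le_two
    obtain ⟨k1, k2⟩ := mem_exs.1 k
    by_contra z
    rw [mem_insert, mem_singleton, not_or] at z
    have hx := mem_erase.2 ⟨z.1, mem_of_mem_erase k1⟩
    rw [rst, if_pos (mem_erase.2 ⟨fun q => z.2 (by rw [← q, hm.1.inv hx]),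
      mem_of_mem_erase (hm.1.mem hx)⟩)] at k2
    exact hm.2 x hx k2
  refine (sp_filterP _ _).bind fun Wl t1 ⟨a1, e1⟩ => (sp_stepOn hE hA
    ((erase_subset _ _).trans s) (a1 ▸ nd.filter _) (fun x => ?_) h0
    ((card_le_card (erase_subset _ _)).trans hX) (c.trans hf)).mono fun r t ⟨a, a', d, e⟩ =>
      ⟨isP_of_ex a' ?_, a, ?_⟩
  · rw [a1, List.mem_filter, hS, mem_erase]
    by_cases q : x = v <;> simp [q]
  · rcases d with d | d
    · obtain ⟨p, hp⟩ := pm
      have := d p hp.1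
      rw [hp.ex] at this; omega
    · omega
  · have : sCost S adj = 10 * ∑ v ∈ S, (adj.get v).length + (#S * (2 * Nat.log 2 #S) + #S * 15) +
      11 := by rw [sCost, mul_add]
    omega

/-- move the base of the class `K x` to `x`, for every listed `x` -/
def rbAll (adj : Arr (List ℕ)) (K : ℕ → List ℕ) (fu : ℕ) (L : List ℕ) (m : Arr ℕ) : R (Arr ℕ) :=
  foldL (fun x m => rebase adj (K x) fu m x) L m

theorem sp_rbAll {adj : Arr (List ℕ)} {K : ℕ → List ℕ} {fu : ℕ} {L : List ℕ} {m : Arr ℕ}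
    (hE : ∀ a b, E a b → E b a) (hA : Adj V E adj) (hX : #V ≤ g.X) (hf : sCost V adj ≤ fu)
    (nd : L.Nodup) (dj : ∀ x ∈ L, ∀ y ∈ L, x ≠ y → ∀ v ∈ K x, v ∉ K y)
    (hK : ∀ x ∈ L, (K x).Nodup ∧ (K x).toFinset ⊆ V ∧ PM ((K x).toFinset.erase x) E ∧
      ∃ b ∈ K x, IsP ((K x).toFinset.erase b) E m.get ∧ m.get b ∉ (K x).toFinset.erase b) :
    Sp g (rbAll adj K fu L m) fun r t => (∀ x ∈ L, IsP ((K x).toFinset.erase x) E r.get) ∧
      (∀ v, (∀ x ∈ L, v ∉ K x) → r.get v = m.get v) ∧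
      t ≤ (L.map fun x => 3 * sCost (K x).toFinset adj + 1).sum + 1 := by
  refine (sp_foldL' (fun l (r : Arr ℕ) => l.Nodup ∧ (∀ x ∈ l, x ∈ L) ∧
      (∀ x ∈ L, x ∉ l → IsP ((K x).toFinset.erase x) E r.get) ∧
      ∀ v, (∀ x ∈ L, x ∉ l → v ∉ K x) → r.get v = m.get v) _ ?_
    ⟨nd, fun _ => id, fun x a b => absurd a b, fun _ _ => rfl⟩).mono fun r t ⟨⟨_, _, a, b⟩, c⟩ =>
      ⟨fun x hx => a x hx List.not_mem_nil, fun v k => b v fun x hx _ => k x hx, c⟩
  rintro x l r ⟨i1, i2, i3, i4⟩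
  have hx := i2 x List.mem_cons_self
  obtain ⟨k1, k2, k3, b, hb, k4, k5⟩ := hK x hx
  have same : ∀ v ∈ K x, r.get v = m.get v := fun v hv => i4 v fun y hy q =>
    dj x hx y hy (fun e => q (e ▸ List.mem_cons_self)) v hv
  refine (sp_rebase hE hA k2 k1 (fun _ => List.mem_toFinset.symm) k3 (b := b)
    (k4.congr fun v hv => same v (List.mem_toFinset.1 (mem_of_mem_erase hv))) (same b hb ▸ k5)
    ((card_le_card k2).trans hX) ((sCost_mono k2 fun _ _ => le_rfl).trans hf)).mono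
    fun r' t ⟨a1, a2, a3⟩ => ⟨⟨i1.of_cons, fun y q => i2 y (List.mem_cons_of_mem _ q),
      fun y hy q => ?_, fun v q => ?_⟩, a3⟩
  · by_cases c : y = x
    · exact c ▸ a1
    · exact (i3 y hy fun z => q ((List.mem_cons.1 z).resolve_left c)).congr fun v hv =>
        a2 v fun z => dj y hy x hx c v (List.mem_toFinset.1 (mem_of_mem_erase hv))
          (List.mem_toFinset.1 (mem_of_mem_erase z))
  · rw [a2 v fun z => q x hx (List.nodup_cons.1 i1).1 (List.mem_toFinset.1 (mem_of_mem_erase z))]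
    exact i4 v fun y hy z => q y hy fun w => z (List.mem_cons_of_mem _ w)

/-- match the pairs `Q` after moving the bases of the classes of their ends -/
def augC (adj : Arr (List ℕ)) (K : ℕ → List ℕ) (fu : ℕ) (Q : List (ℕ × ℕ)) (m : Arr ℕ) :
    R (Arr ℕ) :=
  flatMapP (fun e => [e.1, e.2]) Q >>= fun L => rbAll adj K fu L m >>= fun r => flpA r Q

/-- **flipping a contracted patch**: the classes `K x` of the ends `x` of the edges `Q` are disjoint,
factor-critical, nearly perfectly matched, and their union `U` is closed under `m` -/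
theorem sp_augC {adj : Arr (List ℕ)} {K : ℕ → List ℕ} {fu : ℕ} {Q : List (ℕ × ℕ)} {m : Arr ℕ}
    {U : Finset ℕ} (hE : ∀ a b, E a b → E b a) (hA : Adj V E adj) (hX : #V ≤ g.X)
    (hf : sCost V adj ≤ fu) (hm : IsM V E m.get) (nd : (vs Q).Nodup) (ed : ∀ e ∈ Q, E e.1 e.2)
    (dj : ∀ x ∈ vs Q, ∀ y ∈ vs Q, x ≠ y → ∀ v ∈ K x, v ∉ K y)
    (hK : ∀ x ∈ vs Q, (K x).Nodup ∧ x ∈ K x ∧ (K x).toFinset ⊆ V ∧ FC (K x).toFinset E ∧
      ∃ b ∈ K x, IsP ((K x).toFinset.erase b) E m.get)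
    (hU : ∀ v, v ∈ U ↔ ∃ x ∈ vs Q, v ∈ K x) (cl : ∀ v ∈ U, m.get v ∈ U) :
    Sp g (augC adj K fu Q m) fun r t => IsM V E r.get ∧ ex V r.get + ex U m.get = ex V m.get ∧
      (∀ v, v ∉ U → r.get v = m.get v) ∧ (∀ e ∈ Q, r.get e.1 = e.2 ∧ r.get e.2 = e.1) ∧
      (∀ x ∈ vs Q, IsP ((K x).toFinset.erase x) E r.get) ∧
      t ≤ ((vs Q).map fun x => 3 * sCost (K x).toFinset adj + 5).sum + 4 := by
  refine (sp_flatMapP _ Q).bind ?_
  rintro _ t1 ⟨rfl, e1⟩
  change t1 ≤ 2 * (vs Q).length + _ + _ at e1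
  refine (sp_rbAll (L := vs Q) hE hA hX hf nd dj fun x hx => ?_).bind fun r t2 ⟨a1, a2, e2⟩ =>
    (sp_flpA r Q).mono fun r' t3 ⟨a3, e3⟩ => ?_
  · obtain ⟨k1, k2, k3, k4, b, hb, k5⟩ := hK x hx
    refine ⟨k1, k3, k4 x (List.mem_toFinset.2 k2), b, hb, k5, fun q => ?_⟩
    have := k5.1.mem q
    rw [hm.inv (k3 (List.mem_toFinset.2 hb))] at this
    exact notMem_erase _ _ this
  · have p : ∀ x ∈ vs Q, IsP ((K x).toFinset.erase x) E r'.get := fun x hx =>
      (a1 x hx).congr fun v hv => by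
        rw [a3, flp_of_notMem fun q => dj v q x hx (mem_erase.1 hv).1 v (hK v q).2.1
          (List.mem_toFinset.1 (mem_of_mem_erase hv))]
    have q : ∀ e ∈ Q, r'.get e.1 = e.2 ∧ r'.get e.2 = e.1 ∧ e.1 ≠ e.2 := fun e he =>
      a3 ▸ flp_of_mem nd he
    have o : ∀ v, v ∉ U → r'.get v = m.get v := fun v hv => by
      rw [a3, flp_of_notMem fun z => hv ((hU v).2 ⟨v, z, (hK v z).2.1⟩)]
      exact a2 v fun x hx z => hv ((hU v).2 ⟨x, hx, z⟩)
    have := hm.rematch (U := U) (m' := r'.get) (fun v hv => by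
        obtain ⟨x, hx, z⟩ := (hU v).1 hv
        exact (hK x hx).2.2.1 (List.mem_toFinset.2 z)) cl
      (isP_of_ports hE (K := fun x => (K x).toFinset) (Q := Q) (by simpa using hU)
        (fun x hx => ⟨List.mem_toFinset.2 (hK x hx).2.1, p x hx⟩)
        fun e he => ⟨(q e he).1, (q e he).2.1, (q e he).2.2, ed e he⟩) fun v _ => o v
    refine ⟨this.1, this.2, o, fun e he => ⟨(q e he).1, (q e he).2.1⟩, p, ?_⟩
    have s : ((vs Q).map fun x => 3 * sCost (K x).toFinset adj + 5).sum =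
        ((vs Q).map fun x => 3 * sCost (K x).toFinset adj + 1).sum + 4 * (vs Q).length := by
      generalize vs Q = l
      induction l with
      | nil => rfl
      | cons a l ih => simp only [List.map_cons, List.sum_cons, List.length_cons, ih]; omega
    have := length_vs Q
    omega

section impl
variable {α : Type} [Rp α] {adj : α → Arr (List ℕ)} {l : α → List ℕ} {fu v : α → ℕ}
  {m : α → Arr ℕ} {K : α → ℕ → List ℕ}

@[fun_prop] theorem impl_subAdj {mk : α → Arr Bool} (h1 : Pu true adj) (h2 : Pu true mk)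
    (h3 : Pu true l) : Impl fun a => subAdj (adj a) (mk a) (l a) := by
  unfold subAdj; impl

@[fun_prop] theorem impl_searchOn (h1 : Pu true adj) (h2 : Pu true l) (h3 : Pu true fu)
    (h4 : Pu true m) : Impl fun a => searchOn (adj a) (l a) (fu a) (m a) := by
  unfold searchOn; impl

@[fun_prop] theorem impl_stepOn (h1 : Pu true adj) (h2 : Pu true l) (h3 : Pu true fu)
    (h4 : Pu true m) : Impl fun a => stepOn (adj a) (l a) (fu a) (m a) := by
  unfold stepOn; impl

@[fun_prop] theorem impl_rebase (h1 : Pu true adj) (h2 : Pu true l) (h3 : Pu true fu)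
    (h4 : Pu true m) (h5 : Pu true v) :
    Impl fun a => rebase (adj a) (l a) (fu a) (m a) (v a) := by
  unfold rebase; impl

@[fun_prop] theorem impl_rbAll (h1 : Pu true adj) (h0 : Pu true fun p : α × ℕ => K p.1 p.2)
    (h3 : Pu true fu) (h2 : Pu true l) (h4 : Pu true m) :
    Impl fun a => rbAll (adj a) (K a) (fu a) (l a) (m a) := by
  unfold rbAll; impl

@[fun_prop] theorem impl_augC {Q : α → List (ℕ × ℕ)} (h1 : Pu true adj)
    (h0 : Pu true fun p : α × ℕ => K p.1 p.2) (h3 : Pu true fu) (h2 : Pu true Q)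
    (h4 : Pu true m) : Impl fun a => augC (adj a) (K a) (fu a) (Q a) (m a) := by
  unfold augC; impl

end impl

end Crest.Agent.N325.Mt
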