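import Crest.Agent.N325.Mt.Hall
import Crest.Agent.N325.Dm.Defs

/-!
# Row 325 (helper90): a minimal closed region of the edge search is factor-critical
-/

set_option autoImplicit false
open Finset

namespace Crest.Agent.N325.Dm.Bg

open Mt

variable {G : Bg} {Cl : ℕ → Prop} {u u2 d : ℕ} {A C : Finset ℕ}

theorem mt_of_mu {c a : ℕ} (h : G.mu c = some a) : G.mt c = a := by unfold mt; rw [h]

theorem Closed.mu_mt (h : G.Closed Cl u u2 A C d) {c : ℕ} (k : c ∈ C.erase d) :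
    G.mt c ∈ A ∧ G.mu c = some (G.mt c) := by
  obtain ⟨a, x, y⟩ := h.mu c (mem_of_mem_erase k) (mem_erase.1 k).1
  rw [mt_of_mu y]; exact ⟨x, y⟩

theorem Closed.injOn (hG : G.WF Cl) (h : G.Closed Cl u u2 A C d) : Set.InjOn G.mt (C.erase d) :=
  fun c k c' k' e => hG.inj c c' _ (h.cl c (mem_of_mem_erase k)) (h.cl c' (mem_of_mem_erase k'))
    (h.mu_mt k).2 (e ▸ (h.mu_mt k').2)

/-- the inner vertices of a closed region are the mates of its classes other than the base -/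
theorem Closed.image_mt (hG : G.WF Cl) (h : G.Closed Cl u u2 A C d) :
    (C.erase d).image G.mt = A :=
  eq_of_subset_of_card_le (image_subset_iff.2 fun _ k => (h.mu_mt k).1) (by
    rw [card_image_of_injOn (h.injOn hG), card_erase_of_mem h.hd, h.card]; rfl)

theorem Closed.mate (hG : G.WF Cl) (h : G.Closed Cl u u2 A C d) {a : ℕ} (ha : a ∈ A) :
    ∃ c ∈ C, c ≠ d ∧ G.mu c = some a := by
  obtain ⟨c, k, rfl⟩ := mem_image.1 (h.image_mt hG ▸ ha)
  exact ⟨c, mem_of_mem_erase k, (mem_erase.1 k).1, (h.mu_mt k).2⟩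

/-- the mate of the base lies outside -/
theorem Closed.base_out (hG : G.WF Cl) (h : G.Closed Cl u u2 A C d) {a : ℕ} (ha : a ∈ A) :
    G.mu d ≠ some a := fun e =>
  let ⟨c, k, n, e'⟩ := h.mate hG ha
  n (hG.inj c d a (h.cl c k) (h.cl d h.hd) e' e)

/-- **the merged class is factor-critical** -/
theorem Closed.fc {E : ℕ → ℕ → Prop} {K : ℕ → Finset ℕ} {x y : ℕ} (hE : ∀ a b, E a b → E b a)
    (hG : G.WF Cl) (hS : G.Surplus Cl) (h : G.Closed Cl u u2 A C d)
    (mn : ∀ A' C' d', G.Closed Cl u u2 A' C' d' → A' ⊆ A → A' = A) (ne : u ≠ u2)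
    (fc : ∀ c ∈ C, FC (K c) E) (dj : ∀ c ∈ C, ∀ c' ∈ C, c ≠ c' → Disjoint (K c) (K c'))
    (out : ∀ a ∈ A, ∀ c ∈ C, a ∉ K c) (ed : ∀ a ∈ A, ∀ c ∈ C, G.Nb a c → ∃ x ∈ K c, E a x)
    (hx : x ∈ K u) (hy : y ∈ K u2) (e : E x y) : FC (A ∪ C.biUnion K) E := by
  classical
  have mem : ∀ B ⊆ A, ∀ a ∈ B, ∀ c, G.Nb a c → c ∈ B.biUnion fun a => C.filter (G.Nb a) :=
    fun B s a ha c k => mem_biUnion.2 ⟨a, ha, mem_filter.2 ⟨h.nb a (s ha) c k, k⟩⟩
  refine FC.hall (H := fun a => C.filter (G.Nb a)) hE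
    ⟨fc, dj, out, fun a ha c hc k => ed a ha c hc (mem_filter.1 k).2⟩
    (fun _ _ => filter_subset _ _) h.card (fun B s n => hS B _ n (fun a ha => ?_) (mem B s))
    h.hu h.hu2 ne hx hy e fun B s q q' c => ?_
  · obtain ⟨c, k, -, e⟩ := h.mate hG (s ha)
    exact ⟨c, h.cl c k, e⟩
  · set N := B.biUnion fun a => C.filter (G.Nb a)
    have sN : N ⊆ C := biUnion_subset.2 fun _ _ => filter_subset _ _
    have sP : (C.erase d).filter (fun c => G.mt c ∈ B) ⊆ N := fun c k =>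
      have k := mem_filter.1 k
      mem B s _ k.2 c (hG.nb c _ (h.cl c (mem_of_mem_erase k.1)) (h.mu_mt k.1).2)
    have cP : #((C.erase d).filter fun c => G.mt c ∈ B) = #B := by
      rw [← card_image_of_injOn ((h.injOn hG).mono (coe_subset.2 (filter_subset _ _))),
        ← filter_image (p := (· ∈ B)), h.image_mt hG, filter_mem_eq_inter, inter_eq_right.2 s]
    obtain ⟨d', e'⟩ := card_eq_one.1
      (show #(N \ (C.erase d).filter fun c => G.mt c ∈ B) = 1 by
        rw [card_sdiff_of_subset sP]; omega)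
    refine mn B N d' ⟨q, q', fun c k => h.cl c (sN k), mem B s, c,
      (mem_sdiff.1 (e' ▸ mem_singleton_self d')).1, fun c k n => ?_⟩ s
    have : c ∈ (C.erase d).filter fun c => G.mt c ∈ B := by
      by_contra z
      exact n (mem_singleton.1 (e' ▸ mem_sdiff.2 ⟨k, z⟩))
    exact ⟨_, (mem_filter.1 this).2, (h.mu_mt (mem_filter.1 this).1).2⟩

end Crest.Agent.N325.Dm.Bg
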