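import Mathlib

/-! The Tutte–Berge formula for mate maps (definition-free form). -/

set_option autoImplicit false
open Finset

namespace Crest.Agent.N325.Mt

/-- a fixed-point free involution lives on an even set. -/
theorem even_card_of_invol (C : Finset ℕ) (m : ℕ → ℕ) (h1 : ∀ v ∈ C, m v ∈ C)
    (h2 : ∀ v ∈ C, m (m v) = v) (h3 : ∀ v ∈ C, m v ≠ v) : Even #C := by
  have := sum_involution (s := C) (f := fun _ => (1 : ZMod 2)) (fun v _ => m v)
    (fun _ _ => by decide) (fun v hv _ => h3 v hv) h1 h2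
  simp only [sum_const, nsmul_eq_mul, mul_one] at this
  exact (ZMod.natCast_eq_zero_iff_even).1 this

/-- parity of the number of exposed vertices. -/
theorem even_card_add_ex (C : Finset ℕ) (m : ℕ → ℕ) (h1 : ∀ v ∈ C, m v ∈ C)
    (h2 : ∀ v ∈ C, m (m v) = v) : Even (#C + #(C.filter fun v => m v = v)) := by
  have h := even_card_of_invol (C.filter fun v => ¬m v = v) m
    (fun v hv => by
      obtain ⟨a, b⟩ := mem_filter.1 hv
      exact mem_filter.2 ⟨h1 v a, by rw [h2 v a]; exact fun e => b e.symm⟩)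
    (fun v hv => h2 v (mem_filter.1 hv).1) fun v hv => (mem_filter.1 hv).2
  have := card_filter_add_card_filter_not (s := C) (fun v => m v = v)
  obtain ⟨k, hk⟩ := h
  exact ⟨#(C.filter fun v => m v = v) + k, by omega⟩

/-- `F` is a family of disjoint odd sets whose edges leave only to `A`. -/
structure Bar (V : Finset ℕ) (E : ℕ → ℕ → Prop) (A : Finset ℕ) (F : Finset (Finset ℕ)) : Prop where
  sub : ∀ C ∈ F, C ⊆ V
  dA : ∀ C ∈ F, Disjoint C A
  odd : ∀ C ∈ F, Odd #C
  cl : ∀ C ∈ F, ∀ u ∈ C, ∀ v ∈ V, E u v → v ∈ C ∨ v ∈ A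
  dis : ∀ C ∈ F, ∀ C' ∈ F, C ≠ C' → Disjoint C C'

/-- the easy half. -/
theorem Bar.card_le {V : Finset ℕ} {E : ℕ → ℕ → Prop} {A : Finset ℕ} {F : Finset (Finset ℕ)}
    (h : Bar V E A F) {m : ℕ → ℕ}
    (hm : ∀ v ∈ V, m v ∈ V ∧ m (m v) = v ∧ (m v ≠ v → E v (m v))) :
    #F ≤ #(V.filter fun v => m v = v) + #A := by
  have hex : ∀ C ∈ F, ∃ v ∈ C, m v = v ∨ m v ∈ A := by
    intro C hC
    by_contra hno
    push Not at hno
    refine Nat.not_even_iff_odd.2 (h.odd C hC) (even_card_of_invol C m (fun v hv => ?_)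
      (fun v hv => (hm v (h.sub C hC hv)).2.1) fun v hv => (hno v hv).1)
    have a := hm v (h.sub C hC hv)
    exact (h.cl C hC v hv _ a.1 (a.2.2 (hno v hv).1)).resolve_right (hno v hv).2
  choose! f hf using hex
  refine le_trans ?_ (card_union_le _ _)
  refine card_le_card_of_injOn (fun C => m (f C)) (fun C hC => ?_) fun C hC C' hC' e => ?_
  · have a := h.sub C hC (hf C hC).1
    rcases (hf C hC).2 with b | b
    · exact mem_coe.2 (mem_union_left _ (mem_filter.2 ⟨(hm _ a).1, by simp only [b]⟩))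
    · exact mem_coe.2 (mem_union_right _ b)
  · by_contra hne
    have e' : f C = f C' := by
      rw [← (hm _ (h.sub C hC (hf C hC).1)).2.1, ← (hm _ (h.sub C' hC' (hf C' hC').1)).2.1]
      exact congrArg m e
    exact disjoint_left.1 (h.dis C hC C' hC' hne) (hf C hC).1 (e' ▸ (hf C' hC').1)

/-- the graph with `j` extra universal vertices. -/
def uniG (V : Finset ℕ) (E : ℕ → ℕ → Prop) (hE : ∀ a b, E a b → E b a) (j : ℕ) :
    SimpleGraph (V ⊕ Fin j) where
  Adj x y := x ≠ y ∧ ∀ a b, x = .inl a → y = .inl b → E a b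
  symm := ⟨fun _ _ h => ⟨h.1.symm, fun a b h1 h2 => hE _ _ (h.2 b a h2 h1)⟩⟩
  loopless := ⟨fun _ h => h.1 rfl⟩

theorem exists_of_perfect {V : Finset ℕ} {E : ℕ → ℕ → Prop} {hE : ∀ a b, E a b → E b a} {j : ℕ}
    {M : (uniG V E hE j).Subgraph} (hM : M.IsPerfectMatching) :
    ∃ m : ℕ → ℕ, (∀ v ∈ V, m v ∈ V ∧ m (m v) = v ∧ (m v ≠ v → E v (m v))) ∧
      #(V.filter fun v => m v = v) ≤ j := by
  rw [SimpleGraph.Subgraph.isPerfectMatching_iff] at hM
  choose μ hμ hu using hM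
  have hinv : ∀ x, μ (μ x) = x := fun x => (hu _ _ (hμ x).symm).symm
  have hadj : ∀ x, (uniG V E hE j).Adj x (μ x) := fun x => M.adj_sub (hμ x)
  let m : ℕ → ℕ := fun v =>
    if h : v ∈ V then Sum.elim (fun b : V => (b : ℕ)) (fun _ => v) (μ (.inl ⟨v, h⟩)) else v
  have hl : ∀ (a b : V), μ (.inl a) = .inl b → m a = b := fun a b e => by
    simp only [m, dif_pos a.2, Subtype.coe_eta, e, Sum.elim_inl]
  have hr : ∀ (a : V) i, μ (.inl a) = .inr i → m a = a := fun a b e => by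
    simp only [m, dif_pos a.2, Subtype.coe_eta, e, Sum.elim_inr]
  refine ⟨m, fun v hv => ?_, ?_⟩
  · rcases e : μ (.inl ⟨v, hv⟩) with b | i
    · have e1 : m v = b := hl _ _ e
      have e2 := hl b ⟨v, hv⟩ (by rw [← e, hinv])
      rw [e1]
      exact ⟨b.2, e2, fun _ => (hadj _).2 _ _ rfl e⟩
    · have e1 : m v = v := hr _ _ e
      rw [e1, e1]
      exact ⟨hv, rfl, fun h => absurd rfl h⟩
  · have hex : ∀ v ∈ V.filter fun v => m v = v, ∃ i : ℕ, ∃ (hi : i < j) (hv : v ∈ V),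
        μ (.inr ⟨i, hi⟩) = .inl ⟨v, hv⟩ := by
      intro v hv
      obtain ⟨hv, h2⟩ := mem_filter.1 hv
      rcases e : μ (.inl ⟨v, hv⟩) with b | i
      · have e1 : m v = b := hl _ _ e
        refine absurd ?_ (hadj (.inl ⟨v, hv⟩)).1
        rw [e]; congr 1; exact Subtype.ext (h2.symm.trans e1)
      · exact ⟨i, i.2, hv, by rw [Fin.eta, ← e, hinv]⟩
    choose! f hf using hex
    rw [← card_range j]
    refine card_le_card_of_injOn f (fun v hv => ?_) fun v hv w hw e => ?_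
    · obtain ⟨hi, -⟩ := hf v hv
      exact mem_coe.2 (mem_range.2 hi)
    · obtain ⟨hi, h1, h2⟩ := hf v hv
      obtain ⟨hi', h1', h2'⟩ := hf w hw
      simp only [e] at h2
      rw [h2'] at h2
      exact (congrArg Subtype.val (Sum.inl.inj h2)).symm

/-- **Tutte–Berge**, the hard half. -/
theorem exists_ex_le (V : Finset ℕ) (E : ℕ → ℕ → Prop) (hE : ∀ a b, E a b → E b a) (k : ℕ)
    (h : ∀ A ⊆ V, ∀ F, Bar V E A F → #F ≤ #A + k) :
    ∃ m : ℕ → ℕ, (∀ v ∈ V, m v ∈ V ∧ m (m v) = v ∧ (m v ≠ v → E v (m v))) ∧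
      #(V.filter fun v => m v = v) ≤ k := by
  classical
  obtain ⟨j, hj1, hj2, hj3⟩ : ∃ j, j ≤ k ∧ k ≤ j + 1 ∧ Even (#V + j) := by
    by_cases he : Even (#V + k)
    · exact ⟨k, le_rfl, by omega, he⟩
    · rcases k with _ | k
      · have := h ∅ (empty_subset _) {V} ⟨by simp, by simp, by simpa using he, by
          simp only [mem_singleton, forall_eq]; exact fun _ _ v hv _ => .inl hv, by simp⟩
        simp at this
      · refine ⟨k, by omega, le_rfl, ?_⟩
        rw [← add_assoc, Nat.even_add_one, not_not] at he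
        exact he
  by_cases hp : ∃ M : (uniG V E hE j).Subgraph, M.IsPerfectMatching
  · obtain ⟨M, hM⟩ := hp
    obtain ⟨m, a, b⟩ := exists_of_perfect hM
    exact ⟨m, a, b.trans hj1⟩
  exfalso
  rw [SimpleGraph.tutte] at hp
  push Not at hp
  obtain ⟨u, hu⟩ := hp
  unfold SimpleGraph.IsTutteViolator at hu
  set H := ((⊤ : (uniG V E hE j).Subgraph).deleteVerts u).coe with hH
  have hpar := H.odd_ncard_oddComponents
  have hcard : Nat.card ((⊤ : (uniG V E hE j).Subgraph).deleteVerts u).verts + u.ncard =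
      #V + j := by
    rw [Nat.card_coe_set_eq, SimpleGraph.Subgraph.deleteVerts_verts, SimpleGraph.Subgraph.verts_top,
      ← Set.compl_eq_univ_sdiff, add_comm, Set.ncard_add_ncard_compl]
    simp
  have h2 : u.ncard + 2 ≤ H.oddComponents.ncard := by
    rw [Nat.odd_iff, Nat.odd_iff] at hpar
    rw [Nat.even_iff] at hj3
    omega
  have hadj : ∀ x y, H.Adj x y ↔ (uniG V E hE j).Adj x.1 y.1 := fun x y => by
    simp [hH]
  have huni : ∀ i, Sum.inr i ∈ u := by
    intro i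
    by_contra hi
    have hc : ∀ x, H.Reachable ⟨.inr i, by simp [hi]⟩ x := fun x => by
      by_cases e : Sum.inr i = x.1
      · rw [show x = ⟨.inr i, by simp [hi]⟩ from Subtype.ext e.symm]
      · exact ((hadj _ _).2 ⟨e, fun a b h1 => by simp at h1⟩).reachable
    have : H.oddComponents.ncard ≤ 1 := by
      rw [Set.ncard_le_one_iff_subsingleton]
      intro c _ c' _
      induction c using SimpleGraph.ConnectedComponent.ind
      induction c' using SimpleGraph.ConnectedComponent.ind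
      exact SimpleGraph.ConnectedComponent.sound ((hc _).symm.trans (hc _))
    omega
  let f : V ⊕ Fin j → ℕ := Sum.elim (fun b => b) fun _ => 0
  have hinl : ∀ x : ((⊤ : (uniG V E hE j).Subgraph).deleteVerts u).verts,
      ∃ a : V, x.1 = .inl a ∧ Sum.inl a ∉ u := by
    rintro ⟨a | i, hx⟩
    · exact ⟨a, rfl, hx.2⟩
    · exact absurd (huni i) hx.2
  have hinj : Function.Injective
      fun x : ((⊤ : (uniG V E hE j).Subgraph).deleteVerts u).verts => f x.1 := by
    intro x y e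
    obtain ⟨a, ha, -⟩ := hinl x
    obtain ⟨b, hb, -⟩ := hinl y
    simp only [ha, hb, f, Sum.elim_inl] at e
    exact Subtype.ext (by rw [ha, hb, Subtype.ext e])
  let A : Finset ℕ := V.filter fun v => ∃ hv : v ∈ V, Sum.inl ⟨v, hv⟩ ∈ u
  let cs : H.ConnectedComponent → Finset ℕ := fun c => c.supp.toFinset.image fun x => f x.1
  have hcs : ∀ c v, v ∈ cs c ↔ ∃ x, H.connectedComponentMk x = c ∧ f x.1 = v := fun c v => by
    simp [cs, -Subtype.exists]
  have hdis : ∀ c c', c ≠ c' → Disjoint (cs c) (cs c') := fun c c' hne => by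
    rw [disjoint_left]
    intro v h1 h2
    obtain ⟨x, a1, a2⟩ := (hcs _ _).1 h1
    obtain ⟨y, b1, b2⟩ := (hcs _ _).1 h2
    exact hne (by rw [← a1, ← b1, hinj (a2.trans b2.symm)])
  have hcc : ∀ c, #(cs c) = c.supp.ncard := fun c => by
    rw [card_image_of_injective _ hinj, Set.ncard_eq_toFinset_card']
  have hB : Bar V E A (H.oddComponents.toFinset.image cs) := by
    refine ⟨fun C hC v hv => ?_, fun C hC => disjoint_left.2 fun v hv hA => ?_, fun C hC => ?_,
      fun C hC v hv w hw e => ?_, fun C hC C' hC' hne => ?_⟩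
    all_goals obtain ⟨c, hc, rfl⟩ := mem_image.1 hC
    · obtain ⟨x, -, rfl⟩ := (hcs _ _).1 hv
      obtain ⟨a, ha, -⟩ := hinl x
      rw [ha]; exact a.2
    · obtain ⟨x, -, rfl⟩ := (hcs _ _).1 hv
      obtain ⟨a, ha, ha'⟩ := hinl x
      rw [ha] at hA
      exact ha' (mem_filter.1 hA).2.2
    · rw [hcc]; exact (Set.mem_toFinset (s := H.oddComponents)).1 hc
    · obtain ⟨x, hx, rfl⟩ := (hcs _ _).1 hv
      obtain ⟨a, ha, ha'⟩ := hinl x
      by_cases hwu : Sum.inl ⟨w, hw⟩ ∈ u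
      · exact .inr (mem_filter.2 ⟨hw, hw, hwu⟩)
      refine .inl ((hcs _ _).2 ⟨⟨.inl ⟨w, hw⟩, by simp [hwu]⟩, ?_, rfl⟩)
      rw [← hx]
      by_cases e2 : Sum.inl ⟨w, hw⟩ = x.1
      · exact congrArg _ (Subtype.ext e2)
      · refine SimpleGraph.ConnectedComponent.sound ((hadj _ _).2 ⟨e2, fun p q h1 h2 => ?_⟩).reachable
        rw [ha] at e h2
        cases h1; cases h2
        exact hE _ _ e
    · obtain ⟨c', -, rfl⟩ := mem_image.1 hC'
      exact hdis _ _ fun e => hne (e ▸ rfl)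
  have h3 := h A (filter_subset _ _) _ hB
  rw [card_image_of_injOn, ← Set.ncard_eq_toFinset_card'] at h3
  · have h4 : #A + j ≤ u.ncard := by
      rw [Set.ncard_eq_toFinset_card', ← card_toLeft_add_card_toRight]
      refine add_le_add ?_ ?_
      · refine le_trans (card_le_card fun v hv => ?_) (card_image_le (f := Subtype.val))
        obtain ⟨hv, _, h2⟩ := mem_filter.1 hv
        exact mem_image.2 ⟨⟨v, hv⟩, by simpa using h2, rfl⟩
      · rw [show u.toFinset.toRight = univ from eq_univ_of_forall fun i => by simpa using huni i]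
        simp
    omega
  · intro c hc c' _ e
    by_contra hne
    have := hdis c c' hne
    rw [← e, disjoint_self, bot_eq_empty] at this
    have h5 : Odd c.supp.ncard := (Set.mem_toFinset (s := H.oddComponents)).1 (mem_coe.1 hc)
    rw [← hcc, this] at h5
    simp at h5

/-- **fractional certificate**: degrees `≤ r`, odd cuts `≥ r` up to the deficits `d`
(`d = 0`: an `r`-graph has a perfect matching). -/
theorem exists_ex_le_of_cuts {ι : Type*} (V : Finset ℕ) (E : ℕ → ℕ → Prop) (I : Finset ι)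
    (a b x : ι → ℕ) (d : ℕ → ℕ) (r : ℕ) (hr : 0 < r) (hE : ∀ u v, E u v → E v u)
    (hI : ∀ e ∈ I, a e ∈ V ∧ b e ∈ V ∧ E (a e) (b e))
    (hdeg : ∀ v ∈ V, ∑ e ∈ I, ((if a e = v then x e else 0) + if b e = v then x e else 0) ≤ r)
    (hcut : ∀ S ⊆ V, Odd #S →
      r ≤ (∑ e ∈ I, if (a e ∈ S ↔ b e ∈ S) then 0 else x e) + ∑ v ∈ S, d v) :
    ∃ m : ℕ → ℕ, (∀ v ∈ V, m v ∈ V ∧ m (m v) = v ∧ (m v ≠ v → E v (m v))) ∧
      #(V.filter fun v => m v = v) ≤ (∑ v ∈ V, d v) / r := by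
  refine exists_ex_le V E hE _ fun A hA F hF => ?_
  have h1 : #F * r ≤ ∑ C ∈ F, ((∑ e ∈ I, if (a e ∈ C ↔ b e ∈ C) then 0 else x e) + ∑ v ∈ C, d v) :=
    card_nsmul_le_sum F _ r fun C hC => hcut C (hF.sub C hC) (hF.odd C hC)
  have h2 : ∑ C ∈ F, ∑ v ∈ C, d v ≤ ∑ v ∈ V, d v := by
    rw [← sum_biUnion (t := fun C => C) fun C hC C' hC' hne => hF.dis C hC C' hC' hne]
    exact sum_le_sum_of_subset (biUnion_subset.2 hF.sub)
  have key : ∀ u ∈ V, ∀ v ∈ V, E u v → ∀ y : ℕ,
      (∑ C ∈ F, if u ∈ C ∧ v ∉ C then y else 0) ≤ ∑ w ∈ A, if v = w then y else 0 := by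
    intro u _ v hv e y
    by_cases hex : ∃ C ∈ F, u ∈ C ∧ v ∉ C
    · obtain ⟨C, hC, h3, h4⟩ := hex
      rw [sum_eq_single C (fun C' hC' hne => if_neg fun h5 =>
        disjoint_left.1 (hF.dis C' hC' C hC hne) h5.1 h3) (fun h => absurd hC h), if_pos ⟨h3, h4⟩,
        sum_ite_eq, if_pos ((hF.cl C hC u h3 v hv e).resolve_left h4)]
    · rw [sum_eq_zero fun C hC => if_neg fun h5 => hex ⟨C, hC, h5⟩]
      exact Nat.zero_le _
  have h3 : (∑ C ∈ F, ∑ e ∈ I, if (a e ∈ C ↔ b e ∈ C) then 0 else x e) ≤ #A * r := by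
    refine le_trans ?_ (sum_le_card_nsmul A _ r fun v hv => hdeg v (hA hv))
    rw [sum_comm, sum_comm (s := A)]
    refine sum_le_sum fun e he => ?_
    obtain ⟨ha, hb, hab⟩ := hI e he
    rw [sum_add_distrib]
    refine le_trans (le_of_eq ?_)
      (add_le_add (key _ hb _ ha (hE _ _ hab) (x e)) (key _ ha _ hb hab (x e)))
    rw [← sum_add_distrib]
    refine sum_congr rfl fun C _ => ?_
    by_cases p : a e ∈ C <;> by_cases q : b e ∈ C <;> simp [p, q]
  rw [sum_add_distrib] at h1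
  rw [← Nat.mul_div_cancel #A hr, ← Nat.add_div_of_dvd_right (Dvd.intro_left _ rfl),
    Nat.le_div_iff_mul_le hr]
  omega

end Crest.Agent.N325.Mt
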