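import Crest.Agent.N325.Mt.Top

/-!
# Row 325, M6 (T5): repeated searches finish a nearly maximum matching (helper12)
-/

set_option autoImplicit false
open Finset

namespace Crest.Agent.N325.Mt

variable {g : Gl} {V : Finset ℕ} {E : ℕ → ℕ → Prop}

/-- match all pairs of the list, on an array -/
def flpA (m : Arr ℕ) (P : List (ℕ × ℕ)) : R (Arr ℕ) :=
  foldP (fun e s => (s.set e.1 e.2).set e.2 e.1) P m

theorem foldl_flp (m : Arr ℕ) (P : List (ℕ × ℕ)) :
    (P.foldl (fun (s : Arr ℕ) e => (s.set e.1 e.2).set e.2 e.1) m).get = flp m.get P := by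
  induction P generalizing m with
  | nil => rfl
  | cons e P ih =>
    rw [List.foldl_cons, ih, Arr.set_get, Arr.set_get]; rfl

theorem sp_flpA (m : Arr ℕ) (P : List (ℕ × ℕ)) :
    Sp g (flpA m P) fun r t => r.get = flp m.get P ∧ t = P.length + 1 :=
  (sp_foldP _ P m).mono fun r t k => ⟨by rw [k.1, foldl_flp], k.2⟩

/-- what one search returns -/
def Found (V : Finset ℕ) (E : ℕ → ℕ → Prop) (m : ℕ → ℕ) : Option (List (ℕ × ℕ)) → Prop
  | none => Max V E m
  | some P => Imp V E m P

/-- one search, and the augmentation if there is one -/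
def finStep (search : Arr ℕ → R (Option (List (ℕ × ℕ)))) (s : Arr ℕ × Bool) : R (Arr ℕ × Bool) :=
  search s.1 >>= fun o => Option.casesOn o (pure (s.1, false)) fun P =>
    flpA s.1 P >>= fun m => pure (m, true)

/-- search until no augmentation is left (at most `k` searches) -/
def finish (search : Arr ℕ → R (Option (List (ℕ × ℕ)))) (k : ℕ) (m : Arr ℕ) : R (Arr ℕ) :=
  whileF (fun s => s.2) (finStep search) (k + 1) (m, true) >>= fun s => pure s.1

/-- If the matching is at most `j` augmentations away from every other matching, `j + 1` searches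
make it maximum. -/
theorem sp_finish (hE : ∀ a b, E a b → E b a) {search : Arr ℕ → R (Option (List (ℕ × ℕ)))} {c : ℕ}
    (hs : ∀ m : Arr ℕ, IsM V E m.get → Sp g (search m) fun o t => Found V E m.get o ∧ t ≤ c)
    {m : Arr ℕ} (hm : IsM V E m.get) {j k : ℕ} (hj : ∀ m', IsM V E m' → ex V m.get ≤ ex V m' + 2 * j)
    (hk : j + 1 ≤ k) :
    Sp g (finish search k m) fun r t => IsM V E r.get ∧ Max V E r.get ∧
      t ≤ (j + 1) * (c + V.card + 2) + 1 := by
  refine (sp_whileF (fun (s : Arr ℕ × Bool) t => IsM V E s.1.get ∧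
      ∃ i, t ≤ i * (c + V.card + 2) ∧ (s.2 = true → ex V s.1.get + 2 * i ≤ ex V m.get) ∧
        (s.2 = false → Max V E s.1.get ∧ i ≤ j + 1))
    (fun s => if s.2 = true then (ex V s.1.get + 2 * (j + 1) - ex V m.get) / 2 else 0)
    (fun s t ⟨a, i, b1, b2, _⟩ hc => (hs s.1 a).bind fun o u k => ?_) (t := 0)
    ⟨hm, 0, Nat.zero_le _, fun _ => le_rfl, fun e => by simp at e⟩
    (by simp only [if_true]; omega)).bind fun s u ⟨hc, u', e, a, i, b1, _, b3⟩ => ⟨a, (b3 hc).1, ?_⟩
  · have hi := b2 hc
    have h1 := hj _ a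
    cases o with
    | none =>
      refine ⟨⟨a, i + 1, ?_, fun e => by simp at e, fun _ => ⟨k.1, by omega⟩⟩, ?_⟩
      · have := k.2; rw [add_mul]; omega
      · simp only [hc, if_true, Bool.false_eq_true, if_false]; omega
    | some P =>
      have hP : Imp V E s.1.get P := k.1
      have h2 := hP.ex_flp
      have h3 := hP.1.isM hE a
      have h4 := hP.1.length_le
      have h5 := hj _ h3
      refine (sp_flpA s.1 P).bind fun r u' k' => ⟨⟨k'.1 ▸ h3, i + 1, ?_, fun _ => ?_,
        fun e => by simp at e⟩, ?_⟩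
      · have := k.2; have := k'.2; rw [add_mul]; omega
      · simp only [k'.1]; omega
      · simp only [hc, if_true, k'.1]; omega
  · have := Nat.mul_le_mul_right (c + V.card + 2) (b3 hc).2
    omega

end Crest.Agent.N325.Mt
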