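import Crest.Agent.N325.Mt.Inv
import Crest.Agent.N325.Lst.ListR

/-!
# Row 325, M6: extraction of a coded alternating path (helper12)
-/

set_option autoImplicit false

namespace Crest.Agent.N325.Mt

variable {g : Gl} {E : ℕ → ℕ → Prop}

/-- one step on (stack, pairs found so far) -/
def segStep (m lb : Arr ℕ) (br : Arr (ℕ × ℕ)) (s : List (ℕ × ℕ) × List (ℕ × ℕ)) :
    List (ℕ × ℕ) × List (ℕ × ℕ) :=
  List.casesOn s.1 s fun p st =>
    if p.1 = p.2 then (st, s.2)
    else if lb.get p.1 = 1 then (((br.get p.1).1, p.2) :: st, (m.get p.1, (br.get p.1).1) :: s.2)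
    else (((br.get p.1).1, m.get p.1) :: ((br.get p.1).2, p.2) :: st, br.get p.1 :: s.2)

/-- extract the coded paths on the stack -/
def segR (m lb : Arr ℕ) (br : Arr (ℕ × ℕ)) (fu : ℕ) (st acc : List (ℕ × ℕ)) :
    R (List (ℕ × ℕ)) :=
  whileF (fun s => !s.1.isEmpty) (fun s => pure (segStep m lb br s)) fu (st, acc) >>=
    fun s => pure s.2

theorem sp_segR_gen {m lb : Arr ℕ} {br : Arr (ℕ × ℕ)} {fu : ℕ} {st acc : List (ℕ × ℕ)}
    {Ps : List (List (ℕ × ℕ))}
    (h : List.Forall₂ (fun p P => Seg E m.get lb.get br.get p.1 p.2 P) st Ps)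
    (hf : st.length + 2 * Ps.flatten.length < fu) :
    Sp g (segR m lb br fu st acc) fun o t => o.Perm (acc ++ Ps.flatten) ∧
      t ≤ st.length + 2 * Ps.flatten.length + 1 := by
  refine (sp_whileF' (fun s : List (ℕ × ℕ) × List (ℕ × ℕ) => ∃ Qs,
      List.Forall₂ (fun p P => Seg E m.get lb.get br.get p.1 p.2 P) s.1 Qs ∧
        (s.2 ++ Qs.flatten).Perm (acc ++ Ps.flatten))
    (fun s => s.1.length + 2 * ((acc ++ Ps.flatten).length - s.2.length))
    (fun s ⟨Qs, h1, h2⟩ hc => ?_) (s := (st, acc)) ⟨Ps, h, List.Perm.refl _⟩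
    (by simpa using hf)).bind fun s u ⟨hc, ⟨Qs, h1, h2⟩, ht⟩ => ?_
  · obtain ⟨s1, s2⟩ := s
    cases h1 with
    | nil => simp at hc
    | @cons p P st' Qs' a b =>
      obtain ⟨v, y⟩ := p
      have hl := h2.length_eq
      cases a with
      | stop =>
        have e : segStep m lb br ((v, v) :: st', s2) = (st', s2) := by simp [segStep]
        rw [sp_pure, e]
        exact ⟨⟨Qs', b, by simpa using h2⟩, by simp only [List.length_cons]; omega⟩
      | @vert _ _ P' a1 a2 _ a4 =>
        have e : segStep m lb br ((v, y) :: st', s2)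
            = (((br.get v).1, y) :: st', (m.get v, (br.get v).1) :: s2) := by
          simp only [segStep]; rw [if_neg a1, if_pos a2]
        rw [sp_pure, e]
        refine ⟨⟨P' :: Qs', .cons a4 b, List.Perm.trans ?_ h2⟩, ?_⟩
        · simpa using List.perm_middle.symm
        · simp only [List.flatten_cons, List.length_append, List.length_cons] at hl ⊢; omega
      | @brdg _ _ P' Q' a1 a2 _ a4 a5 =>
        have e : segStep m lb br ((v, y) :: st', s2)
            = (((br.get v).1, m.get v) :: ((br.get v).2, y) :: st', br.get v :: s2) := by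
          have a2' : lb.get v ≠ 1 := by have : lb.get v = 3 := a2; omega
          simp only [segStep]; rw [if_neg a1, if_neg a2']
        rw [sp_pure, e]
        refine ⟨⟨P' :: Q' :: Qs', .cons a4 (.cons a5 b), List.Perm.trans ?_ h2⟩, ?_⟩
        · simpa using List.perm_middle.symm
        · simp only [List.flatten_cons, List.length_append, List.length_cons] at hl ⊢; omega
  · have e : s.1 = [] := by simpa using hc
    rw [e] at h1
    cases h1
    refine ⟨by simpa using h2, ?_⟩
    simp only [List.length_append] at ht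
    omega

theorem sp_segR {m lb : Arr ℕ} {br : Arr (ℕ × ℕ)} {fu v r u r2 : ℕ} {P Q : List (ℕ × ℕ)}
    (h1 : Seg E m.get lb.get br.get v r P) (h2 : Seg E m.get lb.get br.get u r2 Q)
    (hf : 3 * (P.length + Q.length) + 3 ≤ fu) :
    Sp g (segR m lb br fu [(v, r), (u, r2)] [(v, u)]) fun o t =>
      o.Perm ((v, u) :: (P ++ Q)) ∧ t ≤ 3 * (P.length + Q.length) + 3 :=
  (sp_segR_gen (E := E) (Ps := [P, Q]) (.cons h1 (.cons h2 .nil)) (by simp; omega)).mono
    fun o t k => ⟨by simpa using k.1, by have := k.2; simp at this; omega⟩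

/-- adjacency lists from an edge list (both orientations) -/
def adjOfE (El : List (ℕ × ℕ)) : R (Arr (List ℕ)) :=
  foldP (fun e (s : Arr (List ℕ)) =>
    (s.set e.1 (e.2 :: s.get e.1)).set e.2 (e.1 :: (s.set e.1 (e.2 :: s.get e.1)).get e.2))
    El (Arr.cst [])

theorem foldl_adjOfE (El : List (ℕ × ℕ)) (a : Arr (List ℕ)) :
    (∀ v u, u ∈ (El.foldl (fun (s : Arr (List ℕ)) e =>
      (s.set e.1 (e.2 :: s.get e.1)).set e.2 (e.1 :: (s.set e.1 (e.2 :: s.get e.1)).get e.2)) a).get v
        ↔ u ∈ a.get v ∨ (v, u) ∈ El ∨ (u, v) ∈ El) ∧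
    ∀ V : Finset ℕ, ∑ v ∈ V, ((El.foldl (fun (s : Arr (List ℕ)) e =>
      (s.set e.1 (e.2 :: s.get e.1)).set e.2 (e.1 :: (s.set e.1 (e.2 :: s.get e.1)).get e.2)) a).get
        v).length ≤ ∑ v ∈ V, (a.get v).length + 2 * El.length := by
  induction El generalizing a with
  | nil => simp
  | cons e El ih =>
    obtain ⟨x, y⟩ := e
    obtain ⟨i1, i2⟩ := ih ((a.set x (y :: a.get x)).set y (x :: (a.set x (y :: a.get x)).get y))
    refine ⟨fun v u => ?_, fun V => ?_⟩
    · rw [List.foldl_cons, i1]
      simp only [Arr.get_set, List.mem_cons, Prod.mk.injEq]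
      by_cases h1 : v = y <;> by_cases h2 : v = x <;> by_cases h3 : y = x <;>
        simp_all <;> tauto
    · have key : ∀ (b : Arr (List ℕ)) (p q : ℕ),
          ∑ v ∈ V, ((b.set p (q :: b.get p)).get v).length ≤ ∑ v ∈ V, (b.get v).length + 1 := by
        intro b p q
        have : ∀ v, ((b.set p (q :: b.get p)).get v).length
            = (b.get v).length + if v = p then 1 else 0 := fun v => by
          rw [Arr.get_set]; split_ifs with h
          · rw [h]; rfl
          · rfl
        simp only [this, Finset.sum_add_distrib, Finset.sum_ite_eq']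
        split_ifs <;> omega
      have h1 := key a x y
      have h2 := key (a.set x (y :: a.get x)) y x
      have h3 := i2 V
      rw [List.foldl_cons, List.length_cons]
      dsimp only
      omega

theorem sp_adjOfE (El : List (ℕ × ℕ)) :
    Sp g (adjOfE El) fun r t => (∀ v u, u ∈ r.get v ↔ (v, u) ∈ El ∨ (u, v) ∈ El) ∧
      (∀ V : Finset ℕ, ∑ v ∈ V, (r.get v).length ≤ 2 * El.length) ∧ t = El.length + 1 :=
  (sp_foldP _ El _).mono fun r t k => by
    obtain ⟨a, b⟩ := foldl_adjOfE El (Arr.cst [])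
    rw [← k.1] at a b
    exact ⟨fun v u => by simpa using a v u, fun V => by simpa using b V, k.2⟩

end Crest.Agent.N325.Mt
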