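import Crest.Agent.N325.Mt.Defs
import Crest.Agent.N325.Mt.Tutte

/-! Tutte–Berge certificates with class labels. -/

set_option autoImplicit false
open Finset

namespace Crest.Agent.N325.Mt

variable {V : Finset ℕ} {E : ℕ → ℕ → Prop} {m : ℕ → ℕ}

/-- barrier `A`, outer set `O` with classes `cls`, odd classes `B`. -/
structure Cert (V : Finset ℕ) (E : ℕ → ℕ → Prop) (A O : Finset ℕ) (cls : ℕ → ℕ) (B : Finset ℕ) :
    Prop where
  subA : A ⊆ V
  subO : O ⊆ V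
  dis : Disjoint O A
  odd : ∀ b ∈ B, Odd #(O.filter fun v => cls v = b)
  cl : ∀ v ∈ O, ∀ u ∈ V, E v u → u ∈ A ∨ (u ∈ O ∧ cls u = cls v)

variable {A O B : Finset ℕ} {cls : ℕ → ℕ}

theorem Cert.bar (h : Cert V E A O cls B) :
    Bar V E A (B.image fun b => O.filter fun v => cls v = b) ∧
      #(B.image fun b => O.filter fun v => cls v = b) = #B := by
  refine ⟨⟨fun C hC => ?_, fun C hC => ?_, fun C hC => ?_, fun C hC u hu v hv e => ?_,
    fun C hC C' hC' hne => ?_⟩, card_image_of_injOn fun b hb b' _ e => ?_⟩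
  all_goals try obtain ⟨b, hb, rfl⟩ := mem_image.1 hC
  · exact (filter_subset _ _).trans h.subO
  · exact h.dis.mono_left (filter_subset _ _)
  · exact h.odd b hb
  · obtain ⟨h1, h2⟩ := mem_filter.1 hu
    exact (h.cl u h1 v hv e).symm.imp_left fun k => mem_filter.2 ⟨k.1, k.2.trans h2⟩
  · obtain ⟨b', -, rfl⟩ := mem_image.1 hC'
    refine disjoint_left.2 fun v h1 h2 => hne ?_
    rw [← (mem_filter.1 h1).2, ← (mem_filter.1 h2).2]
  · obtain ⟨v, hv⟩ := card_pos.1 (h.odd b hb).pos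
    have e' : (O.filter fun v => cls v = b) = O.filter fun v => cls v = b' := e
    have hv' : v ∈ O.filter fun v => cls v = b' := e' ▸ hv
    exact (mem_filter.1 hv).2.symm.trans (mem_filter.1 hv').2

theorem Cert.bound (h : Cert V E A O cls B) (hm : IsM V E m) : #B ≤ ex V m + #A :=
  h.bar.2 ▸ h.bar.1.card_le hm

theorem Cert.max (h : Cert V E A O cls B) (k : ex V m + #A ≤ #B) : Max V E m := fun _ hs => by
  have := h.bound hs; omega

/-- **Tutte–Berge** in the language of `IsM`. -/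
theorem exists_isM_ex_le (hE : ∀ a b, E a b → E b a) (k : ℕ)
    (h : ∀ A ⊆ V, ∀ F, Bar V E A F → #F ≤ #A + k) : ∃ m, IsM V E m ∧ ex V m ≤ k :=
  exists_ex_le V E hE k h

/-- real weights: degrees `≤ r`, odd cuts `≥ r` up to deficits `d` of total `< r (k + 1)`. -/
theorem exists_isM_of_wt (hE : ∀ a b, E a b → E b a) (w : ℕ → ℕ → ℝ) (d : ℕ → ℝ) {r : ℝ}
    (hr : 0 < r) (k : ℕ) (h0 : ∀ a b, 0 ≤ w a b) (hd : ∀ a, 0 ≤ d a)
    (hw : ∀ a b, w a b ≠ 0 → E a b) (hdeg : ∀ b ∈ V, ∑ a ∈ V, w a b ≤ r)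
    (hcut : ∀ S ⊆ V, Odd #S → r ≤ ∑ a ∈ S, ∑ b ∈ V \ S, w a b + ∑ a ∈ S, d a)
    (hk : ∑ a ∈ V, d a < r * (k + 1)) : ∃ m, IsM V E m ∧ ex V m ≤ k := by
  refine exists_isM_ex_le hE k fun A hA F hF => ?_
  have hdis : (F : Set (Finset ℕ)).PairwiseDisjoint fun C => C :=
    fun C hC C' hC' hne => hF.dis C hC C' hC' hne
  have hU : F.biUnion (fun C => C) ⊆ V := biUnion_subset.2 hF.sub
  have h1 : (#F : ℝ) * r ≤ ∑ C ∈ F, (∑ a ∈ C, ∑ b ∈ A, w a b + ∑ a ∈ C, d a) := by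
    rw [← nsmul_eq_mul]
    refine card_nsmul_le_sum F _ r fun C hC => (hcut C (hF.sub C hC) (hF.odd C hC)).trans ?_
    refine add_le_add_left (sum_le_sum fun a ha => ?_) _
    rw [← sum_filter_ne_zero]
    refine sum_le_sum_of_subset_of_nonneg (fun b hb => ?_) fun b _ _ => h0 a b
    obtain ⟨h2, h3⟩ := mem_filter.1 hb
    exact (hF.cl C hC a ha b (mem_sdiff.1 h2).1 (hw a b h3)).resolve_left (mem_sdiff.1 h2).2
  rw [sum_add_distrib, ← sum_biUnion hdis, ← sum_biUnion hdis, sum_comm] at h1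
  have h2 : ∑ a ∈ F.biUnion (fun C => C), d a ≤ ∑ a ∈ V, d a :=
    sum_le_sum_of_subset_of_nonneg hU fun a _ _ => hd a
  have h3 : ∑ b ∈ A, ∑ a ∈ F.biUnion (fun C => C), w a b ≤ #A * r := by
    rw [← nsmul_eq_mul]
    exact sum_le_card_nsmul A _ r fun b hb =>
      (sum_le_sum_of_subset_of_nonneg hU fun a _ _ => h0 a b).trans (hdeg b (hA hb))
  have h4 : (#F : ℝ) < (#A + k + 1 : ℕ) := by
    push_cast
    by_contra hc
    have := mul_le_mul_of_nonneg_right (not_lt.1 hc) hr.le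
    nlinarith
  exact Nat.lt_succ_iff.1 (by exact_mod_cast h4)

end Crest.Agent.N325.Mt
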