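import Crest.Agent.N325.Lst.ListR

/-!
# Row 325, M6 (helper4): classes with a base, merged small-to-large
-/

set_option autoImplicit false
open Finset

namespace Crest.Agent.N325.Mt

/-- class of a vertex, members, size and base of a class -/
abbrev UA : Type := Arr ℕ × Arr (List ℕ) × Arr ℕ × Arr ℕ

/-- the base of the class of `v` -/
def bsU (u : UA) (v : ℕ) : ℕ := u.2.2.2.get (u.1.get v)

/-- move class `i` into class `j`, new base `l` -/
def mvR (u : UA) (i j l : ℕ) : R UA :=
  setAllP (fun _ => j) (u.2.1.get i) u.1 >>= fun cl =>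
    revAppL (u.2.1.get i) (u.2.1.get j) >>= fun me =>
      nat (u.2.2.1.get i + u.2.2.1.get j) >>= fun z =>
        pure (cl, u.2.1.set j me, u.2.2.1.set j z, u.2.2.2.set j l)

/-- merge the class of `a` with the class of the base `l` -/
def uniR (u : UA) (a l : ℕ) : R UA :=
  if u.1.get a = u.1.get l then pure u
  else if u.2.2.1.get (u.1.get a) ≤ u.2.2.1.get (u.1.get l) then mvR u (u.1.get a) (u.1.get l) l
  else mvR u (u.1.get l) (u.1.get a) l

/-- the invariant -/
structure UI (V : Finset ℕ) (u : UA) : Prop where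
  nd : ∀ v ∈ V, (u.2.1.get (u.1.get v)).Nodup
  mem : ∀ v ∈ V, ∀ w, w ∈ u.2.1.get (u.1.get v) ↔ w ∈ V ∧ u.1.get w = u.1.get v
  sz : ∀ v ∈ V, u.2.2.1.get (u.1.get v) = (u.2.1.get (u.1.get v)).length
  bs : ∀ v ∈ V, bsU u v ∈ V ∧ u.1.get (bsU u v) = u.1.get v

/-- the potential -/
def phU (V : Finset ℕ) (u : UA) : ℕ :=
  ∑ v ∈ V, (Nat.log 2 V.card - Nat.log 2 (u.2.2.1.get (u.1.get v)))

variable {V : Finset ℕ} {u : UA} {g : Gl}

theorem phU_le : phU V u ≤ V.card * Nat.log 2 V.card :=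
  (sum_le_card_nsmul _ _ _ fun _ _ => Nat.sub_le _ _).trans (smul_eq_mul _ _).le

theorem UI.bs_iff (h : UI V u) {v w : ℕ} (hv : v ∈ V) (hw : w ∈ V) :
    bsU u v = bsU u w ↔ u.1.get v = u.1.get w :=
  ⟨fun e => by rw [← (h.bs v hv).2, e, (h.bs w hw).2], fun e => by rw [bsU, bsU, e]⟩

theorem sp_mvR (h : UI V u) (hX : V.card ≤ g.X) {a b l : ℕ} (ha : a ∈ V) (hb : b ∈ V)
    (hl : l ∈ V) (ne : u.1.get a ≠ u.1.get b) (el : u.1.get l = u.1.get a ∨ u.1.get l = u.1.get b)
    (le : u.2.2.1.get (u.1.get a) ≤ u.2.2.1.get (u.1.get b)) :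
    Sp g (mvR u (u.1.get a) (u.1.get b) l) fun r t => UI V r ∧
      (∀ z ∈ V, bsU r z =
        if u.1.get z = u.1.get a ∨ u.1.get z = u.1.get b then l else bsU u z) ∧
      t + 2 * phU V r ≤ 2 * phU V u + 2 := by
  obtain ⟨cl, me, sz, bs⟩ := u
  have nda := h.nd a ha
  have ndb := h.nd b hb
  have ma := h.mem a ha
  have mb := h.mem b hb
  have sa := h.sz a ha
  have sb := h.sz b hb
  simp only at *
  set i := cl.get a
  set j := cl.get b
  have nd : ((me.get i).reverse ++ me.get j).Nodup :=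
    List.nodup_append.2 ⟨List.nodup_reverse.2 nda, ndb, fun x k y k' e =>
      ne (((ma x).1 (List.mem_reverse.1 k)).2.symm.trans (e ▸ ((mb y).1 k').2))⟩
  have tot : sz.get i + sz.get j ≤ V.card := by
    have := List.toFinset_card_of_nodup nd
    rw [List.length_append, List.length_reverse, ← sa, ← sb] at this
    rw [← this]
    refine card_le_card fun x k => ?_
    rcases List.mem_append.1 (List.mem_toFinset.1 k) with k | k
    · exact ((ma x).1 (List.mem_reverse.1 k)).1
    · exact ((mb x).1 k).1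
  refine (sp_setAllP _ _ _).bind fun cl' t1 ⟨c1, e1⟩ => (sp_revAppL _ _).bind ?_
  rintro _ t2 ⟨rfl, e2⟩
  simp only at e1 e2
  have c : ∀ z ∈ V, cl'.get z = if cl.get z = i then j else cl.get z := fun z hz => by
    simp only [c1, ma, hz, true_and]
  have c2 : ∀ z ∈ V, cl.get z = i ∨ cl.get z = j → cl'.get z = j := fun z hz k => by
    rw [c z hz]; split_ifs with x
    · rfl
    · exact k.resolve_left x
  have c3 : ∀ z ∈ V, ¬(cl.get z = i ∨ cl.get z = j) → cl'.get z = cl.get z ∧ cl.get z ≠ j :=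
    fun z hz k => ⟨by rw [c z hz, if_neg fun x => k (.inl x)], fun x => k (.inr x)⟩
  simp only [sp_bind, sp_nat, sp_pure]
  refine ⟨tot.trans hX, ⟨fun v hv => ?_, fun v hv w => ?_, fun v hv => ?_, fun v hv => ?_⟩,
    fun z hz => ?_, ?_⟩
  · by_cases k : cl.get v = i ∨ cl.get v = j
    · simp only [c2 v hv k, Arr.get_set_self]; exact nd
    · simp only [(c3 v hv k).1, Arr.get_set_ne _ (c3 v hv k).2]; exact h.nd v hv
  · by_cases k : cl.get v = i ∨ cl.get v = j
    · simp only [c2 v hv k, Arr.get_set_self, List.mem_append, List.mem_reverse, ma, mb]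
      refine ⟨fun x => ?_, fun x => ?_⟩
      · rcases x with x | x
        · exact ⟨x.1, c2 w x.1 (.inl x.2)⟩
        · exact ⟨x.1, c2 w x.1 (.inr x.2)⟩
      · by_cases k' : cl.get w = i ∨ cl.get w = j
        · exact k'.imp (fun y => ⟨x.1, y⟩) fun y => ⟨x.1, y⟩
        · exact absurd ((c3 w x.1 k').1.symm.trans x.2) (c3 w x.1 k').2
    · simp only [(c3 v hv k).1, Arr.get_set_ne _ (c3 v hv k).2]
      rw [h.mem v hv w]
      refine and_congr_right fun hw => ?_
      by_cases k' : cl.get w = i ∨ cl.get w = j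
      · exact ⟨fun x => absurd (x ▸ k') k, fun x => absurd (x.symm.trans (c2 w hw k')) (c3 v hv k).2⟩
      · rw [(c3 w hw k').1]
  · by_cases k : cl.get v = i ∨ cl.get v = j
    · simp only [c2 v hv k, Arr.get_set_self, List.length_append, List.length_reverse, sa, sb]
    · simp only [(c3 v hv k).1, Arr.get_set_ne _ (c3 v hv k).2]; exact h.sz v hv
  · by_cases k : cl.get v = i ∨ cl.get v = j
    · simp only [bsU, c2 v hv k, Arr.get_set_self]; exact ⟨hl, c2 l hl el⟩
    · obtain ⟨x, y⟩ := h.bs v hv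
      simp only [bsU] at x y
      simp only [bsU, (c3 v hv k).1, Arr.get_set_ne _ (c3 v hv k).2]
      exact ⟨x, (c3 _ x (by rw [y]; exact k)).1.trans y⟩
  · split_ifs with k
    · simp only [bsU, c2 z hz k, Arr.get_set_self]
    · simp only [bsU, (c3 z hz k).1, Arr.get_set_ne _ (c3 z hz k).2]
  · have pos : sz.get i ≠ 0 := by
      rw [sa]; exact (List.length_pos_of_mem ((ma a).2 ⟨ha, rfl⟩)).ne'
    have l1 : Nat.log 2 (sz.get i) + 1 ≤ Nat.log 2 (sz.get i + sz.get j) := by
      rw [← Nat.log_mul_base one_lt_two pos]; exact Nat.log_mono_right (by omega)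
    have l2 : Nat.log 2 (sz.get j) ≤ Nat.log 2 (sz.get i + sz.get j) :=
      Nat.log_mono_right (by omega)
    have l3 : Nat.log 2 (sz.get i + sz.get j) ≤ Nat.log 2 V.card := Nat.log_mono_right tot
    have cd : (me.get i).length = ∑ v ∈ V, if cl.get v = i then 1 else 0 := by
      rw [← card_filter, ← List.toFinset_card_of_nodup nda]
      congr 1; ext x; simp only [List.mem_toFinset, ma, mem_filter]
    have : phU V (cl', me.set j ((me.get i).reverse ++ me.get j), sz.set j (sz.get i + sz.get j),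
        bs.set j l) + (me.get i).length ≤ phU V (cl, me, sz, bs) := by
      rw [cd, phU, phU, ← sum_add_distrib]
      refine sum_le_sum fun v hv => ?_
      by_cases k : cl.get v = i ∨ cl.get v = j
      · simp only [c2 v hv k, Arr.get_set_self]
        split_ifs with x
        · rw [x]; omega
        · rw [k.resolve_left x]; omega
      · simp only [(c3 v hv k).1, Arr.get_set_ne _ (c3 v hv k).2]
        rw [if_neg fun x => k (.inl x)]; omega
    omega

theorem sp_uniR (h : UI V u) (hX : V.card ≤ g.X) {a l : ℕ} (ha : a ∈ V) (hl : l ∈ V)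
    (el : bsU u l = l) : Sp g (uniR u a l) fun r t => UI V r ∧
      (∀ z ∈ V, bsU r z = if bsU u z = bsU u a then l else bsU u z) ∧
      t + 2 * phU V r ≤ 2 * phU V u + 2 := by
  have key : ∀ z ∈ V, ∀ p : Prop, ∀ [Decidable p],
      (p ↔ u.1.get z = u.1.get a ∨ u.1.get z = u.1.get l) →
      (if p then l else bsU u z) = if bsU u z = bsU u a then l else bsU u z := by
    intro z hz p _ hp
    simp only [hp, h.bs_iff hz ha]
    split_ifs with x y y
    · rfl
    · exact ((h.bs_iff hz hl).2 (x.resolve_left y) |>.trans el).symm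
    · exact absurd (.inl y) x
    · rfl
  rw [uniR, sp_ite, sp_ite]
  refine ⟨fun e => ⟨h, fun z hz => ?_, by omega⟩, fun ne => ⟨fun le => ?_, fun lt => ?_⟩⟩
  · split_ifs with x
    · exact x.trans (((h.bs_iff ha hl).2 e).trans el)
    · rfl
  · exact (sp_mvR h hX ha hl hl ne (.inr rfl) le).mono fun r t k =>
      ⟨k.1, fun z hz => (k.2.1 z hz).trans (key z hz _ Iff.rfl), k.2.2⟩
  · exact (sp_mvR h hX hl ha hl (Ne.symm ne) (.inl rfl) (by omega)).mono fun r t k =>
      ⟨k.1, fun z hz => (k.2.1 z hz).trans (key z hz _ or_comm), k.2.2⟩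

/-- `β` is `β₀` with the classes whose base satisfies `P` merged into `l` -/
def MG (V : Finset ℕ) (β₀ β : ℕ → ℕ) (l : ℕ) (P : ℕ → Prop) : Prop :=
  ∀ z ∈ V, (P (β₀ z) → β z = l) ∧ (¬P (β₀ z) → β z = β₀ z)

theorem MG.congr {β₀ β : ℕ → ℕ} {l : ℕ} {P Q : ℕ → Prop} (h : MG V β₀ β l P)
    (k : ∀ c, P c ↔ Q c) : MG V β₀ β l Q := fun z hz => by rw [← k]; exact h z hz

theorem MG.uni {β₀ β β' : ℕ → ℕ} {l a : ℕ} {P : ℕ → Prop} (h : MG V β₀ β l P) (ha : a ∈ V)
    (e : β₀ a = a) (k : ∀ z ∈ V, β' z = if β z = β a then l else β z) :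
    MG V β₀ β' l fun c => c = a ∨ P c := by
  intro z hz
  have h1 := h z hz
  have h2 := h a ha
  rw [e] at h2
  rw [k z hz]
  by_cases pz : P (β₀ z)
  · simp [pz, h1.1 pz]
  · rw [h1.2 pz]
    by_cases pa : P a
    · have : β₀ z ≠ a := fun c => pz (c ▸ pa)
      simpa [pz, this, h2.1 pa] using Eq.symm
    · rw [h2.2 pa]
      by_cases c : β₀ z = a <;> simp [c, pz, pa]

end Crest.Agent.N325.Mt
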