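import Crest.Agent.N325.Mt.Step
import Crest.Agent.N325.Mt.UF
import Crest.Agent.N325.Mt.Cert

/-!
# Row 325, M6 (helper4): certificate, the walk to the common base, absorbing a chain
-/

set_option autoImplicit false
open Finset

namespace Crest.Agent.N325.Mt

variable {V : Finset ℕ} {E : ℕ → ℕ → Prop} {m : ℕ → ℕ} {g : Gl}

/-- the Gallai–Edmonds certificate of a finished search -/
theorem Inv.cert {s : St} (hm : IsM V E m) (I : Inv V E m s) (hq : s.q = []) :
    Cert V E (V.filter fun v => s.lb v = 2) (V.filter s.out) s.bs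
      (V.filter fun b => s.lb b = 1 ∧ s.bs b = b) ∧
    ex V m + (V.filter fun v => s.lb v = 2).card ≤
      (V.filter fun b => s.lb b = 1 ∧ s.bs b = b).card := by
  refine ⟨⟨filter_subset _ _, filter_subset _ _, disjoint_filter.2 fun v _ o k => ?_,
    fun b hb => ?_, fun v hv u hu e => ?_⟩, ?_⟩
  · rcases o with o | o <;> omega
  · obtain ⟨b1, b2, b3⟩ := mem_filter.1 hb
    have hb' : b ∈ (V.filter s.out).filter fun v => s.bs v = b :=
      mem_filter.2 ⟨mem_filter.2 ⟨b1, .inl b2⟩, b3⟩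
    rw [← card_erase_add_one hb']
    refine (even_card_of_invol _ m (fun v k => ?_) (fun v k => ?_) fun v k => ?_).add_one
    all_goals
      simp only [mem_erase, mem_filter] at k ⊢
      obtain ⟨k1, ⟨k2, k3⟩, k4⟩ := k
    · obtain ⟨x, y⟩ := I.mate v k2 k3 (k4 ▸ k1.symm)
      refine ⟨fun c => ?_, ⟨hm.mem k2, x⟩, y.trans k4⟩
      have := (I.base b b1 (.inl b2)).2.2.2
      rw [b3, ← c, hm.inv k2, c] at this
      rcases this with z | z
      · exact k1 z
      · rcases k3 with o | o <;> omega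
    · exact hm.inv k2
    · exact fun c => k1 ((I.root v k2 c).2.1.symm.trans k4)
  · obtain ⟨v1, v2⟩ := mem_filter.1 hv
    rcases I.qc v v1 u hu v2 e with k | k | k | k
    · rw [hq] at k; cases k
    · rw [hq] at k; cases k
    · exact .inl (mem_filter.2 ⟨hu, k⟩)
    · exact .inr ⟨mem_filter.2 ⟨hu, k.1⟩, k.2⟩
  · rw [ex, ← card_image_of_injOn (s := V.filter fun v => s.lb v = 2) (f := m)
      fun a ha b hb e => by
        rw [← hm.inv (mem_filter.1 ha).1, e, hm.inv (mem_filter.1 hb).1], ← card_union_of_disjoint]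
    · refine card_le_card fun v k => ?_
      rcases mem_union.1 k with k | k
      · obtain ⟨a, b⟩ := mem_exs.1 k
        exact mem_filter.2 ⟨a, (I.root v a b).1, (I.root v a b).2.1⟩
      · obtain ⟨x, a, rfl⟩ := mem_image.1 k
        obtain ⟨a, b⟩ := mem_filter.1 a
        exact mem_filter.2 ⟨hm.mem a, (I.inn x a b).1, (I.inn x a b).2.1⟩
    · refine disjoint_left.2 fun v k k' => ?_
      obtain ⟨x, a, rfl⟩ := mem_image.1 k'
      obtain ⟨a, b⟩ := mem_filter.1 a
      have := (I.inn x a b).1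
      rw [← (mem_exs.1 k).2, hm.inv a] at this
      omega

theorem Inv.max {s : St} (hm : IsM V E m) (I : Inv V E m s) (hq : s.q = []) : Max V E m :=
  (I.cert hm hq).1.max (I.cert hm hq).2

/-- labels, pointers, depths, queue, classes -/
abbrev SA : Type := Arr ℕ × Arr (ℕ × ℕ) × Arr ℕ × List (ℕ × ℕ) × UA

/-- the abstract state -/
def toSt (s : SA) : St := ⟨s.1.get, s.2.1.get, bsU s.2.2.2.2, s.2.2.1.get, s.2.2.2.1⟩

/-- adjacency lists of the graph `E` on `V` -/
def Adj (V : Finset ℕ) (E : ℕ → ℕ → Prop) (adj : Arr (List ℕ)) : Prop :=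
  ∀ v ∈ V, ∀ u, u ∈ adj.get v ↔ u ∈ V ∧ E v u

theorem QR.trans {q q1 q2 : List (ℕ × ℕ)} {N1 N2 N : ℕ → Prop} (h : QR V E q q1 N1)
    (h' : QR V E q1 q2 N2) (k : ∀ z ∈ V, N z ↔ N1 z ∨ N2 z) : QR V E q q2 N := fun e => by
  rw [h' e, h e]
  by_cases c : e.1 ∈ V
  · rw [k _ c]; tauto
  · tauto

theorem QR.refl {q : List (ℕ × ℕ)} {N : ℕ → Prop} (k : ∀ z ∈ V, ¬N z) : QR V E q q N :=
  fun _ => ⟨.inl, fun h => h.elim id fun h => absurd h.1 (k _ h.2.1)⟩

/-- push all edges at `w` -/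
def pushR (adj : Arr (List ℕ)) (w : ℕ) (q : List (ℕ × ℕ)) : R (List (ℕ × ℕ)) :=
  foldP (fun u q => (w, u) :: q) (adj.get w) q

theorem sp_pushR {adj : Arr (List ℕ)} (hA : Adj V E adj) {w : ℕ} (hw : w ∈ V)
    (q : List (ℕ × ℕ)) : Sp g (pushR adj w q) fun r t => QR V E q r (fun z => z = w) ∧
      r.length = q.length + (adj.get w).length ∧ t = (adj.get w).length + 1 := by
  refine (sp_foldP _ _ _).mono ?_
  rintro _ t ⟨rfl, e⟩
  rw [foldl_cons_map fun u => (w, u)]
  refine ⟨fun ⟨a, b⟩ => ?_, by simp [add_comm], e⟩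
  simp only [List.mem_append, List.mem_reverse, List.mem_map, Prod.mk.injEq, hA w hw]
  constructor
  · rintro (⟨u, x, rfl, rfl⟩ | x)
    · exact .inr ⟨rfl, hw, x⟩
    · exact .inl x
  · rintro (x | ⟨rfl, -, x⟩)
    · exact .inr x
    · exact .inl ⟨b, x, rfl, rfl⟩

/-- the state of the walk: two bases and the chains below them -/
abbrev WS : Type := ℕ × List ℕ × ℕ × List ℕ

def wCond (m : Arr ℕ) (s : SA) (w : WS) : Bool :=
  if w.1 = w.2.2.1 then false
  else if s.2.2.1.get w.2.2.1 ≤ s.2.2.1.get w.1 then (if m.get w.1 = w.1 then false else true)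
  else true

def wStep (s : SA) (w : WS) : WS :=
  if s.2.2.1.get w.2.2.1 ≤ s.2.2.1.get w.1 then
    (bsU s.2.2.2.2 (s.2.1.get w.1).1, w.1 :: w.2.1, w.2.2.1, w.2.2.2)
  else (w.1, w.2.1, bsU s.2.2.2.2 (s.2.1.get w.2.2.1).1, w.2.2.1 :: w.2.2.2)

/-- climb from the bases `a`, `c` until they meet or both are roots -/
def walkR (m : Arr ℕ) (s : SA) (fu a c : ℕ) : R WS :=
  whileF (wCond m s) (fun w => pure (wStep s w)) fu (a, [], c, [])

theorem chn_len {s : St} (hm : IsM V E m) (I : Inv V E m s) {a c l l' : ℕ} {L L' : List ℕ}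
    (ha : IsB V s a) (hc : IsB V s c) (h : Chn m s a L l) (h' : Chn m s c L' l')
    (d : ∀ b ∈ L, b ∉ L') : (L ++ L').Nodup ∧ L.length + L'.length ≤ V.card := by
  obtain ⟨-, f2, f3⟩ := h.facts hm I ha
  obtain ⟨-, g2, g3⟩ := h'.facts hm I hc
  have nd : (L ++ L').Nodup := List.nodup_append.2 ⟨f2, g2, fun x k y k' e => d x k (e ▸ k')⟩
  refine ⟨nd, ?_⟩
  rw [← List.length_append, ← List.toFinset_card_of_nodup nd]
  exact card_le_card fun x k => (List.mem_append.1 (List.mem_toFinset.1 k)).elim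
    (fun k => (f3 x k).1.1) fun k => (g3 x k).1.1

theorem sp_walkR {m : Arr ℕ} {s : SA} (hm : IsM V E m.get) (I : Inv V E m.get (toSt s))
    {a c fu : ℕ} (ha : IsB V (toSt s) a) (hc : IsB V (toSt s) c) (hf : V.card < fu) :
    Sp g (walkR m s fu a c) fun w t => Chn m.get (toSt s) a w.2.1 w.1 ∧
      Chn m.get (toSt s) c w.2.2.2 w.2.2.1 ∧ (∀ b ∈ w.2.1, b ∉ w.2.2.2) ∧
      (w.1 ≠ w.2.2.1 → m.get w.1 = w.1 ∧ m.get w.2.2.1 = w.2.2.1) ∧
      t = w.2.1.length + w.2.2.2.length + 1 := by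
  have nr : ∀ b, IsB V (toSt s) b → m.get b ≠ b → (toSt s).lb (m.get b) = 2 ∧
      s.2.2.1.get (bsU s.2.2.2.2 (s.2.1.get b).1) < s.2.2.1.get b := fun b B k => by
    have := (I.base b B.1 (.inl B.2.1)).2.2.2
    rw [B.2.2] at this
    exact ⟨this.resolve_left k, (I.up hm B.1 (this.resolve_left k)).2.2.2⟩
  refine (sp_whileF (fun (w : WS) t => Chn m.get (toSt s) a w.2.1 w.1 ∧
      Chn m.get (toSt s) c w.2.2.2 w.2.2.1 ∧ (∀ b ∈ w.2.1, b ∉ w.2.2.2) ∧
      (∀ x ∈ w.2.1, x ≠ w.2.2.1 ∧ s.2.2.1.get w.2.2.1 ≤ s.2.2.1.get x) ∧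
      (∀ x ∈ w.2.2.2, x ≠ w.1 ∧ s.2.2.1.get w.1 ≤ s.2.2.1.get x) ∧
      t = w.2.1.length + w.2.2.2.length) (fun w => V.card - (w.2.1.length + w.2.2.2.length))
    ?_ (t := 0) ⟨.nil, .nil, by simp, by simp, by simp, rfl⟩ (by simpa using hf)).mono ?_
  · rintro ⟨x, L, y, L'⟩ t ⟨h1, h2, h3, h4, h5, h6⟩ e
    simp only at h1 h2 h3 h4 h5 h6
    have Bx := (h1.facts hm I ha).1
    have By := (h2.facts hm I hc).1
    simp only [wCond] at e
    have ne : x ≠ y := fun c => by simp [c] at e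
    rw [sp_pure, wStep]
    simp only
    split_ifs with k
    · obtain ⟨u1, u2⟩ := nr x Bx fun c => by simp [ne, k, c] at e
      have d : ∀ b ∈ x :: L, b ∉ L' := fun b hb => (List.mem_cons.1 hb).elim
        (fun z c => (h5 b c).1 z) (h3 b)
      have := (chn_len hm I ha hc (h1.step u1) h2 d).2
      simp only [List.length_cons] at this ⊢
      refine ⟨⟨h1.step u1, h2, d, fun b hb => ?_, fun b hb => ?_, by omega⟩, by omega⟩
      · exact (List.mem_cons.1 hb).elim (fun z => z ▸ ⟨ne, k⟩) (h4 b)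
      · have := (h5 b hb).2
        exact ⟨fun z => by rw [← z] at u2; omega, by omega⟩
    · obtain ⟨u1, u2⟩ := nr y By fun c => by
        have : s.2.2.1.get y = 0 := (I.root y By.1 c).2.2
        omega
      have d : ∀ b ∈ L, b ∉ y :: L' := fun b hb c => (List.mem_cons.1 c).elim
        (h4 b hb).1 (h3 b hb)
      have := (chn_len hm I ha hc h1 (h2.step u1) d).2
      simp only [List.length_cons] at this ⊢
      refine ⟨⟨h1, h2.step u1, d, fun b hb => ?_, fun b hb => ?_, by omega⟩, by omega⟩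
      · have := (h4 b hb).2
        exact ⟨fun z => by rw [← z] at u2; omega, by omega⟩
      · exact (List.mem_cons.1 hb).elim (fun z => z ▸ ⟨ne.symm, by omega⟩) (h5 b)
  · rintro ⟨x, L, y, L'⟩ _ ⟨e, t, rfl, h1, h2, h3, -, -, h6⟩
    simp only at h1 h2 h3 h6
    refine ⟨h1, h2, h3, fun ne => ?_, by simp only; omega⟩
    simp only at ne ⊢
    simp only [wCond, if_neg ne] at e
    split_ifs at e with k1 k2
    refine ⟨k2, by_contra fun c => ?_⟩
    have := (nr y (h2.facts hm I hc).1 c).2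
    have : s.2.2.1.get x = 0 := (I.root x (h1.facts hm I ha).1.1 k2).2.2
    omega

/-- absorb the class of the base `b` and its mate into the class of `l`; bridge `w` -/
def absR (m : Arr ℕ) (adj : Arr (List ℕ)) (w : ℕ × ℕ) (l b : ℕ) (s : SA) : R SA :=
  uniR s.2.2.2.2 b l >>= fun u => uniR u (m.get b) l >>= fun u' =>
    pushR adj (m.get b) s.2.2.2.1 >>= fun q =>
      pure (s.1.set (m.get b) 3, s.2.1.set (m.get b) w, s.2.2.1, q, u')

theorem sp_absL {m : Arr ℕ} {adj : Arr (List ℕ)} (hm : IsM V E m.get) (hA : Adj V E adj)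
    (hX : V.card ≤ g.X) (w : ℕ × ℕ) {l : ℕ} (hl : l ∈ V) {β : ℕ → ℕ} (L : List ℕ)
    (hL : ∀ b ∈ L, b ∈ V ∧ β b = b ∧ β (m.get b) = m.get b) {s : SA} {P : ℕ → Prop}
    (hU : UI V s.2.2.2.2) (el : bsU s.2.2.2.2 l = l) (hM : MG V β (bsU s.2.2.2.2) l P) :
    Sp g (foldL (absR m adj w l) L s) fun r t => UI V r.2.2.2.2 ∧ bsU r.2.2.2.2 l = l ∧
      MG V β (bsU r.2.2.2.2) l (fun c => (c ∈ L ∨ c ∈ L.map m.get) ∨ P c) ∧
      (∀ z ∈ V, r.1.get z = if m.get z ∈ L then 3 else s.1.get z) ∧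
      (∀ z ∈ V, r.2.1.get z = if m.get z ∈ L then w else s.2.1.get z) ∧ r.2.2.1 = s.2.2.1 ∧
      QR V E s.2.2.2.1 r.2.2.2.1 (fun z => m.get z ∈ L) ∧
      r.2.2.2.1.length = s.2.2.2.1.length + (L.map fun b => (adj.get (m.get b)).length).sum ∧
      t + 2 * phU V r.2.2.2.2 ≤ 2 * phU V s.2.2.2.2 +
        (L.map fun b => (adj.get (m.get b)).length).sum + 6 * L.length + 1 := by
  induction L generalizing s P with
  | nil =>
    exact ⟨Nat.zero_le _, hU, el, hM.congr (by simp), by simp, by simp, rfl,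
      QR.refl (by simp), by simp, by simp; omega⟩
  | cons b L ih =>
    obtain ⟨b1, b2, b3⟩ := hL b List.mem_cons_self
    have hx := hm.mem b1
    have iff : ∀ z ∈ V, z = m.get b ↔ m.get z = b := fun z hz =>
      ⟨fun e => by rw [e, hm.inv b1], fun e => by rw [← e, hm.inv hz]⟩
    refine ⟨Nat.zero_le _, sp_bind.2 ?_⟩
    refine (sp_uniR hU hX b1 hl el).bind fun u t1 ⟨u1, u2, u3⟩ => ?_
    have e1 : bsU u l = l := by rw [u2 l hl, el, ite_self]
    refine (sp_uniR u1 hX hx hl e1).bind fun u' t2 ⟨v1, v2, v3⟩ => ?_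
    have e2 : bsU u' l = l := by rw [v2 l hl, e1, ite_self]
    refine (sp_pushR hA hx _).bind fun q t3 ⟨q1, q2, q3⟩ => sp_pure.2 ?_
    refine (ih (fun c k => hL c (List.mem_cons_of_mem _ k))
      (s := (s.1.set (m.get b) 3, s.2.1.set (m.get b) w, s.2.2.1, q, u')) v1 e2
      ((hM.uni b1 b2 u2).uni hx b3 v2)).mono fun r t ⟨r1, r2, r3, r4, r5, r6, r7, r8, r9⟩ => ?_
    simp only at r4 r5 r6 r7 r8 r9
    refine ⟨r1, r2, r3.congr fun c => ?_, fun z hz => ?_, fun z hz => ?_, r6,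
      q1.trans r7 fun z hz => ?_, ?_, ?_⟩
    · simp only [List.mem_cons, List.map_cons]; tauto
    · rw [r4 z hz, Arr.get_set]
      simp only [iff z hz, List.mem_cons]
      split_ifs <;> tauto
    · rw [r5 z hz, Arr.get_set]
      simp only [iff z hz, List.mem_cons]
      split_ifs <;> tauto
    · rw [iff z hz, List.mem_cons]
    · simp only [List.map_cons, List.sum_cons]; omega
    · simp only [List.map_cons, List.sum_cons, List.length_cons]; omega

end Crest.Agent.N325.Mt
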