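import Crest.Agent.N325.Mt.Deg3a
import Crest.Agent.N325.Mt.Walk
import Crest.Agent.N325.Lst.ListImpl

/-!
# Row 325, M6 (helper4): reduction to maximum degree three, the programs
-/

set_option autoImplicit false
open Finset

namespace Crest.Agent.N325.Mt

variable {g : Gl} {E : ℕ → ℕ → Prop}

def posStep (ar : Arr (ℕ × ℕ)) (p : ℕ) (s : Arr (Arr ℕ)) : Arr (Arr ℕ) :=
  s.set (ar.get p).1 ((s.get (ar.get p).1).set (ar.get p).2 p)

def lnkB (D : ℕ) (own : Arr ℕ) (p : ℕ) : Bool :=
  if p + 1 < D then (if own.get (p + 1) = own.get p then true else false) else false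

theorem lnkB_iff {D p : ℕ} {own : Arr ℕ} : lnkB D own p = true ↔ Lnk D own.get p := by
  unfold lnkB Lnk; split_ifs <;> simp [*]

/-- the neighbours in the new graph -/
def adj3 (D D2 : ℕ) (own rev : Arr ℕ) (a : ℕ) : List ℕ :=
  if a % 2 = 0 then
    min (2 * rev.get (a / 2)) D2 ::
      (if lnkB D own (a / 2) then
        (if 0 < a ∧ lnkB D own (a / 2 - 1) then [a + 1, a - 1] else [a + 1])
      else if 0 < a ∧ lnkB D own (a / 2 - 1) then [a - 1] else [])
  else if lnkB D own (a / 2) then [a - 1, a + 1] else []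

/-- number of oriented edges, tails, reversed edges, adjacency lists of the new graph -/
def deg3 (n : ℕ) (A : Arr (List ℕ)) : R (ℕ × Arr ℕ × Arr ℕ × Arr (List ℕ)) :=
  rangeL n 0 >>= fun Vl => flatMapL (fun v => mapP (fun w => (v, w)) (A.get v)) Vl >>= fun El =>
    lenL El >>= fun D => arrOfL El 0 (.cst (0, 0)) >>= fun ar =>
      forP (posStep ar) D 0 (.cst (.cst 0)) >>= fun pos =>
        tabP (fun p => (ar.get p).1) D (.cst 0) >>= fun own =>
          tabP (fun p => (pos.get (ar.get p).2).get (ar.get p).1) D (.cst 0) >>= fun rev =>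
            nat (2 * D) >>= fun D2 => tabP (adj3 D D2 own rev) D2 (.cst []) >>= fun adj =>
              pure (D, own, rev, adj)

theorem foldl_pos (ar : Arr (ℕ × ℕ)) (l : List ℕ) (s : Arr (Arr ℕ)) (v w : ℕ) :
    let r := ((l.foldl (fun s p => posStep ar p s) s).get v).get w
    (r = (s.get v).get w ∧ ∀ p ∈ l, ar.get p ≠ (v, w)) ∨ (r ∈ l ∧ ar.get r = (v, w)) := by
  induction l generalizing s with
  | nil => exact .inl ⟨rfl, by simp⟩
  | cons p l ih =>
    rcases ih (posStep ar p s) with ⟨a, b⟩ | ⟨a, b⟩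
    · rw [List.foldl_cons]
      by_cases c : ar.get p = (v, w)
      · have : ((posStep ar p s).get v).get w = p := by simp [posStep, c]
        rw [this] at a
        exact .inr (by rw [a]; exact ⟨List.mem_cons_self, c⟩)
      · refine .inl ⟨a.trans ?_, List.forall_mem_cons.2 ⟨c, b⟩⟩
        rw [posStep, Arr.get_set]
        split_ifs with x
        · rw [Arr.get_set, if_neg fun y => c (Prod.ext x.symm y.symm), x]
        · rfl
    · exact .inr ⟨List.mem_cons_of_mem _ a, b⟩

theorem adj3_spec {V : Finset ℕ} {D : ℕ} {own rev : Arr ℕ} (h : Gd V E D own.get rev.get) {a : ℕ}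
    (ha : a < 2 * D) : (adj3 D (2 * D) own rev a).Nodup ∧ (adj3 D (2 * D) own rev a).length ≤ 3 ∧
      ∀ b, b ∈ adj3 D (2 * D) own rev a ↔ E3 D own.get rev.get a b := by
  obtain ⟨p, rfl | rfl⟩ := Nat.even_or_odd' a
  · have hp : p < D := by omega
    have r := (h.rv p hp).1
    rw [adj3, if_pos (by omega), show 2 * p / 2 = p by omega, min_eq_left (by omega)]
    simp only [lnkB_iff]
    refine ⟨by split_ifs <;> simp <;> omega, by split_ifs <;> simp, fun b => ⟨fun k => ?_, ?_⟩⟩
    · have : b = 2 * rev.get p ∨ (Lnk D own.get p ∧ b = 2 * p + 1) ∨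
          ((0 < 2 * p ∧ Lnk D own.get (p - 1)) ∧ b = 2 * p - 1) := by
        split_ifs at k <;> simp only [List.mem_cons, List.not_mem_nil, or_false] at k <;> tauto
      rcases this with x | ⟨x, y⟩ | ⟨⟨x, y⟩, z⟩
      · exact ⟨p, hp, .inl ⟨rfl, x⟩⟩
      · exact ⟨p, hp, .inr ⟨x, .inr ⟨y, .inl rfl⟩⟩⟩
      · exact ⟨p - 1, by omega, .inr ⟨y, .inr ⟨by omega, .inr (by omega)⟩⟩⟩
    · rintro ⟨q, hq, ⟨x, y⟩ | ⟨l, ⟨x, -⟩ | ⟨x, y | y⟩⟩⟩
      · rw [y, show q = p by omega]; exact List.mem_cons_self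
      · omega
      · obtain rfl : p = q := by omega
        rw [if_pos l, x]; split_ifs <;> simp
      · obtain rfl : p = q + 1 := by omega
        have : 0 < 2 * (q + 1) ∧ Lnk D own.get (q + 1 - 1) := ⟨by omega, l⟩
        rw [if_pos this, if_pos this, x]; split_ifs <;> simp <;> omega
  · have hp : p < D := by omega
    rw [adj3, if_neg (by omega), show (2 * p + 1) / 2 = p by omega]
    simp only [lnkB_iff]
    refine ⟨by split_ifs <;> simp; omega, by split_ifs <;> simp, fun b => ⟨fun k => ?_, ?_⟩⟩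
    · split_ifs at k with l
      · simp only [List.mem_cons, List.not_mem_nil, or_false] at k
        exact ⟨p, hp, .inr ⟨l, .inl ⟨rfl, by omega⟩⟩⟩
      · cases k
    · rintro ⟨q, hq, ⟨x, y⟩ | ⟨l, ⟨x, y⟩ | ⟨x, y⟩⟩⟩
      · omega
      · obtain rfl : p = q := by omega
        rw [if_pos l]; simp; omega
      · omega

theorem sp_deg3 {n : ℕ} {A : Arr (List ℕ)} (hE : ∀ a b, E a b → E b a) (hi : ∀ a, ¬E a a)
    (hA : Adj (range n) E A) (nd : ∀ v, (A.get v).Nodup)
    (hX : 2 * ∑ v ∈ range n, (A.get v).length ≤ g.X) :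
    Sp g (deg3 n A) fun r t => r.1 = ∑ v ∈ range n, (A.get v).length ∧
      Gd (range n) E r.1 r.2.1.get r.2.2.1.get ∧
      Adj (range (2 * r.1)) (E3 r.1 r.2.1.get r.2.2.1.get) r.2.2.2 ∧
      (∀ a, (r.2.2.2.get a).Nodup ∧ (r.2.2.2.get a).length ≤ 3) ∧ t ≤ 11 * r.1 + 6 * n + 10 := by
  refine (sp_rangeL_zero n).bind ?_
  rintro _ t0 ⟨rfl, e0⟩
  refine (sp_flatMapL (fun v => (A.get v).map fun w => (v, w)) (fun v => 2 * (A.get v).length + 2)
    fun v _ => (sp_mapP _ _).mono fun r t k => ⟨k.1, k.2.le⟩).bind fun El t1 ⟨a1, e1⟩ => ?_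
  rw [← a1] at e1
  have len : El.length = ∑ v ∈ range n, (A.get v).length := by
    rw [a1, List.length_flatMap, ← List.sum_toFinset _ List.nodup_range, List.toFinset_range]
    simp
  have c1 : ((List.range n).map fun v => 2 * (A.get v).length + 2).sum = 2 * El.length + 2 * n := by
    rw [← List.sum_toFinset _ List.nodup_range, List.toFinset_range, sum_add_distrib, ← mul_sum,
      len]
    simp [mul_comm]
  have mem : ∀ v w, (v, w) ∈ El ↔ v < n ∧ w < n ∧ E v w := fun v w => by
    simp only [a1, List.mem_flatMap, List.mem_range, List.mem_map, Prod.mk.injEq]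
    constructor
    · rintro ⟨_, x, _, y, rfl, rfl⟩
      exact ⟨x, by simpa using (hA _ (mem_range.2 x) _).1 y⟩
    · exact fun ⟨x, y⟩ => ⟨v, x, w, (hA _ (mem_range.2 x) _).2 (by simpa using y), rfl, rfl⟩
  have ndE : El.Nodup := by
    rw [a1, List.nodup_flatMap]
    refine ⟨fun v _ => (nd v).map fun _ _ e => (Prod.ext_iff.1 e).2,
      List.nodup_range.imp fun {a b} ne e x y => ?_⟩
    obtain ⟨_, -, rfl⟩ := List.mem_map.1 x
    obtain ⟨_, -, y⟩ := List.mem_map.1 y
    exact ne (Prod.ext_iff.1 y).1.symm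
  have srt : El.Pairwise fun e f => e.1 ≤ f.1 := by
    rw [a1, List.pairwise_flatMap]
    refine ⟨fun v _ => List.pairwise_map.2 (List.pairwise_of_forall fun _ _ => le_rfl),
      List.pairwise_le_range.imp fun {a b} le e x f y => ?_⟩
    obtain ⟨_, -, rfl⟩ := List.mem_map.1 x
    obtain ⟨_, -, rfl⟩ := List.mem_map.1 y
    exact le
  refine (sp_lenL El).bind ?_
  rintro _ t2 ⟨rfl, e2⟩
  refine (sp_arrOfL_cst _ _).bind fun ar t3 ⟨a3, e3⟩ => (sp_forP _ _ _ _).bind
    fun pos t4 ⟨a4, e4⟩ => (sp_tabP _ _ _).bind fun own t5 ⟨a5, e5⟩ => (sp_tabP _ _ _).bind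
    fun rev t6 ⟨a6, e6⟩ => sp_bind.2 (sp_nat.2 ⟨len ▸ hX, (sp_tabP _ _ _).bind
    fun adj t7 ⟨a7, e7⟩ => sp_pure.2 ?_⟩)
  have ea : ∀ p (hp : p < El.length), ar.get p = El[p] := fun p hp => by
    rw [a3]; exact List.getD_eq_getElem _ _ hp
  have eo : ∀ p < El.length, own.get p = (ar.get p).1 := fun p hp => by rw [a5, if_pos hp]
  have me : ∀ p < El.length, (ar.get p).1 < n ∧ (ar.get p).2 < n ∧ E (ar.get p).1 (ar.get p).2 :=
    fun p hp => (mem _ _).1 (by rw [ea p hp]; exact List.getElem_mem hp)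
  have ix : ∀ v w, v < n → w < n → E v w → ∃ p < El.length, ar.get p = (v, w) := fun v w x y z => by
    obtain ⟨p, hp, k⟩ := List.getElem_of_mem ((mem v w).2 ⟨x, y, z⟩)
    exact ⟨p, hp, (ea p hp).trans k⟩
  have er : ∀ p < El.length, rev.get p < El.length ∧
      ar.get (rev.get p) = ((ar.get p).2, (ar.get p).1) := fun p hp => by
    obtain ⟨x, y, z⟩ := me p hp
    obtain ⟨q, hq, k⟩ := ix _ _ y x (hE _ _ z)
    have := (foldl_pos ar (List.range' 0 El.length) (.cst (.cst 0)) _ _).resolve_left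
      fun c => c.2 q (by simpa using hq) k
    rw [← a4] at this
    rw [a6, if_pos hp]
    exact ⟨by simpa using this.1, this.2⟩
  have G : Gd (range n) E El.length own.get rev.get := by
    refine ⟨fun p hp => ⟨(er p hp).1, ?_⟩, fun p hp => ?_, fun v hv w hw e => ?_,
      fun p q r x y z e => ?_⟩
    · obtain ⟨x, y⟩ := er _ (er p hp).1
      have y : ar.get (rev.get (rev.get p)) = ar.get p := by rw [y, (er p hp).2]
      rw [ea _ x, ea p hp] at y
      exact (ndE.getElem_inj_iff).1 y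
    · rw [eo p hp, eo _ (er p hp).1, (er p hp).2]
      exact ⟨mem_range.2 (me p hp).1, (me p hp).2.2, fun c => hi _ (c ▸ (me p hp).2.2)⟩
    · obtain ⟨p, hp, k⟩ := ix v w (mem_range.1 hv) (mem_range.1 hw) e
      exact ⟨p, hp, by rw [eo p hp, k], by rw [eo _ (er p hp).1, (er p hp).2, k]⟩
    · have mo : ∀ a b, a ≤ b → b < El.length → own.get a ≤ own.get b := fun a b k hb => by
        rw [eo b hb, eo a (by omega), ea b hb, ea a (by omega)]
        exact k.eq_or_lt.elim (fun c => by subst c; rfl) (List.pairwise_iff_getElem.1 srt _ _ _ _)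
      have := mo p q x (by omega)
      have := mo q r y z
      omega
  refine ⟨len, G, fun a ha b => ?_, fun a => ?_, ?_⟩
  · simp only [a7, if_pos (mem_range.1 ha), (adj3_spec G (mem_range.1 ha)).2.2]
    exact ⟨fun k => ⟨mem_range.2 (G.lt3 k).2, k⟩, fun k => k.2⟩
  · simp only [a7]
    split_ifs with c
    · exact ⟨(adj3_spec G c).1, (adj3_spec G c).2.1⟩
    · simp
  · simp only [List.length_range] at e1 ⊢; omega

def bkStep (own rev m' : Arr ℕ) (p : ℕ) (m : Arr ℕ) : Arr ℕ :=
  if m'.get (2 * p) = 2 * rev.get p ∧ m.get (own.get p) = own.get p ∧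
      m.get (own.get (rev.get p)) = own.get (rev.get p) then
    (m.set (own.get p) (own.get (rev.get p))).set (own.get (rev.get p)) (own.get p)
  else m

/-- the matching of the graph given by a matching of the new graph -/
def back (n D : ℕ) (own rev m' : Arr ℕ) : R (Arr ℕ) :=
  tabP (fun v => v) n (.cst 0) >>= fun m => forP (bkStep own rev m') D 0 m

theorem Bk.step {V : Finset ℕ} {D p : ℕ} {own rev m' m : Arr ℕ} {l : List ℕ}
    (hE : ∀ a b, E a b → E b a) (h : Gd V E D own.get rev.get)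
    (hm : IsM (range (2 * D)) (E3 D own.get rev.get) m'.get) (hp : p < D)
    (b : Bk V E D own.get rev.get m'.get m.get (p :: l)) :
    Bk V E D own.get rev.get m'.get (bkStep own rev m' p m).get l := by
  rw [bkStep]
  split_ifs with c
  · obtain ⟨c1, c2, c3⟩ := c
    obtain ⟨r1, r2⟩ := h.rv p hp
    obtain ⟨d1, d2, d3⟩ := h.ed p hp
    have ev := Arr.get_set (m.set (own.get p) (own.get (rev.get p))) (own.get (rev.get p))
    simp only [Arr.get_set m] at ev
    refine ⟨?_, fun v hv k => ?_, fun q hq k e => ?_⟩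
    · rw [Arr.set_get, Arr.set_get]
      exact Patch.isM (P := [(own.get p, own.get (rev.get p))]) hE b.isM
        ⟨by simp [d3], by simp [d1, (h.ed _ r1).1], by simp [c2, c3], by simp [d2]⟩
    · rw [ev] at k ⊢
      split_ifs at k ⊢ with x y
      · exact ⟨rev.get p, r1, by rw [← c1, hm.inv (mem_range.2 (by omega)), r2], x.symm,
          by rw [r2]⟩
      · exact ⟨p, hp, c1, y.symm, rfl⟩
      · exact b.ext v hv k
    · have key : ∀ v, m.get v ≠ v ∨ v = own.get p → ((m.set (own.get p)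
          (own.get (rev.get p))).set (own.get (rev.get p)) (own.get p)).get v ≠ v := fun v k => by
        rw [ev]
        split_ifs with x y
        · exact x ▸ d3
        · exact y ▸ d3.symm
        · exact k.resolve_right y
      by_cases x : q = p
      · exact .inl (key _ (.inr (by rw [x])))
      · exact (b.mx q hq (by simp [x, k]) e).imp (fun y => key _ (.inl y)) fun y => key _ (.inl y)
  · refine ⟨b.isM, b.ext, fun q hq k e => ?_⟩
    by_cases x : q = p
    · subst x; tauto
    · exact b.mx q hq (by simp [x, k]) e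

/-- **the way back keeps the gap** -/
theorem sp_back {n D j : ℕ} {own rev m' : Arr ℕ} (hE : ∀ a b, E a b → E b a)
    (h : Gd (range n) E D own.get rev.get) (hm : IsM (range (2 * D)) (E3 D own.get rev.get) m'.get)
    (hj : ∀ m'', IsM (range (2 * D)) (E3 D own.get rev.get) m'' →
      ex (range (2 * D)) m'.get ≤ ex (range (2 * D)) m'' + j) :
    Sp g (back n D own rev m') fun m t => IsM (range n) E m.get ∧
      (∀ m₀, IsM (range n) E m₀ → ex (range n) m.get ≤ ex (range n) m₀ + j) ∧ t = n + D + 2 := by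
  refine (sp_tabP _ _ _).bind fun m t0 ⟨a, e0⟩ => (sp_forP _ _ _ _).mono ?_
  rintro _ t1 ⟨rfl, e1⟩
  have key : ∀ (l : List ℕ) (m : Arr ℕ), (∀ p ∈ l, p < D) →
      Bk (range n) E D own.get rev.get m'.get m.get l → Bk (range n) E D own.get rev.get m'.get
        (l.foldl (fun s p => bkStep own rev m' p s) m).get [] := by
    intro l
    induction l with
    | nil => exact fun _ _ b => b
    | cons p l ih =>
      exact fun m k b => ih _ (fun q c => k q (List.mem_cons_of_mem _ c))
        (b.step hE h hm (k p List.mem_cons_self))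
  have i : ∀ v ∈ range n, m.get v = v := fun v hv => (a v).trans (if_pos (mem_range.1 hv))
  have b := key (List.range' 0 D) m (by simp) ⟨isM_id.congr i, fun v hv k => absurd (i v hv) k,
    fun p hp k => absurd (by simpa using hp) k⟩
  exact ⟨b.isM, h.gap hm b hj, by omega⟩

@[fun_prop] theorem impl_deg3 : Impl fun p : ℕ × Arr (List ℕ) => deg3 p.1 p.2 := by impl

@[fun_prop] theorem impl_back : Impl fun p : ℕ × ℕ × Arr ℕ × Arr ℕ × Arr ℕ =>
    back p.1 p.2.1 p.2.2.1 p.2.2.2.1 p.2.2.2.2 := by impl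

end Crest.Agent.N325.Mt
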