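import Mathlib

/-!
# Row 325, M6 (helper4): matchings as mate maps, patches, augmenting paths

A matching is a map `m : ℕ → ℕ` that is an involution on the vertex set `V`; the fixed points are
the exposed vertices.  A *patch* is a list of new matched pairs whose vertices are closed under `m`.
-/

set_option autoImplicit false
open Finset

namespace Crest.Agent.N325.Mt

variable {V : Finset ℕ} {E : ℕ → ℕ → Prop} {m : ℕ → ℕ}

/-- `m` is the mate map of a matching of the graph `E` on `V` -/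
def IsM (V : Finset ℕ) (E : ℕ → ℕ → Prop) (m : ℕ → ℕ) : Prop :=
  ∀ v ∈ V, m v ∈ V ∧ m (m v) = v ∧ (m v ≠ v → E v (m v))

/-- the exposed vertices -/
def exs (V : Finset ℕ) (m : ℕ → ℕ) : Finset ℕ := V.filter fun v => m v = v

/-- the number of exposed vertices -/
def ex (V : Finset ℕ) (m : ℕ → ℕ) : ℕ := (exs V m).card

/-- maximum matchings -/
def Max (V : Finset ℕ) (E : ℕ → ℕ → Prop) (m : ℕ → ℕ) : Prop :=
  ∀ m', IsM V E m' → ex V m ≤ ex V m'

theorem mem_exs {v : ℕ} : v ∈ exs V m ↔ v ∈ V ∧ m v = v := mem_filter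

theorem IsM.mem (h : IsM V E m) {v : ℕ} (hv : v ∈ V) : m v ∈ V := (h v hv).1
theorem IsM.inv (h : IsM V E m) {v : ℕ} (hv : v ∈ V) : m (m v) = v := (h v hv).2.1
theorem IsM.adj (h : IsM V E m) {v : ℕ} (hv : v ∈ V) (k : m v ≠ v) : E v (m v) := (h v hv).2.2 k

theorem IsM.mono {E' : ℕ → ℕ → Prop} (h : IsM V E m) (k : ∀ a ∈ V, ∀ b ∈ V, E a b → E' a b) :
    IsM V E' m := fun v hv => ⟨h.mem hv, h.inv hv, fun e => k _ hv _ (h.mem hv) (h.adj hv e)⟩

theorem IsM.congr {m' : ℕ → ℕ} (h : IsM V E m) (k : ∀ v ∈ V, m' v = m v) : IsM V E m' :=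
  fun v hv => by
    rw [k v hv, k _ (h.mem hv)]; exact h v hv

theorem IsM.sub {W : Finset ℕ} (h : IsM V E m) (s : W ⊆ V) (c : ∀ v ∈ W, m v ∈ W) : IsM W E m :=
  fun v hv => ⟨c v hv, h.inv (s hv), h.adj (s hv)⟩

theorem IsM.sdiff {W : Finset ℕ} (h : IsM V E m) (c : ∀ v ∈ V, v ∈ W → m v ∈ W) :
    IsM (V \ W) E m :=
  h.sub sdiff_subset fun v hv => by
    rw [mem_sdiff] at hv ⊢
    exact ⟨h.mem hv.1, fun k => hv.2 (h.inv hv.1 ▸ c _ (h.mem hv.1) k)⟩

theorem isM_id : IsM V E id := fun v hv => ⟨hv, rfl, fun k => absurd rfl k⟩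

theorem exs_congr {m' : ℕ → ℕ} (k : ∀ v ∈ V, m' v = m v) : exs V m' = exs V m :=
  filter_congr fun v hv => by rw [k v hv]

theorem ex_le : ex V m ≤ V.card := card_filter_le _ _

theorem exists_max (V : Finset ℕ) (E : ℕ → ℕ → Prop) : ∃ m, IsM V E m ∧ Max V E m := by
  have h : ∃ k, ∃ m, IsM V E m ∧ ex V m = k := ⟨_, id, isM_id, rfl⟩
  classical
  obtain ⟨m, hm, e⟩ := Nat.find_spec h
  exact ⟨m, hm, fun m' h' => e ▸ Nat.find_min' h ⟨m', h', rfl⟩⟩

/-- the vertices of a list of pairs -/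
def vs (P : List (ℕ × ℕ)) : List ℕ := P.flatMap fun e => [e.1, e.2]

@[simp] theorem vs_nil : vs [] = [] := rfl
@[simp] theorem vs_cons (e : ℕ × ℕ) (P : List (ℕ × ℕ)) : vs (e :: P) = e.1 :: e.2 :: vs P := rfl
@[simp] theorem vs_append (P Q : List (ℕ × ℕ)) : vs (P ++ Q) = vs P ++ vs Q := List.flatMap_append
theorem mem_vs {P : List (ℕ × ℕ)} {v : ℕ} : v ∈ vs P ↔ ∃ e ∈ P, v = e.1 ∨ v = e.2 := by
  simp [vs]
theorem vs_perm {P Q : List (ℕ × ℕ)} (h : P.Perm Q) : (vs P).Perm (vs Q) := h.flatMap_right _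
@[simp] theorem length_vs (P : List (ℕ × ℕ)) : (vs P).length = 2 * P.length := by
  induction P with
  | nil => rfl
  | cons e P ih => simp [ih]; omega
theorem vs_flatten (F : List (List (ℕ × ℕ))) : vs F.flatten = (F.map vs).flatten := by
  induction F with
  | nil => rfl
  | cons P F ih => simp [ih]

/-- match one pair -/
def up1 (m : ℕ → ℕ) (e : ℕ × ℕ) : ℕ → ℕ := Function.update (Function.update m e.1 e.2) e.2 e.1

/-- match all pairs of the list -/
def flp (m : ℕ → ℕ) (P : List (ℕ × ℕ)) : ℕ → ℕ := P.foldl up1 m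

theorem flp_of_notMem {P : List (ℕ × ℕ)} {v : ℕ} (h : v ∉ vs P) : flp m P v = m v := by
  induction P generalizing m with
  | nil => rfl
  | cons e P ih =>
    simp only [vs_cons, List.mem_cons, not_or] at h
    change flp (up1 m e) P v = _
    rw [ih h.2.2, up1, Function.update_of_ne h.2.1, Function.update_of_ne h.1]

theorem flp_of_mem {P : List (ℕ × ℕ)} (h : (vs P).Nodup) {e : ℕ × ℕ} (he : e ∈ P) :
    flp m P e.1 = e.2 ∧ flp m P e.2 = e.1 ∧ e.1 ≠ e.2 := by
  induction P generalizing m with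
  | nil => cases he
  | cons f P ih =>
    simp only [vs_cons, List.nodup_cons, List.mem_cons, not_or] at h
    change flp (up1 m f) P _ = _ ∧ flp (up1 m f) P _ = _ ∧ _
    rcases List.mem_cons.1 he with rfl | k
    · rw [flp_of_notMem h.1.2, flp_of_notMem h.2.1, up1, Function.update_of_ne h.1.1]
      exact ⟨Function.update_self .., Function.update_self .., h.1.1⟩
    · exact ih h.2.2 k

/-- a list of disjoint edges whose vertex set is closed under `m` -/
structure Patch (V : Finset ℕ) (E : ℕ → ℕ → Prop) (m : ℕ → ℕ) (P : List (ℕ × ℕ)) : Prop where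
  nd : (vs P).Nodup
  sub : ∀ v ∈ vs P, v ∈ V
  cl : ∀ v ∈ vs P, m v ∈ vs P
  ed : ∀ e ∈ P, E e.1 e.2

section patch
variable {P : List (ℕ × ℕ)}

theorem Patch.perm {Q : List (ℕ × ℕ)} (h : Patch V E m P) (p : P.Perm Q) : Patch V E m Q :=
  have q := vs_perm p
  ⟨q.nodup_iff.1 h.nd, fun v k => h.sub v (q.mem_iff.2 k),
    fun v k => q.mem_iff.1 (h.cl v (q.mem_iff.2 k)), fun e k => h.ed e (p.mem_iff.2 k)⟩

theorem Patch.length_le (h : Patch V E m P) : 2 * P.length ≤ V.card := by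
  rw [← length_vs, ← List.toFinset_card_of_nodup h.nd]
  exact card_le_card fun v k => h.sub v (List.mem_toFinset.1 k)

theorem Patch.isM (hE : ∀ a b, E a b → E b a) (hm : IsM V E m) (h : Patch V E m P) :
    IsM V E (flp m P) := by
  intro v hv
  by_cases k : v ∈ vs P
  · obtain ⟨e, he, rfl | rfl⟩ := mem_vs.1 k
    · obtain ⟨a, b, -⟩ := flp_of_mem (m := m) h.nd he
      rw [a, b]
      exact ⟨h.sub _ (mem_vs.2 ⟨e, he, .inr rfl⟩), rfl, fun _ => h.ed e he⟩
    · obtain ⟨a, b, -⟩ := flp_of_mem (m := m) h.nd he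
      rw [b, a]
      exact ⟨h.sub _ (mem_vs.2 ⟨e, he, .inl rfl⟩), rfl, fun _ => hE _ _ (h.ed e he)⟩
  · have k' : m v ∉ vs P := fun c => k (hm.inv hv ▸ h.cl _ c)
    rw [flp_of_notMem k, flp_of_notMem k']
    exact hm v hv

theorem exs_flp (h : (vs P).Nodup) : exs V (flp m P) = exs V m \ (vs P).toFinset := by
  ext v
  simp only [mem_exs, mem_sdiff, List.mem_toFinset]
  by_cases k : v ∈ vs P
  · obtain ⟨e, he, rfl | rfl⟩ := mem_vs.1 k
    · obtain ⟨a, -, c⟩ := flp_of_mem (m := m) h he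
      simp [a, c.symm, k]
    · obtain ⟨-, b, c⟩ := flp_of_mem (m := m) h he
      simp [b, c, k]
  · simp [flp_of_notMem k, k]

/-- the number of exposed vertices drops by the number of exposed vertices of the patch -/
theorem Patch.ex_flp (h : Patch V E m P) :
    ex V (flp m P) + ((vs P).toFinset.filter fun v => m v = v).card = ex V m := by
  rw [ex, exs_flp h.nd, ex, ← card_sdiff_add_card_inter (exs V m) (vs P).toFinset]
  congr 2
  ext v
  simp only [mem_filter, mem_inter, mem_exs, List.mem_toFinset]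
  exact ⟨fun k => ⟨⟨h.sub v k.1, k.2⟩, k.1⟩, fun k => ⟨k.2, k.1.2⟩⟩

/-- an improving patch -/
def Imp (V : Finset ℕ) (E : ℕ → ℕ → Prop) (m : ℕ → ℕ) (P : List (ℕ × ℕ)) : Prop :=
  Patch V E m P ∧ ∃ a ∈ vs P, ∃ b ∈ vs P, a ≠ b ∧ m a = a ∧ m b = b

theorem Imp.ex_flp (h : Imp V E m P) : ex V (flp m P) + 2 ≤ ex V m := by
  obtain ⟨h, a, ha, b, hb, ne, ea, eb⟩ := h
  rw [← h.ex_flp]
  have : ({a, b} : Finset ℕ) ⊆ (vs P).toFinset.filter fun v => m v = v := by
    intro v k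
    rcases mem_insert.1 k with rfl | k
    · simp [ha, ea]
    · rw [mem_singleton.1 k]; simp [hb, eb]
  have := card_le_card this
  rw [card_pair ne] at this
  omega

theorem Imp.perm {Q : List (ℕ × ℕ)} (h : Imp V E m P) (p : P.Perm Q) : Imp V E m Q := by
  obtain ⟨h, a, ha, b, hb, k⟩ := h
  exact ⟨h.perm p, a, (vs_perm p).mem_iff.1 ha, b, (vs_perm p).mem_iff.1 hb, k⟩

theorem patch_flatten {F : List (List (ℕ × ℕ))} (h : ∀ P ∈ F, Patch V E m P)
    (d : F.Pairwise fun P Q => (vs P).Disjoint (vs Q)) : Patch V E m F.flatten := by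
  refine ⟨?_, fun v k => ?_, fun v k => ?_, fun e k => ?_⟩
  · rw [vs_flatten, List.nodup_flatten, List.pairwise_map]
    exact ⟨fun l k => by obtain ⟨P, a, rfl⟩ := List.mem_map.1 k; exact (h P a).nd, d⟩
  · rw [vs_flatten] at k
    obtain ⟨l, a, b⟩ := List.mem_flatten.1 k
    obtain ⟨P, c, rfl⟩ := List.mem_map.1 a
    exact (h P c).sub v b
  · rw [vs_flatten] at k ⊢
    obtain ⟨l, a, b⟩ := List.mem_flatten.1 k
    obtain ⟨P, c, rfl⟩ := List.mem_map.1 a
    exact List.mem_flatten.2 ⟨_, a, (h P c).cl v b⟩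
  · obtain ⟨P, a, b⟩ := List.mem_flatten.1 k
    exact (h P a).ed e b

/-- flipping a family of disjoint improving patches -/
theorem ex_flp_flatten (hE : ∀ a b, E a b → E b a) {F : List (List (ℕ × ℕ))} (hm : IsM V E m)
    (h : ∀ P ∈ F, Imp V E m P) (d : F.Pairwise fun P Q => (vs P).Disjoint (vs Q)) :
    IsM V E (flp m F.flatten) ∧ ex V (flp m F.flatten) + 2 * F.length ≤ ex V m := by
  refine ⟨(patch_flatten (fun P k => (h P k).1) d).isM hE hm, ?_⟩
  induction F generalizing m with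
  | nil => exact le_rfl
  | cons P F ih =>
    rw [List.pairwise_cons] at d
    have hP := h P List.mem_cons_self
    have := ih (hP.1.isM hE hm) (fun Q k => ?_) d.2
    · have e : flp m (P :: F).flatten = flp (flp m P) F.flatten := by
        rw [List.flatten_cons, flp, List.foldl_append]; rfl
      have := hP.ex_flp
      rw [e, List.length_cons]; omega
    · obtain ⟨q, a, ha, b, hb, ne, ea, eb⟩ := h Q (List.mem_cons_of_mem _ k)
      have z : ∀ v ∈ vs Q, flp m P v = m v := fun v hv => flp_of_notMem fun c => d.1 Q k c hv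
      exact ⟨⟨q.nd, q.sub, fun v hv => z v hv ▸ q.cl v hv, q.ed⟩, a, ha, b, hb, ne,
        (z a ha).trans ea, (z b hb).trans eb⟩

end patch

/-- `Alt E m a P`: `P = [(a₁,b₁),…,(a_k,b_k)]`, `a₁ = a`, edges `aᵢ bᵢ`, `aᵢ₊₁ = m bᵢ`,
`b_k` exposed -/
inductive Alt (E : ℕ → ℕ → Prop) (m : ℕ → ℕ) : ℕ → List (ℕ × ℕ) → Prop
  | last {a b : ℕ} : E a b → m b = b → Alt E m a [(a, b)]
  | cons {a b : ℕ} {P : List (ℕ × ℕ)} : E a b → m b ≠ b → Alt E m (m b) P →
      Alt E m a ((a, b) :: P)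

/-- an augmenting path from the exposed vertex `a` -/
structure Aug (V : Finset ℕ) (E : ℕ → ℕ → Prop) (m : ℕ → ℕ) (a : ℕ) (P : List (ℕ × ℕ)) :
    Prop where
  root : m a = a
  alt : Alt E m a P
  nd : (vs P).Nodup
  sub : ∀ v ∈ vs P, v ∈ V

theorem Alt.head {a : ℕ} {P : List (ℕ × ℕ)} (h : Alt E m a P) : ∃ b Q, P = (a, b) :: Q := by
  cases h with
  | last => exact ⟨_, _, rfl⟩
  | cons => exact ⟨_, _, rfl⟩

theorem Alt.mem {a : ℕ} {P : List (ℕ × ℕ)} (h : Alt E m a P) : a ∈ vs P := by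
  obtain ⟨b, Q, rfl⟩ := h.head; simp

theorem Alt.ed {a : ℕ} {P : List (ℕ × ℕ)} (h : Alt E m a P) : ∀ e ∈ P, E e.1 e.2 := by
  induction h with
  | last h _ => simpa using h
  | cons h _ _ ih => simpa using ⟨h, by simpa using ih⟩

theorem Alt.mono {E' : ℕ → ℕ → Prop} {a : ℕ} {P : List (ℕ × ℕ)} (h : Alt E m a P)
    (k : ∀ e ∈ P, E' e.1 e.2) : Alt E' m a P := by
  induction h with
  | last h e => exact .last (k _ List.mem_cons_self) e
  | cons h e _ ih =>
    exact .cons (k _ List.mem_cons_self) e (ih fun f c => k f (List.mem_cons_of_mem _ c))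

/-- closure under `m` and the unique exposed end -/
theorem Alt.cl {a : ℕ} {P : List (ℕ × ℕ)} (h : Alt E m a P)
    (i : ∀ e ∈ P, m (m e.2) = e.2) : ∃ y ∈ (vs P).tail, m y = y ∧
      ∀ v ∈ (vs P).tail, m v ∈ (vs P).tail ∧ (m v = v → v = y) := by
  induction h with
  | @last a b h e => exact ⟨b, by simp, e, by simp [e]⟩
  | @cons a b P h e k ih =>
    obtain ⟨y, hy, ey, c⟩ := ih fun f c => i f (List.mem_cons_of_mem _ c)
    obtain ⟨b', Q, rfl⟩ := k.head
    have ib : m (m b) = b := i (a, b) List.mem_cons_self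
    simp only [vs_cons, List.tail_cons] at hy c ⊢
    refine ⟨y, by simp only [List.mem_cons] at hy ⊢; tauto, ey, fun v hv => ?_⟩
    rcases List.mem_cons.1 hv with rfl | hv
    · exact ⟨by simp, fun k => absurd k e⟩
    rcases List.mem_cons.1 hv with rfl | hv
    · exact ⟨by simp [ib], fun k => absurd (k.symm.trans ib) e⟩
    · exact ⟨List.mem_cons_of_mem _ (List.mem_cons_of_mem _ (c v hv).1), (c v hv).2⟩

theorem Aug.imp {a : ℕ} {P : List (ℕ × ℕ)} (hm : IsM V E m) (h : Aug V E m a P) :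
    Imp V E m P := by
  obtain ⟨y, hy, ey, c⟩ := h.alt.cl fun e k => hm.inv (h.sub _ (mem_vs.2 ⟨e, k, .inr rfl⟩))
  obtain ⟨b, Q, rfl⟩ := h.alt.head
  have nd := h.nd
  simp only [vs_cons, List.tail_cons] at hy c nd
  refine ⟨⟨h.nd, h.sub, fun v hv => ?_, h.alt.ed⟩, a, by simp, y, List.mem_cons_of_mem _ hy,
    fun k => (List.nodup_cons.1 nd).1 (k ▸ hy), h.root, ey⟩
  rcases List.mem_cons.1 hv with rfl | hv
  · rw [h.root]; simp
  · exact List.mem_cons_of_mem _ (c v hv).1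

end Crest.Agent.N325.Mt
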