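import Crest.Prelude.Def_GraphRAM
import Crest.Agent.N325.Mt.Defs
import Crest.Agent.N325.Lst.ListR

/-!
# Row 325, M6 (T5): input and output of the matching program (helper12)
-/

set_option autoImplicit false
open Finset Crest.GraphRAM

namespace Crest.Agent.N325.Mt

variable {g : Gl}

/-! ### input -/

/-- the neighbour lists over `ℕ` -/
def adjN (n : ℕ) (adj : Fin n → List (Fin n)) (v : ℕ) : List ℕ :=
  if h : v < n then (adj ⟨v, h⟩).map Fin.val else []

/-- the adjacency relation over `ℕ` -/
def relN {n : ℕ} (G : SimpleGraph (Fin n)) (u v : ℕ) : Prop :=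
  ∃ (hu : u < n) (hv : v < n), G.Adj ⟨u, hu⟩ ⟨v, hv⟩

theorem relN_symm {n : ℕ} (G : SimpleGraph (Fin n)) (u v : ℕ) (h : relN G u v) : relN G v u :=
  let ⟨a, b, c⟩ := h; ⟨b, a, c.symm⟩

theorem relN_irrefl {n : ℕ} (G : SimpleGraph (Fin n)) (u : ℕ) : ¬ relN G u u :=
  fun ⟨_, _, c⟩ => G.irrefl c

theorem mem_adjN {n : ℕ} {G : SimpleGraph (Fin n)} {adj : Fin n → List (Fin n)}
    (h : ∀ v, (adj v).Nodup ∧ ∀ u, u ∈ adj v ↔ G.Adj v u) (v u : ℕ) :
    u ∈ adjN n adj v ↔ relN G v u := by
  unfold adjN relN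
  split_ifs with hv
  · simp only [List.mem_map, (h _).2]
    exact ⟨fun ⟨w, a, b⟩ => ⟨hv, b ▸ w.2, by subst b; exact a⟩, fun ⟨_, b, c⟩ => ⟨_, c, rfl⟩⟩
  · simp [hv]

theorem nodup_adjN {n : ℕ} {G : SimpleGraph (Fin n)} {adj : Fin n → List (Fin n)}
    (h : ∀ v, (adj v).Nodup ∧ ∀ u, u ∈ adj v ↔ G.Adj v u) (v : ℕ) : (adjN n adj v).Nodup := by
  unfold adjN
  split_ifs with hv
  · exact (h _).1.map Fin.val_injective
  · exact List.nodup_nil

theorem sum_adjN (n : ℕ) (adj : Fin n → List (Fin n)) :
    ∑ v ∈ range n, (adjN n adj v).length = ∑ v, (adj v).length := by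
  rw [← Fin.sum_univ_eq_sum_range (fun v => (adjN n adj v).length)]
  exact sum_congr rfl fun v _ => by simp [adjN]

theorem adjInput_eq (n : ℕ) (adj : Fin n → List (Fin n)) :
    adjInput n adj = n :: ((List.range (n + 1)).map fun k => ∑ u ∈ range k, (adjN n adj u).length)
      ++ (List.range n).flatMap (adjN n adj) := by
  unfold adjInput
  congr 2
  · refine List.ext_getElem (by simp) fun k h1 h2 => ?_
    have hk : k ≤ n := by simp at h1; omega
    simp only [List.getElem_ofFn, List.getElem_map, List.getElem_range]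
    have : ∑ u ∈ range k, (adjN n adj u).length
        = ∑ u ∈ range n, if u < k then (adjN n adj u).length else 0 := by
      rw [← sum_filter]; congr 1; ext u; simp; omega
    rw [this, ← Fin.sum_univ_eq_sum_range (fun u => if u < k then (adjN n adj u).length else 0)]
    exact sum_congr rfl fun u _ => by simp [adjN]
  · refine List.ext_getElem (by simp) fun k h1 h2 => ?_
    have hk : k < n := by simpa using h1
    simp [adjN, hk]

/-- cut the next neighbour list -/
def parseStep (b : Arr ℕ) (v : ℕ) (s : List ℕ × Arr (List ℕ)) : R (List ℕ × Arr (List ℕ)) :=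
  splitL (b.get (v + 1) - b.get v) s.1 >>= fun q => pure (q.2, s.2.set v q.1)

/-- read the adjacency-array input -/
def parseAdj (inp : List ℕ) : R (ℕ × Arr (List ℕ)) :=
  List.casesOn inp (pure (0, Arr.cst [])) fun n r =>
    splitL (n + 1) r >>= fun s => arrOfL s.1 0 (Arr.cst 0) >>= fun b =>
      forN (parseStep b) n 0 (s.2, Arr.cst []) >>= fun st => pure (n, st.2)

theorem sp_parseAdj (n : ℕ) (adj : Fin n → List (Fin n)) :
    Sp g (parseAdj (adjInput n adj)) fun r t => r.1 = n ∧ r.2.get = adjN n adj ∧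
      t ≤ 6 * n + 2 * (∑ v, (adj v).length) + 7 := by
  rw [adjInput_eq]
  refine (sp_splitL _ _).bind fun s t0 k0 => (sp_arrOfL_cst _ 0).bind fun b t1 k1 => ?_
  have e1 : s.1 = (List.range (n + 1)).map fun k => ∑ u ∈ range k, (adjN n adj u).length := by
    rw [k0.1]; simp
  have e2 : s.2 = (List.range n).flatMap (adjN n adj) := by
    rw [k0.1]; simp
  have hb : ∀ k ≤ n, b.get k = ∑ u ∈ range k, (adjN n adj u).length := fun k hk => by
    rw [k1.1, e1]; simp [List.getD_eq_getElem?_getD, Nat.lt_succ_of_le hk]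
  refine (sp_forN (fun v (st : List ℕ × Arr (List ℕ)) t =>
      st.1 = (List.range' v (n - v)).flatMap (adjN n adj) ∧
      (∀ u, st.2.get u = if u < v then adjN n adj u else []) ∧
      t ≤ 3 * v + 2 * ∑ u ∈ range v, (adjN n adj u).length)
    (fun v st t _ hv ⟨a1, a2, a3⟩ => (sp_splitL _ _).bind fun q u k => ?_) (t := 0)
    ⟨by simp [e2, List.range_eq_range'], by simp, Nat.zero_le _⟩).bind
    fun st u ⟨u', e, _, a2, a3⟩ => ⟨rfl, funext fun v => ?_, ?_⟩
  · have hlen : b.get (v + 1) - b.get v = (adjN n adj v).length := by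
      rw [hb _ (by omega), hb _ (by omega), sum_range_succ]; omega
    rw [hlen, a1, show n - v = n - (v + 1) + 1 by omega, List.range'_succ, List.flatMap_cons] at k
    refine ⟨by rw [k.1]; simp, fun w => ?_, ?_⟩
    · rw [Arr.get_set, k.1, a2]
      rcases lt_trichotomy w v with h | rfl | h
      · rw [if_neg h.ne, if_pos h, if_pos (by omega)]
      · simp
      · rw [if_neg h.ne', if_neg (by omega), if_neg (by omega)]
    · have := k.2; rw [sum_range_succ]; omega
  · rw [a2, zero_add]
    split_ifs with h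
    · rfl
    · simp [adjN, h]
  · have := k0.2; have := k1.2
    rw [zero_add, zero_add, sum_adjN] at a3
    have : s.1.length = n + 1 := by simp [e1]
    omega

/-! ### output -/

/-- the matched pairs, smaller end first -/
def prsOf (n : ℕ) (m : ℕ → ℕ) : List (ℕ × ℕ) :=
  ((List.range n).filter fun v => decide (v < m v)).reverse.map fun v => (v, m v)

/-- write the matched pairs -/
def outM (n : ℕ) (m : Arr ℕ) : R (List ℕ) :=
  forP (fun v s => if v < m.get v then v :: m.get v :: s else s) n 0 []

theorem foldl_out (m : ℕ → ℕ) (l : List ℕ) (P : List (ℕ × ℕ)) :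
    l.foldl (fun s v => if v < m v then v :: m v :: s else s) (vs P)
      = vs (((l.filter fun v => decide (v < m v)).reverse.map fun v => (v, m v)) ++ P) := by
  induction l generalizing P with
  | nil => simp
  | cons v l ih =>
    by_cases h : v < m v
    · simp only [List.foldl_cons, h, if_true]
      exact (ih ((v, m v) :: P)).trans (by simp [h])
    · simp only [List.foldl_cons, h, if_false]
      exact (ih P).trans (by simp [h])

theorem sp_outM (n : ℕ) (m : Arr ℕ) :
    Sp g (outM n m) fun r t => r = vs (prsOf n m.get) ∧ t = n + 1 :=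
  (sp_forP _ n 0 []).mono fun r t k => ⟨by
    rw [k.1, ← List.range_eq_range']
    exact (foldl_out m.get _ []).trans (by rw [List.append_nil, prsOf]), k.2⟩

theorem pairsOf_vs (P : List (ℕ × ℕ)) : pairsOf (vs P) = P := by
  induction P with
  | nil => rfl
  | cons e P ih => rw [vs_cons, pairsOf, ih]

theorem card_eq_ex_add {V : Finset ℕ} {E : ℕ → ℕ → Prop} {m : ℕ → ℕ} (h : IsM V E m) :
    V.card = ex V m + 2 * (V.filter fun v => v < m v).card := by
  have h1 : (V.filter fun v => v < m v).card = (V.filter fun v => m v < v).card := by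
    refine card_bij' (fun v _ => m v) (fun v _ => m v) (fun v hv => ?_) (fun v hv => ?_)
      (fun v hv => h.inv (mem_filter.1 hv).1) (fun v hv => h.inv (mem_filter.1 hv).1)
    · obtain ⟨a, b⟩ := mem_filter.1 hv
      exact mem_filter.2 ⟨h.mem a, by rwa [h.inv a]⟩
    · obtain ⟨a, b⟩ := mem_filter.1 hv
      exact mem_filter.2 ⟨h.mem a, by rwa [h.inv a]⟩
  rw [two_mul, ex, exs]
  nth_rewrite 2 [h1]
  simp only [card_filter, ← sum_add_distrib]
  rw [card_eq_sum_ones]
  exact sum_congr rfl fun v _ => by split_ifs <;> omega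

theorem length_prsOf (n : ℕ) (m : ℕ → ℕ) :
    (prsOf n m).length = ((range n).filter fun v => v < m v).card := by
  rw [prsOf, List.length_map, List.length_reverse,
    ← List.toFinset_card_of_nodup (List.nodup_range.filter _)]
  congr 1; ext v; simp

theorem nodup_vs_map {V : Finset ℕ} {E : ℕ → ℕ → Prop} {m : ℕ → ℕ} (h : IsM V E m) {l : List ℕ}
    (hl : l.Nodup) (k : ∀ v ∈ l, v ∈ V ∧ v < m v) : (vs (l.map fun v => (v, m v))).Nodup := by
  induction l with
  | nil => exact List.nodup_nil
  | cons v l ih =>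
    obtain ⟨a, b⟩ := List.nodup_cons.1 hl
    obtain ⟨c, d⟩ := k v List.mem_cons_self
    have k' := fun w hw => k w (List.mem_cons_of_mem _ hw)
    simp only [List.map_cons, vs_cons, List.nodup_cons, List.mem_cons, mem_vs, List.mem_map,
      not_or, not_exists, not_and]
    refine ⟨⟨d.ne, ?_⟩, ?_, ih b k'⟩
    · rintro _ ⟨w, hw, rfl⟩
      refine ⟨fun e => a (by rwa [show v = w from e]), fun e => ?_⟩
      have e : v = m w := e
      have := (k' w hw).2
      rw [e, h.inv (k' w hw).1] at d; omega
    · rintro _ ⟨w, hw, rfl⟩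
      refine ⟨fun e => ?_, fun e => ?_⟩
      · have e : m v = w := e
        have := (k' w hw).2
        rw [← e, h.inv c] at this; omega
      · have e : m v = m w := e
        have : v = w := by rw [← h.inv c, e, h.inv (k' w hw).1]
        exact a (this ▸ hw)

open Classical in
/-- the mate map of a matching subgraph -/
noncomputable def mateOf {n : ℕ} {G : SimpleGraph (Fin n)} (M : G.Subgraph) (v : ℕ) : ℕ :=
  if h : ∃ w : Fin n, ∃ hv : v < n, M.Adj ⟨v, hv⟩ w then h.choose else v

theorem mateOf_adj {n : ℕ} {G : SimpleGraph (Fin n)} {M : G.Subgraph} (hM : M.IsMatching)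
    {a b : Fin n} (h : M.Adj a b) : mateOf M a = b := by
  have e : ∃ w : Fin n, ∃ hv : (a : ℕ) < n, M.Adj ⟨a, hv⟩ w := ⟨b, a.2, h⟩
  rw [mateOf, dif_pos e]
  obtain ⟨_, k⟩ := e.choose_spec
  exact congrArg _ ((hM (M.edge_vert h)).unique k h)

theorem isM_mateOf {n : ℕ} {G : SimpleGraph (Fin n)} {M : G.Subgraph} (hM : M.IsMatching) :
    IsM (range n) (relN G) (mateOf M) := by
  intro v hv
  have hv' := mem_range.1 hv
  by_cases e : ∃ w : Fin n, M.Adj ⟨v, hv'⟩ w
  · obtain ⟨w, k⟩ := e
    have e1 : mateOf M v = w := mateOf_adj hM k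
    have e2 : mateOf M w = v := mateOf_adj hM k.symm
    rw [e1, e2]
    exact ⟨mem_range.2 w.2, rfl, fun _ => ⟨hv', w.2, M.adj_sub k⟩⟩
  · have e1 : mateOf M v = v := dif_neg fun ⟨w, _, k⟩ => e ⟨w, k⟩
    rw [e1, e1]
    exact ⟨hv, rfl, fun k => absurd rfl k⟩

theorem ncard_le_mateOf {n : ℕ} {G : SimpleGraph (Fin n)} {M : G.Subgraph} (hM : M.IsMatching) :
    M.edgeSet.ncard ≤ ((range n).filter fun v => v < mateOf M v).card := by
  rw [← Set.ncard_coe_finset]
  refine Set.ncard_le_ncard_of_injOn
    (Sym2.lift ⟨fun a b : Fin n => min (a : ℕ) b, fun a b => min_comm _ _⟩) ?_ ?_ (finite_toSet _)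
  · intro e he
    induction e using Sym2.ind with
    | _ a b =>
      have h : M.Adj a b := he
      have e1 := mateOf_adj hM h
      have e2 := mateOf_adj hM h.symm
      have ne : (a : ℕ) ≠ b := fun k => h.ne (Fin.ext k)
      simp only [Sym2.lift_mk, coe_filter, mem_range, Set.mem_ofPred_eq]
      rcases le_total (a : ℕ) b with k | k
      · rw [min_eq_left k, e1]; exact ⟨a.2, by omega⟩
      · rw [min_eq_right k, e2]; exact ⟨b.2, by omega⟩
  · intro e he f hf k
    induction e using Sym2.ind with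
    | _ a b =>
      induction f using Sym2.ind with
      | _ c d =>
        have h : M.Adj a b := he
        have h' : M.Adj c d := hf
        have e1 := mateOf_adj hM h
        have e2 := mateOf_adj hM h.symm
        have e3 := mateOf_adj hM h'
        have e4 := mateOf_adj hM h'.symm
        simp only [Sym2.lift_mk] at k
        rw [Sym2.eq_iff]
        simp only [Fin.ext_iff]
        rcases le_total (a : ℕ) b with k1 | k1 <;> rcases le_total (c : ℕ) d with k2 | k2 <;>
          simp only [min_eq_left, min_eq_right, k1, k2] at k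
        · left; exact ⟨k, by rw [← e1, ← e3, k]⟩
        · right; exact ⟨k, by rw [← e1, ← e4, k]⟩
        · right; exact ⟨by rw [← e2, ← e3, k], k⟩
        · left; exact ⟨by rw [← e2, ← e4, k], k⟩

/-- a maximum mate map gives a correct output -/
theorem isMax_out {n : ℕ} (G : SimpleGraph (Fin n)) {m : ℕ → ℕ} (h : IsM (range n) (relN G) m)
    (hm : Max (range n) (relN G) m) : IsMaxMatchingOutput G (vs (prsOf n m)) := by
  refine ⟨⟨(prsOf n m).length, by rw [length_vs]; omega⟩, ?_, ?_, fun M hM => ?_⟩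
  · refine nodup_vs_map h (List.nodup_reverse.2 (List.nodup_range.filter _)) fun v hv => ?_
    simpa using hv
  · rw [pairsOf_vs]
    intro q hq
    obtain ⟨v, hv, rfl⟩ := List.mem_map.1 hq
    have : v < n ∧ v < m v := by simpa using hv
    exact h.adj (mem_range.2 this.1) this.2.ne'
  · have h1 := card_eq_ex_add h
    have h2 := card_eq_ex_add (isM_mateOf hM)
    have h3 := hm _ (isM_mateOf hM)
    have h4 := ncard_le_mateOf hM
    rw [length_vs, length_prsOf]
    omega

end Crest.Agent.N325.Mt
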