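import Crest.Agent.N325.Mt.Search
import Crest.Agent.N325.Mt.Top
import Crest.Agent.N325.M0.Std0

/-!
# Row 325, M6 (helper4): finishing by repeated searches, the slow exact algorithm
-/

set_option autoImplicit false
open Finset Crest.GraphRAM

namespace Crest.Agent.N325.Mt

variable {g : Gl}

/-- at most `k` searches from the matching `m`, then the output -/
def endR (n : ℕ) (adj : Arr (List ℕ)) (N k : ℕ) (m : Arr ℕ) : R (List ℕ) :=
  rangeL n 0 >>= fun Vl => nat (2 * ((N + 9) * (N + 9))) >>= fun fu =>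
    finish (search adj Vl fu) k m >>= fun m' => outM n m'

/-- the cost of one search and one augmentation -/
def cE (N : ℕ) : ℕ := N * (2 * Nat.log 2 N + 36) + 23

theorem adj_adjN {n : ℕ} {G : SimpleGraph (Fin n)} {adj : Fin n → List (Fin n)}
    (h : ∀ v, (adj v).Nodup ∧ ∀ u, u ∈ adj v ↔ G.Adj v u) {A : Arr (List ℕ)}
    (hA : A.get = adjN n adj) : Adj (range n) (relN G) A := fun v _ u => by
  rw [hA, mem_adjN h]
  exact ⟨fun k => ⟨mem_range.2 k.2.1, k⟩, fun k => k.2⟩

theorem sp_endR {n : ℕ} {G : SimpleGraph (Fin n)} {adj : Fin n → List (Fin n)}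
    (h : ∀ v, (adj v).Nodup ∧ ∀ u, u ∈ adj v ↔ G.Adj v u) {A : Arr (List ℕ)}
    (hA : A.get = adjN n adj) {m : Arr ℕ} (hm : IsM (range n) (relN G) m.get) {j k : ℕ}
    (hj : ∀ m', IsM (range n) (relN G) m' → ex (range n) m.get ≤ ex (range n) m' + 2 * j)
    (hk : j + 1 ≤ k) (hX : 2 * ((sizeN n adj + 9) * (sizeN n adj + 9)) ≤ g.X) :
    Sp g (endR n A (sizeN n adj) k m) fun out t => IsMaxMatchingOutput G out ∧
      t ≤ (j + 1) * cE (sizeN n adj) + 3 * sizeN n adj + 5 := by
  have hn := le_sizeN n adj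
  have hD : ∑ v ∈ range n, (A.get v).length ≤ 2 * sizeN n adj + 1 := by
    rw [hA, sum_adjN, sizeN]; omega
  set N := sizeN n adj
  have c1 : sCost (range n) A + n + 2 ≤ cE N := by
    have : n * (2 * Nat.log 2 n + 15) ≤ N * (2 * Nat.log 2 N + 15) :=
      Nat.mul_le_mul hn (by have := Nat.log_mono_right (b := 2) hn; omega)
    rw [sCost, card_range, cE]
    nlinarith
  have c2 : cE N ≤ 2 * ((N + 9) * (N + 9)) := by
    have : N * Nat.log 2 N ≤ N * N := Nat.mul_le_mul_left _ (Nat.log_le_self 2 N)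
    rw [cE]; nlinarith
  refine (sp_rangeL_zero n).bind ?_
  rintro _ t0 ⟨rfl, e0⟩
  refine sp_bind.2 (sp_nat.2 ⟨hX, ?_⟩)
  refine (sp_finish (relN_symm G) (c := sCost (range n) A) (fun m hm =>
    sp_search (relN_symm G) hm (adj_adjN h hA) List.nodup_range (by simp)
      (by rw [card_range]; nlinarith) (by omega)) hm hj hk).bind fun m' t1 ⟨a, b, c⟩ => ?_
  refine (sp_outM n m').mono ?_
  rintro _ t2 ⟨rfl, e2⟩
  rw [card_range] at c
  have := Nat.mul_le_mul_left (j + 1) c1
  exact ⟨isMax_out G a b, by omega⟩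

/-- the slow exact algorithm -/
def slow (inp : List ℕ) : R (List ℕ) :=
  parseAdj inp >>= fun r => sizeR inp >>= fun N => tabP (fun v => v) r.1 (.cst 0) >>= fun m =>
    endR r.1 r.2 N (r.1 + 1) m

/-- cost and number bound of the slow algorithm -/
def slowS (N : ℕ) : ℕ := (N + 1) * cE N + 2 * ((N + 9) * (N + 9)) + 16 * N + 19

theorem sp_slow (n : ℕ) (G : SimpleGraph (Fin n)) (adj : Fin n → List (Fin n)) (_ : 1 ≤ n)
    (h : ∀ v, (adj v).Nodup ∧ ∀ u, u ∈ adj v ↔ G.Adj v u) :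
    Sp ⟨slowS (sizeN n adj), -1⟩ (slow (adjInput n adj))
      fun out t => IsMaxMatchingOutput G out ∧ t ≤ slowS (sizeN n adj) := by
  have hn := le_sizeN n adj
  have hD : ∑ v, (adj v).length ≤ 2 * sizeN n adj + 1 := by rw [sizeN]; omega
  have hD' : n + ∑ v, (adj v).length ≤ 2 * sizeN n adj + 1 := by rw [sizeN]; omega
  refine (sp_parseAdj n adj).bind ?_
  rintro ⟨n', A⟩ t0 ⟨en, hA, e0⟩
  obtain rfl : n = n' := en.symm
  refine (sp_sizeR n adj).bind ?_
  rintro _ t1 ⟨rfl, e1⟩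
  refine (sp_tabP _ _ _).bind fun m t2 ⟨a, e2⟩ => ?_
  have hm : IsM (range n) (relN G) m.get :=
    isM_id.congr fun v hv => (a v).trans (if_pos (mem_range.1 hv))
  refine (sp_endR h hA hm (j := n) (fun m' _ => ?_) le_rfl (by rw [slowS]; simp only; omega)).mono
    fun out t k => ⟨k.1, ?_⟩
  · have := ex_le (V := range n) (m := m.get)
    rw [card_range] at this; omega
  · have := Nat.mul_le_mul_right (cE (sizeN n adj)) (Nat.succ_le_succ hn)
    have := k.2
    simp only [slowS, Nat.succ_eq_add_one] at *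
    omega

end Crest.Agent.N325.Mt
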