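import Crest.Agent.N325.Mt.SImpl
import Crest.Agent.N325.Mt.Slow
import Crest.Agent.N325.M0.Std

/-!
# Row 325, M6: the slow exact algorithm is implementable (helper90)
-/

set_option autoImplicit false

namespace Crest.Agent.N325.Mt

variable {α : Type} [Rp α]

@[fun_prop] theorem impl_endR {n N k : α → ℕ} {adj : α → Arr (List ℕ)} {m : α → Arr ℕ}
    (h1 : Pu true n) (h2 : Pu true adj) (h3 : Pu true N) (h4 : Pu true k) (h5 : Pu true m) :
    Impl fun a => endR (n a) (adj a) (N a) (k a) (m a) := by
  unfold endR; impl

theorem impl_slow : Impl slow := by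
  unfold slow; impl

end Crest.Agent.N325.Mt
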