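import Crest.Agent.N325.Mt.Defs

/-! Berge's lemma: many disjoint augmenting paths inside the union of two matchings. -/

set_option autoImplicit false
open Finset

namespace Crest.Agent.N325.Mt

variable {V : Finset ℕ} {E : ℕ → ℕ → Prop} {m s : ℕ → ℕ}

theorem exists_walk (W : Finset ℕ) (a : ℕ) (ha : a ∈ W)
    (hs : ∀ v ∈ W, s v ∈ W ∧ s (s v) = v)
    (hm : ∀ v ∈ W, v ≠ a → m v ∈ W ∧ m v ≠ a ∧ m (m v) = v) :
    ∃ C ⊆ W, a ∈ C ∧ (∀ v ∈ C, s v ∈ C) ∧ (∀ v ∈ C, v ≠ a → m v ∈ C) ∧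
      ((∃ P, Alt (fun u v => s u = v ∧ u ≠ v) m a P ∧ (vs P).Nodup ∧ (∀ v, v ∈ vs P ↔ v ∈ C) ∧
          ∃ y, ∀ v ∈ C, v ≠ a → m v = v → v = y) ∨
        (∀ v ∈ C, v ≠ a → m v ≠ v) ∧ ∃ y ∈ C, s y = y) := by
  induction hk : #W using Nat.strong_induction_on generalizing W a with
  | _ k ih =>
  by_cases h1 : s a = a
  · exact ⟨{a}, by simpa using ha, by simp, by simp [h1], by simp, .inr ⟨by simp, a, by simp, h1⟩⟩
  obtain ⟨hb, hba⟩ := hs a ha
  by_cases h2 : m (s a) = s a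
  · refine ⟨{a, s a}, by simp [insert_subset_iff, ha, hb], by simp, by simp [hba], ?_,
      .inl ⟨[(a, s a)], .last ⟨rfl, Ne.symm h1⟩ h2, by simpa using Ne.symm h1, by simp, s a, ?_⟩⟩
    · intro v hv hva
      simp only [mem_insert, mem_singleton, hva, false_or] at hv
      simp [hv, h2]
    · intro v hv hva _
      simpa [hva] using hv
  obtain ⟨c1, c2, c3⟩ := hm _ hb h1
  have hmem : ∀ v, v ∈ (W.erase a).erase (s a) ↔ v ∈ W ∧ v ≠ a ∧ v ≠ s a := fun v => by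
    simp only [mem_erase]; tauto
  obtain ⟨C, d1, d2, d3, d4, d5⟩ := ih _ (by
      rw [← hk]; exact lt_of_le_of_lt card_erase_le (card_erase_lt_of_mem ha))
    ((W.erase a).erase (s a)) (m (s a)) ((hmem _).2 ⟨c1, c2, h2⟩)
    (fun v hv => by
      obtain ⟨e1, e2, e3⟩ := (hmem v).1 hv
      obtain ⟨f1, f2⟩ := hs v e1
      exact ⟨(hmem _).2 ⟨f1, fun e => e3 (by rw [← e, f2]), fun e => e2 (by rw [← f2, e, hba])⟩, f2⟩)
    (fun v hv hne => by
      obtain ⟨e1, e2, e3⟩ := (hmem v).1 hv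
      obtain ⟨f1, f2, f3⟩ := hm v e1 e2
      exact ⟨(hmem _).2 ⟨f1, f2, fun e => hne (by rw [← e, f3])⟩,
        fun e => e3 (by rw [← f3, e, c3]), f3⟩) rfl
  have hC : ∀ v ∈ C, v ∈ W ∧ v ≠ a ∧ v ≠ s a := fun v hv => (hmem v).1 (d1 hv)
  have hcase : ∀ v ∈ insert a (insert (s a) C), v ≠ a → v = s a ∨ v = m (s a) ∨
      v ∈ C ∧ v ≠ m (s a) := fun v hv hne => by
    simp only [mem_insert, hne, false_or] at hv
    tauto
  refine ⟨insert a (insert (s a) C), fun v hv => ?_, by simp, fun v hv => ?_, fun v hv hne => ?_,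
    d5.imp ?_ ?_⟩
  · simp only [mem_insert] at hv
    rcases hv with rfl | rfl | hv
    exacts [ha, hb, (hC v hv).1]
  · simp only [mem_insert] at hv ⊢
    rcases hv with rfl | rfl | hv
    exacts [.inr (.inl rfl), .inl hba, .inr (.inr (d3 v hv))]
  · simp only [mem_insert]
    rcases hcase v hv hne with rfl | rfl | hv
    exacts [.inr (.inr d2), .inr (.inl c3), .inr (.inr (d4 v hv.1 hv.2))]
  · rintro ⟨P, p1, p2, p3, y, p4⟩
    refine ⟨(a, s a) :: P, .cons ⟨rfl, Ne.symm h1⟩ h2 p1, ?_, fun v => by simp [p3], y,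
      fun v hv hne e => ?_⟩
    · simp only [vs_cons, List.nodup_cons, List.mem_cons, p3, not_or]
      exact ⟨⟨Ne.symm h1, fun h => (hC _ h).2.1 rfl⟩, fun h => (hC _ h).2.2 rfl, p2⟩
    · rcases hcase v hv hne with rfl | rfl | hv
      exacts [absurd e h2, absurd (e.symm.trans c3) h2, p4 v hv.1 hv.2 e]
  · rintro ⟨p1, y, p2, p3⟩
    refine ⟨fun v hv hne e => ?_, y, by simp [p2], p3⟩
    rcases hcase v hv hne with rfl | rfl | hv
    exacts [h2 e, h2 (e.symm.trans c3), p1 v hv.1 hv.2 e]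

theorem ex_sdiff {C : Finset ℕ} (h : C ⊆ V) : ex (V \ C) m + ex C m = ex V m := by
  rw [ex, ex, ex, exs, exs, exs, ← card_union_of_disjoint, ← filter_union, sdiff_union_of_subset h]
  exact disjoint_filter_filter sdiff_disjoint

/-- **Berge**: disjoint augmenting paths for `m` whose new edges are edges of `s`. -/
theorem berge (hm : IsM V E m) (hs : IsM V E s) : ∃ F : List (ℕ × List (ℕ × ℕ)),
    (∀ p ∈ F, Aug V E m p.1 p.2 ∧ ∀ e ∈ p.2, s e.1 = e.2) ∧
    (F.Pairwise fun p q => (vs p.2).Disjoint (vs q.2)) ∧ ex V m ≤ 2 * F.length + ex V s := by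
  induction hk : #V using Nat.strong_induction_on generalizing V with
  | _ k ih =>
  by_cases h0 : ∀ a ∈ V, m a ≠ a
  · refine ⟨[], by simp, .nil, ?_⟩
    rw [ex, exs, filter_eq_empty_iff.2 h0]; simp
  push Not at h0
  obtain ⟨a, ha, hma⟩ := h0
  obtain ⟨C, d1, d2, d3, d4, d5⟩ := exists_walk (m := m) (s := s) V a ha
    (fun v hv => ⟨hs.mem hv, hs.inv hv⟩)
    fun v hv hne => ⟨hm.mem hv, fun e => hne (by rw [← hm.inv hv, e, hma]), hm.inv hv⟩
  obtain ⟨F, f1, f2, f3⟩ := ih _ (by rw [← hk]; exact card_lt_card (sdiff_ssubset d1 ⟨a, d2⟩))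
    (hm.sdiff (W := C) fun v _ hv => by
      by_cases e : v = a
      · rw [e, hma]; exact d2
      · exact d4 v hv e) (hs.sdiff fun v _ hv => d3 v hv) rfl
  have g1 : ∀ p ∈ F, Aug V E m p.1 p.2 ∧ ∀ e ∈ p.2, s e.1 = e.2 := fun p hp =>
    ⟨⟨(f1 p hp).1.root, (f1 p hp).1.alt, (f1 p hp).1.nd,
      fun v hv => (mem_sdiff.1 ((f1 p hp).1.sub v hv)).1⟩, (f1 p hp).2⟩
  have e1 := ex_sdiff (m := m) d1
  have e2 := ex_sdiff (m := s) d1
  rcases d5 with ⟨P, p1, p2, p3, y, p4⟩ | ⟨p1, y, p2, p3⟩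
  · have hsub : ∀ v ∈ vs P, v ∈ V := fun v hv => d1 ((p3 v).1 hv)
    refine ⟨(a, P) :: F, ?_, List.pairwise_cons.2 ⟨fun q hq v h1 h2 => ?_, f2⟩, ?_⟩
    · rw [List.forall_mem_cons]
      refine ⟨⟨⟨hma, p1.mono fun e he => ?_, p2, hsub⟩, fun e he => (p1.ed e he).1⟩, g1⟩
      obtain ⟨q1, q2⟩ := p1.ed e he
      rw [← q1] at q2 ⊢
      exact hs.adj (hsub _ (mem_vs.2 ⟨e, he, .inl rfl⟩)) q2.symm
    · exact (mem_sdiff.1 ((f1 q hq).1.sub v h2)).2 ((p3 v).1 h1)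
    · have : ex C m ≤ 2 := by
        refine le_trans (card_le_card (t := {a, y}) fun v hv => ?_) card_le_two
        obtain ⟨q1, q2⟩ := mem_exs.1 hv
        by_cases e : v = a
        · simp [e]
        · simp [p4 v q1 e q2]
      rw [List.length_cons]; omega
  · refine ⟨F, g1, f2, ?_⟩
    have a1 : ex C m ≤ 1 := by
      refine le_trans (card_le_card (t := {a}) fun v hv => ?_) (card_singleton a).le
      obtain ⟨q1, q2⟩ := mem_exs.1 hv
      by_contra e
      exact p1 v q1 (by simpa using e) q2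
    have a2 : 1 ≤ ex C s := card_pos.2 ⟨y, mem_exs.2 ⟨p2, p3⟩⟩
    omega

/-- the same, in the form with the restricted edge relation. -/
theorem berge' (hm : IsM V E m) (hs : IsM V E s) : ∃ F : List (ℕ × List (ℕ × ℕ)),
    (∀ p ∈ F, Aug V (fun a b => s a = b ∧ E a b) m p.1 p.2) ∧
    (F.Pairwise fun p q => (vs p.2).Disjoint (vs q.2)) ∧ ex V m ≤ ex V s + 2 * F.length := by
  obtain ⟨F, f1, f2, f3⟩ := berge hm hs
  exact ⟨F, fun p hp => ⟨(f1 p hp).1.root, (f1 p hp).1.alt.mono fun e he =>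
    ⟨(f1 p hp).2 e he, (f1 p hp).1.alt.ed e he⟩, (f1 p hp).1.nd, (f1 p hp).1.sub⟩, f2, by omega⟩

/-- a matching without augmenting path is maximum. -/
theorem max_of_no_aug (hm : IsM V E m) (h : ∀ a P, ¬Aug V E m a P) : Max V E m := fun s hs => by
  obtain ⟨F, f1, -, f3⟩ := berge hm hs
  cases F with
  | nil => simpa using f3
  | cons p F => exact absurd (f1 p List.mem_cons_self).1 (h _ _)

/-- in a disjoint family few members are heavy: `#{weight ≥ L} * L ≤ w(V)`. -/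
theorem countP_heavy (w : ℕ → ℕ) (L : ℕ) {F : List (ℕ × List (ℕ × ℕ))}
    (h : ∀ p ∈ F, (vs p.2).Nodup ∧ ∀ v ∈ vs p.2, v ∈ V)
    (d : F.Pairwise fun p q => (vs p.2).Disjoint (vs q.2)) :
    F.countP (fun p => L ≤ ((vs p.2).map w).sum) * L ≤ ∑ v ∈ V, w v := by
  induction F generalizing V with
  | nil => simp
  | cons p F ih =>
    rw [List.pairwise_cons] at d
    obtain ⟨h1, h2⟩ := h p List.mem_cons_self
    have hsub : (vs p.2).toFinset ⊆ V := fun v hv => h2 v (List.mem_toFinset.1 hv)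
    have := ih (V := V \ (vs p.2).toFinset) (fun q hq => ⟨(h q (List.mem_cons_of_mem _ hq)).1,
      fun v hv => mem_sdiff.2 ⟨(h q (List.mem_cons_of_mem _ hq)).2 v hv,
        fun c => d.1 q hq (List.mem_toFinset.1 c) hv⟩⟩) d.2
    have e0 : ∑ v ∈ (vs p.2).toFinset, w v = ((vs p.2).map w).sum := List.sum_toFinset _ h1
    rw [← sum_sdiff hsub, e0, List.countP_cons, add_mul]
    split_ifs with e
    · have : L ≤ ((vs p.2).map w).sum := by simpa using e
      omega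
    · omega

end Crest.Agent.N325.Mt
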