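import Crest.Agent.N325.Mt.Defs

/-!
# Row 325, M6 (helper4): reduction to maximum degree three, the mathematics

Positions `p < D` are the oriented edges, `own p` the tail, `rev p` the reversed edge; the
positions of one vertex are consecutive.  New vertices `2 p` and `2 p + 1`.
-/

set_option autoImplicit false
open Finset

namespace Crest.Agent.N325.Mt

/-- the oriented edges of the graph -/
structure Gd (V : Finset ℕ) (E : ℕ → ℕ → Prop) (D : ℕ) (own rev : ℕ → ℕ) : Prop where
  rv : ∀ p < D, rev p < D ∧ rev (rev p) = p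
  ed : ∀ p < D, own p ∈ V ∧ E (own p) (own (rev p)) ∧ own p ≠ own (rev p)
  sur : ∀ v ∈ V, ∀ w ∈ V, E v w → ∃ p < D, own p = v ∧ own (rev p) = w
  cvx : ∀ p q r, p ≤ q → q ≤ r → r < D → own p = own r → own q = own p

/-- `p` and `p + 1` belong to the same vertex -/
def Lnk (D : ℕ) (own : ℕ → ℕ) (p : ℕ) : Prop := p + 1 < D ∧ own (p + 1) = own p

instance (D : ℕ) (own : ℕ → ℕ) : DecidablePred (Lnk D own) :=
  fun _ => inferInstanceAs (Decidable (_ ∧ _))

/-- the new graph -/
def E3 (D : ℕ) (own rev : ℕ → ℕ) (a b : ℕ) : Prop :=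
  ∃ p < D, (a = 2 * p ∧ b = 2 * rev p) ∨ (Lnk D own p ∧
    ((a = 2 * p + 1 ∧ (b = 2 * p ∨ b = 2 * p + 2)) ∨ (b = 2 * p + 1 ∧ (a = 2 * p ∨ a = 2 * p + 2))))

variable {V : Finset ℕ} {E : ℕ → ℕ → Prop} {D : ℕ} {own rev m : ℕ → ℕ}

theorem Gd.symm3 (h : Gd V E D own rev) (a b : ℕ) (e : E3 D own rev a b) : E3 D own rev b a := by
  obtain ⟨p, hp, ⟨x, y⟩ | ⟨x, y⟩⟩ := e
  · exact ⟨rev p, (h.rv p hp).1, .inl ⟨y, by rw [(h.rv p hp).2, x]⟩⟩
  · exact ⟨p, hp, .inr ⟨x, y.symm⟩⟩

theorem Gd.irr3 (h : Gd V E D own rev) (a : ℕ) : ¬E3 D own rev a a := by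
  rintro ⟨p, hp, ⟨x, y⟩ | ⟨-, y⟩⟩
  · exact (h.ed p hp).2.2 (by rw [show rev p = p by omega])
  · omega

theorem Gd.lt3 (h : Gd V E D own rev) {a b : ℕ} (e : E3 D own rev a b) : a < 2 * D ∧ b < 2 * D := by
  obtain ⟨p, hp, ⟨x, y⟩ | ⟨⟨x, -⟩, y⟩⟩ := e
  · have := (h.rv p hp).1; omega
  · omega

theorem Gd.lnk (h : Gd V E D own rev) {p r : ℕ} (k : p < r) (hr : r < D) (e : own p = own r) :
    Lnk D own p := ⟨by omega, h.cvx p (p + 1) r (by omega) k hr e⟩

/-- the matching of the new graph given by cut positions `i` -/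
def fw (D : ℕ) (own rev m i : ℕ → ℕ) (a : ℕ) : ℕ :=
  if a % 2 = 0 then
    if a / 2 < i (own (a / 2)) then a + 1 else if i (own (a / 2)) < a / 2 then a - 1
    else if m (own (a / 2)) = own (a / 2) then a else 2 * rev (a / 2)
  else if Lnk D own (a / 2) then (if a / 2 < i (own (a / 2)) then a - 1 else a + 1) else a

theorem fw_even (i : ℕ → ℕ) (p : ℕ) : fw D own rev m i (2 * p) =
    if p < i (own p) then 2 * p + 1 else if i (own p) < p then 2 * p - 1
    else if m (own p) = own p then 2 * p else 2 * rev p := by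
  rw [fw, if_pos (by omega), show 2 * p / 2 = p by omega]

theorem fw_odd (i : ℕ → ℕ) (p : ℕ) : fw D own rev m i (2 * p + 1) =
    if Lnk D own p then (if p < i (own p) then 2 * p else 2 * p + 2) else 2 * p + 1 := by
  rw [fw, if_neg (by omega), show (2 * p + 1) / 2 = p by omega]; rfl

theorem Gd.exists_cut (h : Gd V E D own rev) (hm : IsM V E m) : ∃ i : ℕ → ℕ, ∀ p < D,
    i (own p) < D ∧ own (i (own p)) = own p ∧ (m (own p) ≠ own p →
      own (rev (i (own p))) = m (own p) ∧ i (m (own p)) = rev (i (own p))) := by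
  have a : ∀ v, ∃ q, v ∈ V → m v ≠ v → q < D ∧ own q = v ∧ own (rev q) = m v := fun v => by
    by_cases c : v ∈ V ∧ m v ≠ v
    · obtain ⟨q, x⟩ := h.sur v c.1 _ (hm.mem c.1) (hm.adj c.1 c.2)
      exact ⟨q, fun _ _ => x⟩
    · exact ⟨0, fun x y => absurd ⟨x, y⟩ c⟩
  have b : ∀ v, ∃ q, ∀ p < D, own p = v → q < D ∧ own q = v := fun v => by
    by_cases c : ∃ p < D, own p = v
    · obtain ⟨q, x⟩ := c
      exact ⟨q, fun _ _ _ => x⟩
    · exact ⟨0, fun p x y => absurd ⟨p, x, y⟩ c⟩
  choose f hf using a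
  choose f' hf' using b
  refine ⟨fun v => if v < m v then f v else if m v < v then rev (f (m v)) else f' v,
    fun p hp => ?_⟩
  have hv := (h.ed p hp).1
  have iv := hm.inv hv
  simp only [iv]
  rcases lt_trichotomy (own p) (m (own p)) with c | c | c
  · obtain ⟨x, y, z⟩ := hf _ hv c.ne'
    rw [if_pos c, if_neg c.le.not_gt, if_pos c]
    exact ⟨x, y, fun _ => ⟨z, rfl⟩⟩
  · rw [if_neg (by omega), if_neg (by omega)]
    exact ⟨(hf' _ p hp rfl).1, (hf' _ p hp rfl).2, fun k => absurd c.symm k⟩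
  · obtain ⟨x, y, z⟩ := hf _ (hm.mem hv) (by omega)
    rw [if_neg c.le.not_gt, if_pos c, if_pos c, (h.rv _ x).2]
    exact ⟨(h.rv _ x).1, z.trans iv, fun _ => ⟨y, rfl⟩⟩

/-- from the graph to the new graph -/
theorem Gd.fwd (h : Gd V E D own rev) (hm : IsM V E m) : ∃ m', IsM (range (2 * D))
    (E3 D own rev) m' ∧ ex (range (2 * D)) m' ≤ (exs V m ∩ (range D).image own).card +
      ((range D).filter fun p => ¬Lnk D own p).card := by
  obtain ⟨i, hi⟩ := h.exists_cut hm
  refine ⟨fw D own rev m i, fun a ha => ?_, ?_⟩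
  · rw [mem_range] at ha ⊢
    obtain ⟨p, rfl | rfl⟩ := Nat.even_or_odd' a
    · have hp : p < D := by omega
      obtain ⟨i1, i2, i3⟩ := hi p hp
      rw [fw_even]
      split_ifs with c1 c2 c3
      · have l := h.lnk c1 i1 i2.symm
        rw [fw_odd, if_pos l, if_pos c1]
        exact ⟨by omega, rfl, fun _ => ⟨p, hp, .inr ⟨l, .inr ⟨rfl, .inl rfl⟩⟩⟩⟩
      · obtain ⟨q, rfl⟩ : ∃ q, p = q + 1 := ⟨p - 1, by omega⟩
        have o : own q = own (q + 1) := (h.cvx _ q _ (by omega) (by omega) hp i2).trans i2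
        have l : Lnk D own q := ⟨hp, o.symm⟩
        rw [show 2 * (q + 1) - 1 = 2 * q + 1 by omega, fw_odd, if_pos l, o, if_neg (by omega)]
        exact ⟨by omega, rfl, fun _ => ⟨q, by omega, .inr ⟨l, .inr ⟨rfl, .inr rfl⟩⟩⟩⟩
      · rw [fw_even, if_neg c1, if_neg c2, if_pos c3]
        exact ⟨ha, rfl, fun k => absurd rfl k⟩
      · obtain ⟨x, y⟩ := i3 c3
        rw [show i (own p) = p by omega] at x y
        rw [fw_even, x, y, if_neg (lt_irrefl _), if_neg (lt_irrefl _), hm.inv (h.ed p hp).1,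
          if_neg (Ne.symm c3), (h.rv p hp).2]
        exact ⟨by have := (h.rv p hp).1; omega, rfl, fun _ => ⟨p, hp, .inl ⟨rfl, rfl⟩⟩⟩
    · have hp : p < D := by omega
      rw [fw_odd]
      split_ifs with l c
      · rw [fw_even, if_pos c]
        exact ⟨by omega, rfl, fun _ => ⟨p, hp, .inr ⟨l, .inl ⟨rfl, .inl rfl⟩⟩⟩⟩
      · rw [show 2 * p + 2 = 2 * (p + 1) by omega, fw_even, l.2, if_neg (by omega),
          if_pos (by omega)]
        exact ⟨by have := l.1; omega, rfl, fun _ => ⟨p, hp, .inr ⟨l, .inl ⟨rfl, .inr rfl⟩⟩⟩⟩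
      · rw [fw_odd, if_neg l]
        exact ⟨ha, rfl, fun k => absurd rfl k⟩
  · refine (card_le_card (t := (exs V m ∩ (range D).image own).image (fun v => 2 * i v) ∪
      ((range D).filter fun p => ¬Lnk D own p).image fun p => 2 * p + 1) fun a ha => ?_).trans
      ((card_union_le _ _).trans (add_le_add card_image_le card_image_le))
    obtain ⟨ha, e⟩ := mem_exs.1 ha
    rw [mem_range] at ha
    obtain ⟨p, rfl | rfl⟩ := Nat.even_or_odd' a
    · have hp : p < D := by omega
      rw [fw_even] at e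
      split_ifs at e with c1 c2 c3
      · omega
      · omega
      · exact mem_union_left _ (mem_image.2 ⟨own p, mem_inter.2 ⟨mem_exs.2 ⟨(h.ed p hp).1, c3⟩,
          mem_image_of_mem _ (mem_range.2 hp)⟩, by omega⟩)
      · exact absurd (by rw [show rev p = p by omega]) (h.ed p hp).2.2
    · rw [fw_odd] at e
      split_ifs at e with l c
      · omega
      · omega
      · exact mem_union_right _ (mem_image_of_mem _ (mem_filter.2 ⟨mem_range.2 (by omega), l⟩))

section back
variable {m' : ℕ → ℕ}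

theorem e3_even {p b : ℕ} (e : E3 D own rev (2 * p) b) : b = 2 * rev p ∨
    (b = 2 * (b / 2) + 1 ∧ Lnk D own (b / 2) ∧ own (b / 2) = own p) := by
  obtain ⟨q, hq, ⟨x, y⟩ | ⟨l, ⟨x, -⟩ | ⟨x, y | y⟩⟩⟩ := e
  · exact .inl (by rw [y, show q = p by omega])
  · omega
  · rw [show b / 2 = q by omega, show p = q by omega]; exact .inr ⟨x, l, rfl⟩
  · rw [show b / 2 = q by omega, show p = q + 1 by omega]; exact .inr ⟨x, l, l.2.symm⟩

theorem e3_odd {p b : ℕ} (e : E3 D own rev (2 * p + 1) b) : Lnk D own p ∧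
    b = 2 * (b / 2) ∧ b / 2 < D ∧ own (b / 2) = own p := by
  obtain ⟨q, hq, ⟨x, y⟩ | ⟨l, ⟨x, y | y⟩ | ⟨x, y⟩⟩⟩ := e
  · omega
  · rw [show b / 2 = q by omega, show p = q by omega]; exact ⟨l, y, hq, rfl⟩
  · rw [show b / 2 = q + 1 by omega, show p = q by omega]; exact ⟨l, y, l.1, l.2⟩
  · omega

/-- a vertex without external edge has an exposed copy -/
theorem Gd.p1 (hm : IsM (range (2 * D)) (E3 D own rev) m') {p : ℕ}
    (hp : p < D) (k : ∀ q < D, own q = own p → m' (2 * q) ≠ 2 * rev q) :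
    ∃ q < D, own q = own p ∧ m' (2 * q) = 2 * q := by
  by_contra c
  push Not at c
  set F := (range D).filter fun q => own q = own p
  have ne : F.Nonempty := ⟨p, by simp [F, hp]⟩
  have key : ∀ q ∈ F, m' (2 * q) = 2 * (m' (2 * q) / 2) + 1 ∧ Lnk D own (m' (2 * q) / 2) ∧
      own (m' (2 * q) / 2) = own q := fun q hq => by
    simp only [F, mem_filter, mem_range] at hq
    exact (e3_even (hm.adj (mem_range.2 (by omega)) (c q hq.1 hq.2))).resolve_left (k q hq.1 hq.2)
  have := card_le_card_of_injOn (s := F) (t := F.erase (F.max' ne)) (fun q => m' (2 * q) / 2)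
    (fun q hq => ?_) fun q hq r hr e => ?_
  · rw [card_erase_of_mem (F.max'_mem ne)] at this
    have := ne.card_pos
    omega
  · obtain ⟨-, x, y⟩ := key q hq
    have z := (mem_filter.1 hq).2
    have := F.le_max' _ (mem_filter.2 ⟨mem_range.2 x.1, x.2.trans (y.trans z)⟩)
    exact mem_erase.2 ⟨by simp only; omega,
      mem_filter.2 ⟨mem_range.2 (Nat.lt_of_succ_lt x.1), y.trans z⟩⟩
  · have a := hm.inv (v := 2 * q) (by have := mem_range.1 (mem_filter.1 hq).1; simp; omega)
    have b := hm.inv (v := 2 * r) (by have := mem_range.1 (mem_filter.1 hr).1; simp; omega)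
    simp only at e
    rw [(key q hq).1, e, ← (key r hr).1, b] at a
    omega

/-- many external edges leave exposed linking vertices -/
theorem Gd.p2 (h : Gd V E D own rev) (hm : IsM (range (2 * D)) (E3 D own rev) m') (v : ℕ) :
    ((range D).filter fun q => own q = v ∧ m' (2 * q) = 2 * rev q).card ≤
      ((range D).filter fun q => own q = v ∧ Lnk D own q ∧ m' (2 * q + 1) = 2 * q + 1).card + 1 := by
  have a1 : ((range D).filter fun q => own q = v ∧ ¬Lnk D own q).card ≤ 1 := by
    refine card_le_one.2 fun q hq r hr => ?_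
    simp only [mem_filter, mem_range] at hq hr
    rcases lt_trichotomy q r with c | c | c
    · exact absurd (h.lnk c hr.1 (hq.2.1.trans hr.2.1.symm)) hq.2.2
    · exact c
    · exact absurd (h.lnk c hq.1 (hr.2.1.trans hq.2.1.symm)) hr.2.2
  have a2 : ((range D).filter fun q => own q = v ∧ m' (2 * q + 1) ≠ 2 * q + 1).card ≤
      ((range D).filter fun q => own q = v ∧ m' (2 * q) ≠ 2 * rev q).card := by
    refine card_le_card_of_injOn (fun q => m' (2 * q + 1) / 2) (fun q hq => ?_) fun q hq r hr e => ?_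
    all_goals simp only [coe_filter, mem_range, Set.mem_ofPred_eq] at *
    · have i : 2 * q + 1 ∈ range (2 * D) := mem_range.2 (by omega)
      obtain ⟨-, x, y, z⟩ := e3_odd (hm.adj i hq.2.2)
      refine ⟨y, z.trans hq.2.1, ?_⟩
      rw [← x, hm.inv i]; omega
    · have i : 2 * q + 1 ∈ range (2 * D) := mem_range.2 (by omega)
      have j : 2 * r + 1 ∈ range (2 * D) := mem_range.2 (by omega)
      have a := hm.inv i
      rw [(e3_odd (hm.adj i hq.2.2)).2.1, e, ← (e3_odd (hm.adj j hr.2.2)).2.1, hm.inv j] at a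
      omega
  have a3 := card_filter_add_card_filter_not (s := (range D).filter fun q => own q = v)
    fun q => m' (2 * q) = 2 * rev q
  have a4 : ((range D).filter fun q => own q = v).card ≤
      ((range D).filter fun q => own q = v ∧ Lnk D own q ∧ m' (2 * q + 1) = 2 * q + 1).card +
      ((range D).filter fun q => own q = v ∧ ¬Lnk D own q).card +
      ((range D).filter fun q => own q = v ∧ m' (2 * q + 1) ≠ 2 * q + 1).card := by
    refine (card_le_card fun q hq => ?_).trans
      ((card_union_le _ _).trans (add_le_add_left (card_union_le _ _) _))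
    simp only [mem_union, mem_filter] at hq ⊢
    tauto
  simp only [filter_filter] at a3
  simp only [ne_eq] at a2 a4
  omega

/-- a maximal matching among the external edges -/
structure Bk (V : Finset ℕ) (E : ℕ → ℕ → Prop) (D : ℕ) (own rev m' m : ℕ → ℕ) (l : List ℕ) :
    Prop where
  isM : IsM V E m
  ext : ∀ v ∈ V, m v ≠ v → ∃ p < D, m' (2 * p) = 2 * rev p ∧ own p = v ∧ own (rev p) = m v
  mx : ∀ p < D, p ∉ l → m' (2 * p) = 2 * rev p →
    m (own p) ≠ own p ∨ m (own (rev p)) ≠ own (rev p)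

theorem Gd.bwd (h : Gd V E D own rev) (hm : IsM (range (2 * D)) (E3 D own rev) m')
    (b : Bk V E D own rev m' m []) : (exs V m ∩ (range D).image own).card +
      ((range D).filter fun p => ¬Lnk D own p).card ≤ ex (range (2 * D)) m' := by
  set XA := (range D).filter fun q => m' (2 * q) = 2 * q
  set XU := (range D).filter fun q => Lnk D own q ∧ m' (2 * q + 1) = 2 * q + 1
  set B := (range D).filter fun q => m' (2 * q) = 2 * rev q ∧ m (own q) ≠ own q ∧
    own (rev q) ≠ m (own q)
  have s1 : exs V m ∩ (range D).image own ⊆ XA.image own ∪ B.image fun q => own (rev q) := by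
    intro v hv
    obtain ⟨hv, k⟩ := mem_inter.1 hv
    obtain ⟨p, hp, rfl⟩ := mem_image.1 k
    obtain ⟨-, e⟩ := mem_exs.1 hv
    by_cases c : ∃ q < D, own q = own p ∧ m' (2 * q) = 2 * rev q
    · obtain ⟨q, hq, x, y⟩ := c
      obtain ⟨r1, r2⟩ := h.rv q hq
      have z := (b.mx q hq List.not_mem_nil y).resolve_left (by rw [x]; exact fun k => k e)
      refine mem_union_right _ (mem_image.2 ⟨rev q, mem_filter.2 ⟨mem_range.2 r1, ?_, z, ?_⟩,
        by rw [r2, x]⟩)
      · rw [← y, hm.inv (mem_range.2 (by omega)), r2]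
      · rw [r2, x]
        intro k
        have := b.isM.inv (h.ed _ r1).1
        rw [← k, e] at this
        exact z (k.symm.trans this)
    · push Not at c
      obtain ⟨q, hq, x, y⟩ := Gd.p1 hm (mem_range.1 hp) c
      exact mem_union_left _ (mem_image.2 ⟨q, mem_filter.2 ⟨mem_range.2 hq, y⟩, x⟩)
  have s2 : B.card ≤ XU.card := by
    rw [card_eq_sum_card_fiberwise (f := own) (s := B) (t := V)
        fun q hq => (h.ed q (mem_range.1 (mem_filter.1 hq).1)).1,
      card_eq_sum_card_fiberwise (f := own) (s := XU) (t := V)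
        fun q hq => (h.ed q (mem_range.1 (mem_filter.1 hq).1)).1]
    refine sum_le_sum fun w hw => ?_
    by_cases c : m w = w
    · refine (card_eq_zero.2 (filter_eq_empty_iff.2 fun q hq k => ?_)).trans_le (Nat.zero_le _)
      exact (mem_filter.1 hq).2.2.1 (k ▸ c)
    · obtain ⟨p, hp, x, y, z⟩ := b.ext w hw c
      have := h.p2 hm w
      have a : (B.filter fun q => own q = w) ⊆
          ((range D).filter fun q => own q = w ∧ m' (2 * q) = 2 * rev q).erase p := by
        intro q hq
        simp only [B, mem_filter, mem_erase] at hq ⊢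
        exact ⟨fun k => hq.1.2.2.2 (by rw [k, y, z]), hq.1.1, hq.2, hq.1.2.1⟩
      have a := card_le_card a
      rw [card_erase_of_mem (mem_filter.2 ⟨mem_range.2 hp, y, x⟩)] at a
      have e : (XU.filter fun q => own q = w) =
          (range D).filter fun q => own q = w ∧ Lnk D own q ∧ m' (2 * q + 1) = 2 * q + 1 := by
        ext q; simp only [XU, mem_filter]; tauto
      rw [e]; omega
  have s3 : XA.card + (XU ∪ (range D).filter fun p => ¬Lnk D own p).card ≤
      ex (range (2 * D)) m' := by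
    rw [← card_image_of_injective XA (f := fun q => 2 * q) fun _ _ e => by simpa using e,
      ← card_image_of_injective (XU ∪ _) (f := fun q => 2 * q + 1) fun _ _ e => by simpa using e,
      ← card_union_of_disjoint]
    · refine card_le_card fun a ha => mem_exs.2 ?_
      simp only [XA, XU, mem_union, mem_image, mem_filter, mem_range] at ha ⊢
      rcases ha with ⟨q, x, rfl⟩ | ⟨q, x | x, rfl⟩
      · exact ⟨by omega, x.2⟩
      · exact ⟨by omega, x.2.2⟩
      · exact ⟨by omega, by_contra fun c =>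
          x.2 (e3_odd (hm.adj (mem_range.2 (by omega)) c)).1⟩
    · refine disjoint_left.2 fun a x y => ?_
      obtain ⟨_, -, x⟩ := mem_image.1 x
      obtain ⟨_, -, y⟩ := mem_image.1 y
      omega
  rw [card_union_of_disjoint (s := XU) (disjoint_filter.2 fun q _ x y => y x.1)] at s3
  have := (card_le_card s1).trans ((card_union_le _ _).trans
    (add_le_add card_image_le card_image_le))
  omega

theorem Gd.ex_eq (h : Gd V E D own rev) (hm : IsM V E m) :
    ex V m = (exs V m ∩ (range D).image own).card + (V \ (range D).image own).card := by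
  rw [ex, ← card_inter_add_card_sdiff _ ((range D).image own)]
  congr 2
  ext v
  simp only [mem_sdiff, mem_exs]
  refine ⟨fun k => ⟨k.1.1, k.2⟩, fun k => ⟨⟨k.1, by_contra fun c => k.2 ?_⟩, k.2⟩⟩
  obtain ⟨p, hp, x, -⟩ := h.sur v k.1 _ (hm.mem k.1) (hm.adj k.1 c)
  exact mem_image.2 ⟨p, mem_range.2 hp, x⟩

/-- **the reduction keeps the gap** -/
theorem Gd.gap (h : Gd V E D own rev) (hm : IsM (range (2 * D)) (E3 D own rev) m')
    (b : Bk V E D own rev m' m []) {j : ℕ} (hj : ∀ m'', IsM (range (2 * D)) (E3 D own rev) m'' →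
      ex (range (2 * D)) m' ≤ ex (range (2 * D)) m'' + j) (m₀ : ℕ → ℕ) (h₀ : IsM V E m₀) :
    ex V m ≤ ex V m₀ + j := by
  obtain ⟨m'', x, y⟩ := h.fwd h₀
  have := hj m'' x
  have := h.bwd hm b
  rw [h.ex_eq b.isM, h.ex_eq h₀]
  omega

end back

end Crest.Agent.N325.Mt
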