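import Crest.Agent.N325.Mt.Defs

/-!
# Row 325, Mt (helper90): perfectly matchable and factor-critical sets, ears, contraction
-/

set_option autoImplicit false
open Finset

namespace Crest.Agent.N325.Mt

variable {S T : Finset ℕ} {E : ℕ → ℕ → Prop} {m : ℕ → ℕ}

/-- `m` is a perfect matching of `S` -/
def IsP (S : Finset ℕ) (E : ℕ → ℕ → Prop) (m : ℕ → ℕ) : Prop := IsM S E m ∧ ∀ u ∈ S, m u ≠ u

/-- perfectly matchable -/
def PM (S : Finset ℕ) (E : ℕ → ℕ → Prop) : Prop := ∃ m, IsP S E m

/-- factor-critical -/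
def FC (S : Finset ℕ) (E : ℕ → ℕ → Prop) : Prop := ∀ v ∈ S, PM (S.erase v) E

theorem IsP.ex (h : IsP S E m) : ex S m = 0 :=
  card_eq_zero.2 (filter_eq_empty_iff.2 h.2)

theorem isP_of_ex (h : IsM S E m) (k : Mt.ex S m = 0) : IsP S E m :=
  ⟨h, filter_eq_empty_iff.1 (card_eq_zero.1 k)⟩

theorem IsP.adj (h : IsP S E m) {u : ℕ} (hu : u ∈ S) : E u (m u) := h.1.adj hu (h.2 u hu)

theorem IsP.sub (h : IsP S E m) (s : T ⊆ S) (c : ∀ v ∈ T, m v ∈ T) : IsP T E m :=
  ⟨h.1.sub s c, fun u hu => h.2 u (s hu)⟩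

theorem IsP.congr {m' : ℕ → ℕ} (h : IsP S E m) (k : ∀ v ∈ S, m' v = m v) : IsP S E m' :=
  ⟨h.1.congr k, fun u hu => k u hu ▸ h.2 u hu⟩

theorem IsP.mono {E' : ℕ → ℕ → Prop} (h : IsP S E m) (k : ∀ a ∈ S, ∀ b ∈ S, E a b → E' a b) :
    IsP S E' m := ⟨h.1.mono k, h.2⟩

theorem IsP.union (h : IsP S E m) (h' : IsP T E m) : IsP (S ∪ T) E m :=
  ⟨fun v hv => (mem_union.1 hv).elim
      (fun k => ⟨mem_union_left _ (h.1.mem k), h.1.inv k, h.1.adj k⟩)
      fun k => ⟨mem_union_right _ (h'.1.mem k), h'.1.inv k, h'.1.adj k⟩,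
    fun u hu => (mem_union.1 hu).elim (h.2 u) (h'.2 u)⟩

theorem PM.empty : PM ∅ E := ⟨id, isM_id, fun _ h => absurd h (notMem_empty _)⟩

theorem PM.mono {E' : ℕ → ℕ → Prop} (h : PM S E) (k : ∀ a ∈ S, ∀ b ∈ S, E a b → E' a b) :
    PM S E' := let ⟨m, h⟩ := h; ⟨m, h.mono k⟩

theorem PM.union (h : PM S E) (h' : PM T E) (d : Disjoint S T) : PM (S ∪ T) E := by
  obtain ⟨m, h⟩ := h
  obtain ⟨m', h'⟩ := h'
  exact ⟨fun v => if v ∈ S then m v else m' v, (h.congr fun v k => if_pos k).union
    (h'.congr fun v k => if_neg (disjoint_right.1 d k))⟩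

theorem PM.pair (hE : ∀ a b, E a b → E b a) {x y : ℕ} (e : E x y) (ne : x ≠ y) :
    PM {x, y} E := by
  refine ⟨fun v => if v = x then y else x, fun v hv => ?_, fun v hv => ?_⟩ <;>
    rcases mem_insert.1 hv with rfl | hv
  · simp [ne.symm, e]
  · obtain rfl := mem_singleton.1 hv
    simp [ne.symm, hE _ _ e]
  · simp [ne.symm]
  · obtain rfl := mem_singleton.1 hv
    simp [ne.symm, ne]

theorem PM.biUnion {ι : Type} [DecidableEq ι] {I : Finset ι} {f : ι → Finset ℕ}
    (h : ∀ i ∈ I, PM (f i) E) (d : ∀ i ∈ I, ∀ j ∈ I, i ≠ j → Disjoint (f i) (f j)) :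
    PM (I.biUnion f) E := by
  induction I using Finset.induction_on with
  | empty => exact PM.empty
  | insert i I hi ih =>
    rw [biUnion_insert]
    refine (h i (mem_insert_self _ _)).union (ih (fun j k => h j (mem_insert_of_mem k))
      fun j k j' k' => d j (mem_insert_of_mem k) j' (mem_insert_of_mem k')) ?_
    exact (disjoint_biUnion_right _ _ _).2 fun j k => d i (mem_insert_self _ _) j
      (mem_insert_of_mem k) fun e => hi (e ▸ k)

theorem FC.single (v : ℕ) : FC {v} E := fun u hu => by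
  rw [mem_singleton.1 hu, erase_singleton]; exact PM.empty

theorem FC.mono {E' : ℕ → ℕ → Prop} (h : FC S E) (k : ∀ a ∈ S, ∀ b ∈ S, E a b → E' a b) :
    FC S E' := fun v hv => (h v hv).mono fun a ha b hb =>
      k a (mem_of_mem_erase ha) b (mem_of_mem_erase hb)

/-- two adjacent factor-critical sets have a perfect matching together -/
theorem FC.pm (hE : ∀ a b, E a b → E b a) (h : FC S E) (h' : FC T E) (d : Disjoint S T) {x y : ℕ}
    (hx : x ∈ S) (hy : y ∈ T) (e : E x y) : PM (S ∪ T) E := by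
  have ne : x ≠ y := fun k => disjoint_left.1 d hx (k ▸ hy)
  have := ((h x hx).union (h' y hy) (d.mono (erase_subset _ _) (erase_subset _ _))).union
    (PM.pair hE e ne) (disjoint_right.2 fun v hv => by
      rcases mem_insert.1 hv with rfl | hv
      · simp [disjoint_left.1 d hx]
      · obtain rfl := mem_singleton.1 hv
        simp [disjoint_right.1 d hy])
  convert this using 1
  ext v
  simp only [mem_union, mem_erase, mem_insert, mem_singleton]
  constructor
  · rintro (k | k)
    · by_cases c : v = x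
      · exact .inr (.inl c)
      · exact .inl (.inl ⟨c, k⟩)
    · by_cases c : v = y
      · exact .inr (.inr c)
      · exact .inl (.inr ⟨c, k⟩)
  · rintro ((k | k) | rfl | rfl)
    exacts [.inl k.2, .inr k.2, .inl hx, .inr hy]

/-- the contracted graph -/
def Ctr (U : Finset ℕ) (E : ℕ → ℕ → Prop) (cls : ℕ → ℕ) (c c' : ℕ) : Prop :=
  ∃ x ∈ U, ∃ y ∈ U, cls x = c ∧ cls y = c' ∧ E x y

variable {U C : Finset ℕ} {cls : ℕ → ℕ}

theorem Ctr.symm (hE : ∀ a b, E a b → E b a) (c c' : ℕ) (h : Ctr U E cls c c') :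
    Ctr U E cls c' c := let ⟨x, hx, y, hy, a, b, e⟩ := h; ⟨y, hy, x, hx, b, a, hE _ _ e⟩

/-- a perfect matching of the contracted graph lifts -/
theorem PM.lift (hE : ∀ a b, E a b → E b a) (h : PM C (Ctr U E cls))
    (f : ∀ c ∈ C, FC (U.filter fun x => cls x = c) E) : PM (U.filter fun x => cls x ∈ C) E := by
  obtain ⟨μ, h⟩ := h
  have := PM.biUnion (E := E) (I := C.filter fun c => c < μ c)
    (f := fun c => (U.filter fun x => cls x = c) ∪ U.filter fun x => cls x = μ c) (fun c hc => by
      obtain ⟨hc, lt⟩ := mem_filter.1 hc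
      obtain ⟨x, hx, y, hy, a, b, e⟩ := h.adj hc
      exact (f c hc).pm hE (f _ (h.1.mem hc)) (disjoint_filter.2 fun z _ k k' => by omega)
        (mem_filter.2 ⟨hx, a⟩) (mem_filter.2 ⟨hy, b⟩) e) (fun c hc c' hc' ne => by
      obtain ⟨hc, lt⟩ := mem_filter.1 hc
      obtain ⟨hc', lt'⟩ := mem_filter.1 hc'
      have i := h.1.inv hc
      have i' := h.1.inv hc'
      refine disjoint_left.2 fun z k k' => ?_
      simp only [mem_union, mem_filter] at k k'
      rcases k with k | k <;> rcases k' with k' | k'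
      · exact ne (k.2.symm.trans k'.2)
      · have e : c = μ c' := k.2.symm.trans k'.2
        rw [e, i'] at lt; omega
      · have e : c' = μ c := k'.2.symm.trans k.2
        rw [e, i] at lt'; omega
      · exact ne (by rw [← i, ← i', ← k.2, ← k'.2]))
  convert this using 1
  ext z
  simp only [mem_filter, mem_biUnion, mem_union]
  constructor
  · rintro ⟨hz, k⟩
    rcases lt_or_gt_of_ne (h.2 _ k) with lt | lt
    · exact ⟨μ (cls z), ⟨h.1.mem k, by rwa [h.1.inv k]⟩, .inr ⟨hz, (h.1.inv k).symm⟩⟩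
    · exact ⟨cls z, ⟨k, lt⟩, .inl ⟨hz, rfl⟩⟩
  · rintro ⟨c, ⟨hc, -⟩, k | k⟩
    · exact ⟨k.1, k.2 ▸ hc⟩
    · exact ⟨k.1, k.2 ▸ h.1.mem hc⟩

/-- **a factor-critical set of factor-critical classes is factor-critical** -/
theorem FC.lift (hE : ∀ a b, E a b → E b a) (h : FC C (Ctr U E cls))
    (f : ∀ c ∈ C, FC (U.filter fun x => cls x = c) E) : FC (U.filter fun x => cls x ∈ C) E := by
  intro v hv
  obtain ⟨hv, hc⟩ := mem_filter.1 hv
  have := ((h _ hc).lift hE fun c k => f c (mem_of_mem_erase k)).union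
    (f _ hc v (mem_filter.2 ⟨hv, rfl⟩)) (disjoint_left.2 fun z k k' => by
      simp only [mem_filter, mem_erase] at k k'
      exact k.2.1 k'.2.2)
  convert this using 1
  ext z
  simp only [mem_filter, mem_union, mem_erase]
  constructor
  · rintro ⟨ne, hz, k⟩
    by_cases c : cls z = cls v
    · exact .inr ⟨ne, hz, c⟩
    · exact .inl ⟨hz, c, k⟩
  · rintro (⟨hz, c, k⟩ | ⟨ne, hz, c⟩)
    · exact ⟨fun e => c (e ▸ rfl), hz, k⟩
    · exact ⟨ne, hz, c ▸ hc⟩

/-- `Ear E z P y`: the path `z, a₁, b₁, …, a_k, b_k, y` for `P = [(a₁,b₁),…]` -/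
inductive Ear (E : ℕ → ℕ → Prop) : ℕ → List (ℕ × ℕ) → ℕ → Prop
  | nil {z y : ℕ} : E z y → Ear E z [] y
  | cons {z y a b : ℕ} {P : List (ℕ × ℕ)} : E z a → E a b → Ear E b P y → Ear E z ((a, b) :: P) y

theorem pm_vs (hE : ∀ a b, E a b → E b a) {P : List (ℕ × ℕ)} (nd : (vs P).Nodup)
    (e : ∀ x ∈ P, E x.1 x.2) : PM (vs P).toFinset E := by
  induction P with
  | nil => exact PM.empty
  | cons x P ih =>
    simp only [vs_cons, List.nodup_cons, List.mem_cons, not_or] at nd
    have := (PM.pair hE (e x List.mem_cons_self) nd.1.1).union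
      (ih nd.2.2 fun y k => e y (List.mem_cons_of_mem _ k)) (disjoint_left.2 fun v hv => by
        rcases mem_insert.1 hv with rfl | hv
        · simpa using nd.1.2
        · obtain rfl := mem_singleton.1 hv
          simpa using nd.2.1)
    convert this using 1
    ext v; simp

theorem Ear.ed {z y : ℕ} {P : List (ℕ × ℕ)} (h : Ear E z P y) : ∀ x ∈ P, E x.1 x.2 := by
  induction h with
  | nil => simp
  | cons _ e _ ih => simpa using ⟨e, by simpa using ih⟩

/-- the path without its last vertex, and without its first vertex and one inner vertex -/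
theorem Ear.pm (hE : ∀ a b, E a b → E b a) {z y : ℕ} {P : List (ℕ × ℕ)} (h : Ear E z P y)
    (nd : (vs P).Nodup) (hz : z ∉ vs P) (hy : y ∉ vs P) : (z ≠ y → PM (insert z (insert y (vs P).toFinset)) E) ∧
      ∀ v ∈ vs P, PM (insert z ((vs P).toFinset.erase v)) E ∨
        PM (insert y ((vs P).toFinset.erase v)) E := by
  induction h with
  | nil e => exact ⟨fun ne => by simpa using PM.pair hE e ne, by simp⟩
  | @cons z y a b P e1 e2 h ih =>
    simp only [vs_cons, List.nodup_cons, List.mem_cons, not_or] at nd hz hy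
    obtain ⟨i1, i2⟩ := ih nd.2.2 nd.2.1 hy.2.2
    have i1 := i1 (Ne.symm hy.2.1)
    have za := PM.pair hE e1 hz.1
    have ab := PM.pair hE e2 nd.1.1
    refine ⟨fun ne => ?_, fun v hv => ?_⟩
    · convert za.union i1 (disjoint_left.2 fun v hv => by
        rcases mem_insert.1 hv with rfl | hv
        · simp [hz.2.1, hz.2.2, ne]
        · obtain rfl := mem_singleton.1 hv
          simp [nd.1.1, nd.1.2, Ne.symm hy.1]) using 1
      ext v; simp only [vs_cons, List.toFinset_cons, mem_insert, mem_union, mem_singleton]; tauto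
    simp only [vs_cons, List.mem_cons] at hv
    rcases hv with rfl | rfl | hv
    · right
      convert i1 using 1
      ext u
      simp only [vs_cons, List.toFinset_cons, mem_insert, mem_erase, List.mem_toFinset]
      constructor
      · rintro (k | ⟨k, k' | k' | k'⟩)
        exacts [.inr (.inl k), absurd k' k, .inl k', .inr (.inr k')]
      · rintro (rfl | k | k)
        exacts [.inr ⟨Ne.symm nd.1.1, .inr (.inl rfl)⟩, .inl k,
          .inr ⟨fun c => nd.1.2 (c ▸ k), .inr (.inr k)⟩]
    · left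
      convert za.union (pm_vs hE nd.2.2 h.ed) (disjoint_left.2 fun v hv => by
        rcases mem_insert.1 hv with rfl | hv
        · simpa using hz.2.2
        · obtain rfl := mem_singleton.1 hv
          simpa using nd.1.2) using 1
      ext u
      simp only [vs_cons, List.toFinset_cons, mem_insert, mem_erase, List.mem_toFinset, mem_union,
        mem_singleton]
      constructor
      · rintro (k | ⟨k, k' | k' | k'⟩)
        exacts [.inl (.inl k), .inl (.inr k'), absurd k' k, .inr k']
      · rintro ((k | rfl) | k)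
        exacts [.inl k, .inr ⟨nd.1.1, .inl rfl⟩, .inr ⟨fun c => nd.2.1 (c ▸ k), .inr (.inr k)⟩]
    · have va : v ≠ a := fun c => nd.1.2 (c ▸ hv)
      have vb : v ≠ b := fun c => nd.2.1 (c ▸ hv)
      rcases i2 v hv with k | k
      · left
        convert za.union k (disjoint_left.2 fun u hu => by
          rcases mem_insert.1 hu with rfl | hu
          · simp [hz.2.1, hz.2.2]
          · obtain rfl := mem_singleton.1 hu
            simp [nd.1.1, nd.1.2]) using 1
        ext u
        simp only [vs_cons, List.toFinset_cons, mem_insert, mem_erase, List.mem_toFinset,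
          mem_union, mem_singleton]
        constructor
        · rintro (c | ⟨c, c' | c' | c'⟩)
          exacts [.inl (.inl c), .inl (.inr c'), .inr (.inl c'), .inr (.inr ⟨c, c'⟩)]
        · rintro ((c | rfl) | rfl | c)
          exacts [.inl c, .inr ⟨va.symm, .inl rfl⟩, .inr ⟨vb.symm, .inr (.inl rfl)⟩,
            .inr ⟨c.1, .inr (.inr c.2)⟩]
      · right
        convert ab.union k (disjoint_left.2 fun u hu => by
          rcases mem_insert.1 hu with rfl | hu
          · simp [Ne.symm hy.1, nd.1.2]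
          · obtain rfl := mem_singleton.1 hu
            simp [Ne.symm hy.2.1, nd.2.1]) using 1
        ext u
        simp only [vs_cons, List.toFinset_cons, mem_insert, mem_erase, List.mem_toFinset,
          mem_union, mem_singleton]
        constructor
        · rintro (c | ⟨c, c' | c' | c'⟩)
          exacts [.inr (.inl c), .inl (.inl c'), .inl (.inr c'), .inr (.inr ⟨c, c'⟩)]
        · rintro ((rfl | rfl) | c | c)
          exacts [.inr ⟨va.symm, .inl rfl⟩, .inr ⟨vb.symm, .inr (.inl rfl)⟩, .inl c,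
            .inr ⟨c.1, .inr (.inr c.2)⟩]

/-- **adding an odd ear** (open or closed) -/
theorem FC.ear (hE : ∀ a b, E a b → E b a) (h : FC S E) {z y : ℕ} {P : List (ℕ × ℕ)} (hz : z ∈ S)
    (hy : y ∈ S) (e : Ear E z P y) (nd : (vs P).Nodup) (d : ∀ v ∈ vs P, v ∉ S) :
    FC (S ∪ (vs P).toFinset) E := by
  have dj : Disjoint S (vs P).toFinset := disjoint_right.2 fun v k => d v (List.mem_toFinset.1 k)
  have key : ∀ x ∈ S, ∀ v ∈ vs P, PM (insert x ((vs P).toFinset.erase v)) E →
      PM ((S ∪ (vs P).toFinset).erase v) E := fun x hx v hv k => by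
    convert (h x hx).union k (disjoint_left.2 fun u hu => by
      simp only [mem_erase, mem_insert, List.mem_toFinset] at hu ⊢
      rintro (c | c)
      exacts [hu.1 c, d u c.2 hu.2]) using 1
    ext u
    simp only [mem_erase, mem_union, mem_insert, List.mem_toFinset]
    constructor
    · rintro ⟨c, c' | c'⟩
      · by_cases ux : u = x
        exacts [.inr (.inl ux), .inl ⟨ux, c'⟩]
      · exact .inr (.inr ⟨c, c'⟩)
    · rintro (c | rfl | c)
      exacts [⟨fun k => d v hv (k ▸ c.2), .inl c.2⟩, ⟨fun k => d v hv (k ▸ hx), .inl hx⟩,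
        ⟨c.1, .inr c.2⟩]
  intro v hv
  rcases mem_union.1 hv with hv | hv
  · convert (h v hv).union (pm_vs hE nd e.ed) (dj.mono_left (erase_subset _ _)) using 1
    ext u
    simp only [mem_erase, mem_union, List.mem_toFinset]
    exact ⟨fun k => k.2.elim (fun c => .inl ⟨k.1, c⟩) .inr, fun k => k.elim
      (fun c => ⟨c.1, .inl c.2⟩) fun c => ⟨fun q => d u c (q ▸ hv), .inr c⟩⟩
  · have hv := List.mem_toFinset.1 hv
    exact ((e.pm hE nd (fun k => d z k hz) fun k => d y k hy).2 v hv).elim (key z hz v hv)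
      (key y hy v hv)

end Crest.Agent.N325.Mt
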