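import Crest.Agent.N325.Mt.Fc

/-!
# Row 325, Mt (helper90): a strongly connected alternating region around a blossom is a blossom
-/

set_option autoImplicit false
open Finset

namespace Crest.Agent.N325.Mt

variable {S T : Finset ℕ} {E : ℕ → ℕ → Prop} {μ : ℕ → ℕ} {O : ℕ → Prop}

/-- from an outer vertex outside `S` back to `S` -/
theorem exists_ear {d : ℕ → ℕ} (hμ : IsP (T \ S) E μ) (hO : ∀ a ∈ T \ S, O a ↔ ¬O (μ a))
    (h2 : ∀ x ∈ T \ S, O x → ∃ a, E x a ∧ (a ∈ S ∨ (a ∈ T \ S ∧ ¬O a ∧ d (μ a) < d x)))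
    {x : ℕ} (hx : x ∈ T \ S) (ox : O x) : ∃ P y, y ∈ S ∧ Ear E x P y ∧ (vs P).Nodup ∧
      ∀ e ∈ P, e.1 ∈ T \ S ∧ ¬O e.1 ∧ e.2 = μ e.1 ∧ d e.2 < d x := by
  induction hk : d x using Nat.strong_induction_on generalizing x with
  | _ k ih =>
  subst hk
  obtain ⟨a, e, ha | ⟨ha, oa, lt⟩⟩ := h2 x hx ox
  · exact ⟨[], a, ha, .nil e, List.nodup_nil, by simp⟩
  · have ob : O (μ a) := not_not.1 fun c => oa ((hO a ha).2 c)
    obtain ⟨P, y, hy, ear, nd, k⟩ := ih _ lt (hμ.1.mem ha) ob rfl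
    refine ⟨(a, μ a) :: P, y, hy, .cons e (hμ.adj ha) ear, ?_, fun f hf => ?_⟩
    · simp only [vs_cons, List.nodup_cons, List.mem_cons, not_or]
      refine ⟨⟨(hμ.2 a ha).symm, fun c => ?_⟩, fun c => ?_, nd⟩
      · obtain ⟨f, hf, c | c⟩ := mem_vs.1 c
        · have := (k f hf).2.2
          rw [← c] at this
          rw [this.1] at this
          exact lt_irrefl _ this.2
        · obtain ⟨k1, k2, k3, -⟩ := k f hf
          exact oa (by rw [c, k3]; exact not_not.1 fun q => k2 ((hO _ k1).2 q))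
      · obtain ⟨f, hf, c | c⟩ := mem_vs.1 c
        · exact (k f hf).2.1 (c ▸ ob)
        · exact lt_irrefl _ (c ▸ (k f hf).2.2.2)
    · rcases List.mem_cons.1 hf with rfl | hf
      · exact ⟨ha, oa, rfl, lt⟩
      · obtain ⟨k1, k2, k3, k4⟩ := k f hf
        exact ⟨k1, k2, k3, k4.trans lt⟩

/-- `S` is factor-critical, `μ` matches `T \ S` perfectly, inner with outer vertices; every outer
vertex is reached from `S` (rank `d₁`) and reaches `S` (rank `d₂`) along alternating arcs -/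
theorem FC.of_rank (hE : ∀ a b, E a b → E b a) {d₁ d₂ : ℕ → ℕ} (h : FC S E) (s : S ⊆ T)
    (hμ : IsP (T \ S) E μ) (hO : ∀ a ∈ T \ S, O a ↔ ¬O (μ a))
    (h1 : ∀ x ∈ T \ S, O x → ∃ z, E z (μ x) ∧ (z ∈ S ∨ (z ∈ T \ S ∧ O z ∧ d₁ z < d₁ x)))
    (h2 : ∀ x ∈ T \ S, O x → ∃ a, E x a ∧ (a ∈ S ∨ (a ∈ T \ S ∧ ¬O a ∧ d₂ (μ a) < d₂ x))) :
    FC T E := by
  classical
  induction hk : #(T \ S) using Nat.strong_induction_on generalizing S with
  | _ k ih =>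
  subst hk
  rcases (T \ S).eq_empty_or_nonempty with e | ⟨v, hv⟩
  · rwa [Subset.antisymm (sdiff_eq_empty_iff_subset.1 e) s]
  have ne : ((T \ S).filter O).Nonempty := by
    by_cases ov : O v
    · exact ⟨v, mem_filter.2 ⟨hv, ov⟩⟩
    · exact ⟨μ v, mem_filter.2 ⟨hμ.1.mem hv, not_not.1 fun c => ov ((hO v hv).2 c)⟩⟩
  obtain ⟨x, hx, mn⟩ := exists_min_image _ d₁ ne
  obtain ⟨hx, ox⟩ := mem_filter.1 hx
  obtain ⟨z, ez, hz⟩ := h1 x hx ox
  have hz : z ∈ S := hz.resolve_right fun c => (mn z (mem_filter.2 ⟨c.1, c.2.1⟩)).not_gt c.2.2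
  obtain ⟨P, y, hy, ear, nd, k⟩ := exists_ear hμ hO h2 hx ox
  have hm := hμ.1.mem hx
  have om : ¬O (μ x) := (hO x hx).1 ox
  have q : ∀ e ∈ (μ x, x) :: P, e.1 ∈ T \ S ∧ e.2 = μ e.1 := fun e he => by
    rcases List.mem_cons.1 he with rfl | he
    · exact ⟨hm, (hμ.1.inv hx).symm⟩
    · exact ⟨(k e he).1, (k e he).2.2.1⟩
  have q1 : ∀ w ∈ vs ((μ x, x) :: P), w ∈ T \ S ∧ μ w ∈ vs ((μ x, x) :: P) := fun w hw => by
    obtain ⟨e, he, c | c⟩ := mem_vs.1 hw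
    · exact ⟨c ▸ (q e he).1, mem_vs.2 ⟨e, he, .inr (by rw [c, (q e he).2])⟩⟩
    · exact ⟨by rw [c, (q e he).2]; exact hμ.1.mem (q e he).1,
        mem_vs.2 ⟨e, he, .inl (by rw [c, (q e he).2, hμ.1.inv (q e he).1])⟩⟩
  have nd' : (vs ((μ x, x) :: P)).Nodup := by
    simp only [vs_cons, List.nodup_cons, List.mem_cons, not_or]
    refine ⟨⟨hμ.2 x hx, fun c => ?_⟩, fun c => ?_, nd⟩
    · obtain ⟨f, hf, c | c⟩ := mem_vs.1 c
      · have := (k f hf).2.2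
        rw [← c, hμ.1.inv hx] at this
        exact lt_irrefl _ (this.1 ▸ this.2)
      · obtain ⟨k1, k2, k3, -⟩ := k f hf
        exact om (by rw [c, k3]; exact not_not.1 fun q => k2 ((hO _ k1).2 q))
    · obtain ⟨f, hf, c | c⟩ := mem_vs.1 c
      · exact (k f hf).2.1 (c ▸ ox)
      · exact lt_irrefl _ (c ▸ (k f hf).2.2.2)
  have f' := h.ear hE hz hy (.cons ez (hE _ _ (hμ.adj hx)) ear) nd'
    fun w hw => (mem_sdiff.1 (q1 w hw).1).2
  generalize hU : (vs ((μ x, x) :: P)).toFinset = U at f'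
  have u1 : ∀ w, w ∈ U ↔ w ∈ vs ((μ x, x) :: P) := fun w => by rw [← hU, List.mem_toFinset]
  have sb : T \ (S ∪ U) ⊆ T \ S := sdiff_subset_sdiff Subset.rfl subset_union_left
  have up : ∀ w ∈ T \ S, w ∈ S ∪ U ∨ w ∈ T \ (S ∪ U) := fun w hw =>
    (em _).imp_right fun c => mem_sdiff.2 ⟨(mem_sdiff.1 hw).1, c⟩
  refine ih _ (card_lt_card ⟨sb, fun c => ?_⟩) f' (union_subset s fun w hw =>
    (mem_sdiff.1 (q1 w ((u1 w).1 hw)).1).1) (hμ.sub sb fun w hw => ?_) (fun a ha => hO a (sb ha))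
    (fun w hw ow => ?_) (fun w hw ow => ?_) rfl
  · exact (mem_sdiff.1 (c hx)).2 (mem_union_right _ ((u1 x).2 (by simp)))
  · refine (up _ (hμ.1.mem (sb hw))).resolve_left fun c => ?_
    rcases mem_union.1 c with c | c
    · exact (mem_sdiff.1 (hμ.1.mem (sb hw))).2 c
    · have := (q1 _ ((u1 _).1 c)).2
      rw [hμ.1.inv (sb hw)] at this
      exact (mem_sdiff.1 hw).2 (mem_union_right _ ((u1 _).2 this))
  · obtain ⟨a, e, c | c⟩ := h1 w (sb hw) ow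
    · exact ⟨a, e, .inl (mem_union_left _ c)⟩
    · exact ⟨a, e, (up a c.1).imp_right fun c' => ⟨c', c.2⟩⟩
  · obtain ⟨a, e, c | c⟩ := h2 w (sb hw) ow
    · exact ⟨a, e, .inl (mem_union_left _ c)⟩
    · exact ⟨a, e, (up a c.1).imp_right fun c' => ⟨c', c.2⟩⟩

theorem exists_rank {r : ℕ → ℕ → Prop} {A : ℕ → Prop} :
    ∃ d : ℕ → ℕ, ∀ x, ¬A x → (∃ y, A y ∧ Relation.ReflTransGen r x y) →
      ∃ x', r x x' ∧ (A x' ∨ (d x' < d x ∧ ∃ y, A y ∧ Relation.ReflTransGen r x' y)) := by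
  classical
  let L : ℕ → ℕ → Prop := fun n => Nat.rec A (fun _ p x => ∃ x', r x x' ∧ p x') n
  have l1 : ∀ n x, L n x → ∃ y, A y ∧ Relation.ReflTransGen r x y := fun n => by
    induction n with
    | zero => exact fun x h => ⟨x, h, .refl⟩
    | succ n ih => exact fun x ⟨x', a, b⟩ => let ⟨y, c, e⟩ := ih x' b; ⟨y, c, .head a e⟩
  have l2 : ∀ x y, A y → Relation.ReflTransGen r x y → ∃ n, L n x := fun x y a h => by
    induction h using Relation.ReflTransGen.head_induction_on with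
    | refl => exact ⟨0, a⟩
    | head e _ ih => exact let ⟨n, k⟩ := ih; ⟨n + 1, _, e, k⟩
  refine ⟨fun x => sInf {n | L n x}, fun x na ⟨y, a, h⟩ => ?_⟩
  have sp : L (sInf {n | L n x}) x := Nat.sInf_mem (s := {n | L n x}) (l2 x y a h)
  rcases e : sInf {n | L n x} with _ | n
  · rw [e] at sp; exact absurd sp na
  · rw [e] at sp
    obtain ⟨x', a', b⟩ := sp
    refine ⟨x', a', .inr ⟨?_, l1 n x' b⟩⟩
    simp only [e]
    exact Nat.lt_succ_of_le (Nat.sInf_le (s := {n | L n x'}) b)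

/-- the same with reachability along a relation `r` between outer vertices (`r x x'` = a free edge
from `x` to the inner mate of `x'`) -/
theorem FC.of_reach (hE : ∀ a b, E a b → E b a) {r : ℕ → ℕ → Prop} (h : FC S E) (s : S ⊆ T)
    (hμ : IsP (T \ S) E μ) (hO : ∀ a ∈ T \ S, O a ↔ ¬O (μ a))
    (hr : ∀ x x', r x x' → x ∈ T ∧ x' ∈ T ∧ O x ∧ O x' ∧ E x (μ x') ∧ (x' ∈ S → μ x' ∈ S))
    (h1 : ∀ x ∈ T \ S, O x → ∃ z ∈ S, Relation.ReflTransGen r z x)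
    (h2 : ∀ x ∈ T \ S, O x → ∃ y ∈ S, Relation.ReflTransGen r x y) : FC T E := by
  obtain ⟨d₁, k1⟩ := exists_rank (r := fun a b => r b a) (A := fun x => x ∈ S)
  obtain ⟨d₂, k2⟩ := exists_rank (r := r) (A := fun x => x ∈ S)
  refine h.of_rank hE (d₁ := d₁) (d₂ := d₂) s hμ hO (fun x hx ox => ?_) fun x hx ox => ?_
  · obtain ⟨z, hz, p⟩ := h1 x hx ox
    obtain ⟨x', a, b⟩ := k1 x (mem_sdiff.1 hx).2 ⟨z, hz, Relation.reflTransGen_swap.2 p⟩
    obtain ⟨r1, -, r3, -, r5, -⟩ := hr x' x a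
    refine ⟨x', r5, (em (x' ∈ S)).imp_right fun c => ⟨mem_sdiff.2 ⟨r1, c⟩, r3, ?_⟩⟩
    exact (b.resolve_left c).1
  · obtain ⟨x', a, b⟩ := k2 x (mem_sdiff.1 hx).2 (h2 x hx ox)
    obtain ⟨-, r2, -, r4, r5, r6⟩ := hr x x' a
    by_cases c : x' ∈ S
    · exact ⟨μ x', r5, .inl (r6 c)⟩
    · have hx' := mem_sdiff.2 ⟨r2, c⟩
      refine ⟨μ x', r5, .inr ⟨hμ.1.mem hx', (hO x' hx').1 r4, ?_⟩⟩
      rw [hμ.1.inv hx']
      exact (b.resolve_left c).1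

end Crest.Agent.N325.Mt
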