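import Crest.Agent.N325.Mt.Fc3

/-!
# Row 325, M6 (helper90): a minimal tight set with an edge is factor-critical (Hall twice)
-/

set_option autoImplicit false
open Finset

namespace Crest.Agent.N325.Mt

variable {E : ℕ → ℕ → Prop} {A C : Finset ℕ} {K H : ℕ → Finset ℕ}

theorem exists_hall (h : ∀ B ⊆ A, #B ≤ #(B.biUnion H)) :
    ∃ f : ℕ → ℕ, Set.InjOn f A ∧ ∀ a ∈ A, f a ∈ H a := by
  obtain ⟨f, i, k⟩ := (all_card_le_biUnion_card_iff_exists_injective fun a : A => H a).1
    fun s => by
      have := h (s.image Subtype.val) fun x hx => by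
        obtain ⟨y, -, rfl⟩ := mem_image.1 hx; exact y.2
      rwa [card_image_of_injective _ Subtype.val_injective, image_biUnion] at this
  refine ⟨fun a => if q : a ∈ A then f ⟨a, q⟩ else 0, fun a ha b hb e => ?_, fun a ha => ?_⟩
  · simp only [dif_pos (mem_coe.1 ha), dif_pos (mem_coe.1 hb)] at e
    exact congrArg Subtype.val (i e)
  · simp only [dif_pos ha]; exact k ⟨a, ha⟩

/-- factor-critical classes `K c`, single vertices `A`, adjacency `H` backed by real edges -/
structure Bip (E : ℕ → ℕ → Prop) (A C : Finset ℕ) (K H : ℕ → Finset ℕ) : Prop where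
  fc : ∀ c ∈ C, FC (K c) E
  dj : ∀ c ∈ C, ∀ c' ∈ C, c ≠ c' → Disjoint (K c) (K c')
  out : ∀ a ∈ A, ∀ c ∈ C, a ∉ K c
  ed : ∀ a ∈ A, ∀ c ∈ C, c ∈ H a → ∃ x ∈ K c, E a x

theorem Bip.sub {A' C' : Finset ℕ} (b : Bip E A C K H) (s : A' ⊆ A) (s' : C' ⊆ C) :
    Bip E A' C' K H :=
  ⟨fun c k => b.fc c (s' k), fun c k c' k' => b.dj c (s' k) c' (s' k'),
    fun a k c k' => b.out a (s k) c (s' k'), fun a k c k' => b.ed a (s k) c (s' k')⟩

/-- Hall's condition gives a perfect matching of the real vertices -/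
theorem Bip.pm (hE : ∀ a b, E a b → E b a) (b : Bip E A C K H) (e : #C ≤ #A)
    (h : ∀ B ⊆ A, #B ≤ #(B.biUnion H ∩ C)) : PM (A ∪ C.biUnion K) E := by
  obtain ⟨f, i, k⟩ := exists_hall (A := A) (H := fun a => H a ∩ C) fun B s => by
    rw [← biUnion_inter]; exact h B s
  have fc : ∀ a ∈ A, f a ∈ C := fun a ha => (mem_inter.1 (k a ha)).2
  have im : A.image f = C := eq_of_subset_of_card_le (image_subset_iff.2 fc)
    (by rwa [card_image_of_injOn i])
  have := PM.biUnion (E := E) (I := A) (f := fun a => {a} ∪ K (f a)) (fun a ha => by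
      obtain ⟨x, hx, ex⟩ := b.ed a ha _ (fc a ha) (mem_inter.1 (k a ha)).1
      exact (FC.single a).pm hE (b.fc _ (fc a ha))
        (disjoint_singleton_left.2 (b.out a ha _ (fc a ha))) (mem_singleton_self a) hx ex)
    fun a ha a' ha' ne => by
      rw [disjoint_union_left, disjoint_union_right, disjoint_union_right, disjoint_singleton,
        disjoint_singleton_left, disjoint_singleton_right]
      exact ⟨⟨ne, b.out a ha _ (fc a' ha')⟩, b.out a' ha' _ (fc a ha),
        b.dj _ (fc a ha) _ (fc a' ha') fun q => ne (i ha ha' q)⟩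
  rwa [biUnion_union, biUnion_singleton_eq_self, ← image_biUnion, im] at this

/-- **the merged class is factor-critical**: every nonempty set of single vertices has surplus,
no proper subset that sees both `u` and `u'` is tight, and the classes `u`, `u'` are adjacent -/
theorem FC.hall (hE : ∀ a b, E a b → E b a) (b : Bip E A C K H) (hH : ∀ a ∈ A, H a ⊆ C)
    (e : #C = #A + 1) (sp : ∀ B ⊆ A, B.Nonempty → #B + 1 ≤ #(B.biUnion H)) {u u' x y : ℕ}
    (hu : u ∈ C) (hu' : u' ∈ C) (ne : u ≠ u') (hx : x ∈ K u) (hy : y ∈ K u') (ex : E x y)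
    (mn : ∀ B ⊆ A, u ∈ B.biUnion H → u' ∈ B.biUnion H → #(B.biUnion H) = #B + 1 → B = A) :
    FC (A ∪ C.biUnion K) E := fun v hv => by
  have sub : ∀ B ⊆ A, B.biUnion H ⊆ C := fun B s => biUnion_subset.2 fun a k => hH a (s k)
  rcases mem_union.1 hv with k | k
  · have c2 : #((C.erase u).erase u') + 2 = #C := by
      rw [card_erase_of_mem (mem_erase.2 ⟨ne.symm, hu'⟩), card_erase_of_mem hu]
      have := card_pos.2 ⟨v, k⟩; omega
    have s2 : (C.erase u).erase u' ⊆ C := (erase_subset _ _).trans (erase_subset _ _)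
    have p := (b.sub (erase_subset v A) s2).pm hE (by rw [card_erase_of_mem k]; omega)
      fun B s => by
        rcases B.eq_empty_or_nonempty with rfl | n
        · exact Nat.zero_le _
        have s' := s.trans (erase_subset _ _)
        have a1 := sp B s' n
        rw [inter_erase, inter_erase, inter_eq_left.2 (sub B s')]
        by_cases q : u ∈ B.biUnion H
        · by_cases q' : u' ∈ B.biUnion H
          · have : #(B.biUnion H) ≠ #B + 1 := fun z => notMem_erase v A (s (mn B s' q q' z ▸ k))
            rw [card_erase_of_mem (mem_erase.2 ⟨ne.symm, q'⟩), card_erase_of_mem q]; omega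
          · rw [erase_eq_of_notMem fun z => q' (mem_of_mem_erase z), card_erase_of_mem q]; omega
        · rw [erase_eq_of_notMem q]
          have := pred_card_le_card_erase (s := B.biUnion H) (a := u'); omega
    have := p.union ((b.fc u hu).pm hE (b.fc u' hu') (b.dj u hu u' hu' ne) hx hy ex) (by
      refine disjoint_left.2 fun z q q' => ?_
      have : ∀ c ∈ C, c ∉ (C.erase u).erase u' → z ∉ K c := fun c hc n w => by
        rcases mem_union.1 q with q | q
        · exact b.out z (mem_of_mem_erase q) c hc w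
        · obtain ⟨c', r, r'⟩ := mem_biUnion.1 q
          exact disjoint_left.1 (b.dj c hc c' (s2 r) fun z => n (z ▸ r)) w r'
      exact (mem_union.1 q').elim (this u hu (by simp)) (this u' hu' (by simp)))
    convert this using 1
    ext z
    simp only [mem_erase, mem_union, mem_biUnion]
    constructor
    · rintro ⟨n, q | ⟨c, q, q'⟩⟩
      · exact .inl (.inl ⟨n, q⟩)
      · by_cases r : c = u
        · exact .inr (.inl (r ▸ q'))
        · by_cases r' : c = u'
          · exact .inr (.inr (r' ▸ q'))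
          · exact .inl (.inr ⟨c, ⟨r', r, q⟩, q'⟩)
    · rintro ((q | ⟨c, q, q'⟩) | q | q)
      · exact ⟨q.1, .inl q.2⟩
      · exact ⟨fun z => b.out v k c q.2.2 (z ▸ q'), .inr ⟨c, q.2.2, q'⟩⟩
      · exact ⟨fun z => b.out v k u hu (z ▸ q), .inr ⟨u, hu, q⟩⟩
      · exact ⟨fun z => b.out v k u' hu' (z ▸ q), .inr ⟨u', hu', q⟩⟩
  · obtain ⟨c, hc, k⟩ := mem_biUnion.1 k
    have p := (b.sub Subset.rfl (erase_subset c C)).pm hE (by rw [card_erase_of_mem hc]; omega)
      fun B s => by
        rcases B.eq_empty_or_nonempty with rfl | n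
        · exact Nat.zero_le _
        have a1 := sp B s n
        rw [inter_erase, inter_eq_left.2 (sub B s)]
        have := pred_card_le_card_erase (s := B.biUnion H) (a := c); omega
    have := p.union (b.fc c hc v k) (by
      refine disjoint_left.2 fun z q q' => ?_
      rcases mem_union.1 q with q | q
      · exact b.out z q c hc (mem_of_mem_erase q')
      · obtain ⟨c', r, r'⟩ := mem_biUnion.1 q
        exact disjoint_left.1 (b.dj c' (mem_of_mem_erase r) c hc (mem_erase.1 r).1) r'
          (mem_of_mem_erase q'))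
    convert this using 1
    ext z
    simp only [mem_erase, mem_union, mem_biUnion]
    constructor
    · rintro ⟨n, q | ⟨c', q, q'⟩⟩
      · exact .inl (.inl q)
      · by_cases r : c' = c
        · exact .inr ⟨n, r ▸ q'⟩
        · exact .inl (.inr ⟨c', ⟨r, q⟩, q'⟩)
    · rintro ((q | ⟨c', q, q'⟩) | q)
      · exact ⟨fun z => b.out v (z ▸ q) c hc k, .inl q⟩
      · exact ⟨fun z => disjoint_left.1 (b.dj c' q.2 c hc q.1) (z ▸ q') k, .inr ⟨c', q.2, q'⟩⟩
      · exact ⟨q.1, .inr ⟨c, hc, q.2⟩⟩

end Crest.Agent.N325.Mt
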