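import Crest.Agent.N325.Mt.Defs

/-!
# Row 325, M6 (helper4): the invariant of the multi-root Edmonds search

Labels: `0` unlabelled, `1` outer, `2` inner, `3` inner vertex made outer by a blossom.
`bs v` is the base of the blossom of `v`.  `Seg v y P`: `P` is the list of new pairs along the even
alternating path from `v` to `y` that is coded by the labels and the pointers `br`.
-/

set_option autoImplicit false
open Finset

namespace Crest.Agent.N325.Mt

/-- the abstract state -/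
structure St where
  lb : ℕ → ℕ
  br : ℕ → ℕ × ℕ
  bs : ℕ → ℕ
  dep : ℕ → ℕ
  q : List (ℕ × ℕ)

/-- outer vertices -/
def St.out (s : St) (v : ℕ) : Prop := s.lb v = 1 ∨ s.lb v = 3

instance (s : St) : DecidablePred s.out := fun _ => inferInstanceAs (Decidable (_ ∨ _))

/-- coded alternating paths -/
inductive Seg (E : ℕ → ℕ → Prop) (m lb : ℕ → ℕ) (br : ℕ → ℕ × ℕ) :
    ℕ → ℕ → List (ℕ × ℕ) → Prop
  | stop (y : ℕ) : Seg E m lb br y y []
  | vert {v y : ℕ} {P : List (ℕ × ℕ)} : v ≠ y → lb v = 1 → E (m v) (br v).1 →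
      Seg E m lb br (br v).1 y P → Seg E m lb br v y ((m v, (br v).1) :: P)
  | brdg {v y : ℕ} {P Q : List (ℕ × ℕ)} : v ≠ y → lb v = 3 → E (br v).1 (br v).2 →
      Seg E m lb br (br v).1 (m v) P → Seg E m lb br (br v).2 y Q →
      Seg E m lb br v y (br v :: (P ++ Q))

variable {V : Finset ℕ} {E : ℕ → ℕ → Prop} {m : ℕ → ℕ}

section seg
variable {lb lb' : ℕ → ℕ} {br br' : ℕ → ℕ × ℕ} {v y : ℕ} {P : List (ℕ × ℕ)}

theorem Seg.ed (h : Seg E m lb br v y P) : ∀ e ∈ P, E e.1 e.2 := by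
  induction h with
  | stop => simp
  | vert _ _ e _ ih => simpa using ⟨e, by simpa using ih⟩
  | brdg _ _ e _ _ i1 i2 =>
    intro f k
    rcases List.mem_cons.1 k with rfl | k
    · exact e
    · exact (List.mem_append.1 k).elim (i1 f) (i2 f)

theorem mem_brdg {z v : ℕ} {e : ℕ × ℕ} {P Q : List (ℕ × ℕ)} :
    z ∈ v :: vs (e :: (P ++ Q)) ↔ z = v ∨ z ∈ e.1 :: vs P ∨ z ∈ e.2 :: vs Q := by
  simp only [vs_cons, vs_append, List.mem_cons, List.mem_append]; tauto

theorem mem_vert {z v x p : ℕ} {P : List (ℕ × ℕ)} :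
    z ∈ v :: vs ((x, p) :: P) ↔ z = v ∨ z = x ∨ z ∈ p :: vs P := by
  simp only [vs_cons, List.mem_cons]

theorem Seg.cl (h : Seg E m lb br v y P) (i : ∀ z ∈ v :: vs P, m (m z) = z) :
    y ∈ v :: vs P ∧ ∀ z ∈ v :: vs P, z = y ∨ m z ∈ v :: vs P := by
  induction h with
  | stop => simp
  | @vert v y P _ _ _ _ ih =>
    have iv := i v List.mem_cons_self
    obtain ⟨a, b⟩ := ih fun z k => i z (mem_vert.2 (.inr (.inr k)))
    refine ⟨mem_vert.2 (.inr (.inr a)), fun z k => ?_⟩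
    rcases mem_vert.1 k with rfl | rfl | k
    · exact .inr (mem_vert.2 (.inr (.inl rfl)))
    · exact .inr (mem_vert.2 (.inl iv))
    · exact (b z k).imp id fun c => mem_vert.2 (.inr (.inr c))
  | @brdg v y P Q _ _ _ _ _ i1 i2 =>
    have iv := i v List.mem_cons_self
    obtain ⟨a, b⟩ := i1 fun z k => i z (mem_brdg.2 (.inr (.inl k)))
    obtain ⟨c, d⟩ := i2 fun z k => i z (mem_brdg.2 (.inr (.inr k)))
    refine ⟨mem_brdg.2 (.inr (.inr c)), fun z k => ?_⟩
    rcases mem_brdg.1 k with rfl | k | k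
    · exact .inr (mem_brdg.2 (.inr (.inl a)))
    · rcases b z k with rfl | e
      · exact .inr (mem_brdg.2 (.inl iv))
      · exact .inr (mem_brdg.2 (.inr (.inl e)))
    · exact (d z k).imp id fun c => mem_brdg.2 (.inr (.inr c))

theorem Seg.mono (h : Seg E m lb br v y P)
    (k : ∀ z ∈ v :: vs P, lb z = 1 ∨ lb z = 3 → lb' z = lb z ∧ br' z = br z) :
    Seg E m lb' br' v y P := by
  induction h with
  | stop => exact .stop _
  | @vert v y P a b c _ ih =>
    obtain ⟨e1, e2⟩ := k v List.mem_cons_self (.inl b)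
    have := ih fun z k' => k z (mem_vert.2 (.inr (.inr k')))
    rw [← e2] at c this ⊢
    exact .vert a (e1.trans b) c this
  | @brdg v y P Q a b c _ _ i1 i2 =>
    obtain ⟨e1, e2⟩ := k v List.mem_cons_self (.inr b)
    have j1 := i1 fun z k' => k z (mem_brdg.2 (.inr (.inl k')))
    have j2 := i2 fun z k' => k z (mem_brdg.2 (.inr (.inr k')))
    rw [← e2] at c j1 j2 ⊢
    exact .brdg a (e1.trans b) c j1 j2

theorem Seg.trans {l : ℕ} {Q : List (ℕ × ℕ)} (h : Seg E m lb br v y P)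
    (h' : Seg E m lb br y l Q) (k : l ∉ v :: vs P) : Seg E m lb br v l (P ++ Q) := by
  induction h with
  | stop => exact h'
  | @vert v y P a b c _ ih =>
    rw [mem_vert, not_or, not_or] at k
    exact .vert (Ne.symm k.1) b c (ih h' k.2.2)
  | @brdg v y P P' a b c d _ _ i2 =>
    rw [mem_brdg, not_or, not_or] at k
    rw [List.cons_append, List.append_assoc]
    exact .brdg (Ne.symm k.1) b c d (i2 h' k.2.2)

end seg

/-- the invariant -/
structure Inv (V : Finset ℕ) (E : ℕ → ℕ → Prop) (m : ℕ → ℕ) (s : St) : Prop where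
  le : ∀ v ∈ V, s.lb v ≤ 3
  root : ∀ v ∈ V, m v = v → s.lb v = 1 ∧ s.bs v = v ∧ s.dep v = 0
  zero : ∀ v ∈ V, s.lb v = 0 → s.lb (m v) = 0
  inn : ∀ v ∈ V, s.lb v = 2 → s.lb (m v) = 1 ∧ s.bs (m v) = m v ∧ (s.br (m v)).1 ∈ V ∧
    s.out (s.br (m v)).1 ∧ E v (s.br (m v)).1 ∧ s.dep (s.bs (s.br (m v)).1) < s.dep (m v)
  sing : ∀ v ∈ V, ¬s.out v → s.bs v = v
  base : ∀ v ∈ V, s.out v → s.bs v ∈ V ∧ s.lb (s.bs v) = 1 ∧ s.bs (s.bs v) = s.bs v ∧
    (m (s.bs v) = s.bs v ∨ s.lb (m (s.bs v)) = 2)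
  mate : ∀ v ∈ V, s.out v → s.bs v ≠ v → s.out (m v) ∧ s.bs (m v) = s.bs v
  seg : ∀ v ∈ V, s.out v → ∃ P, Seg E m s.lb s.br v (s.bs v) P ∧ (v :: vs P).Nodup ∧
    ∀ z ∈ vs P, z ∈ V ∧ s.out z ∧ s.bs z = s.bs v
  qs : ∀ e ∈ s.q, e.1 ∈ V ∧ e.2 ∈ V ∧ s.out e.1 ∧ E e.1 e.2
  qc : ∀ v ∈ V, ∀ u ∈ V, s.out v → E v u →
    (v, u) ∈ s.q ∨ (u, v) ∈ s.q ∨ s.lb u = 2 ∨ (s.out u ∧ s.bs u = s.bs v)

/-- bases of blossoms -/
def IsB (V : Finset ℕ) (s : St) (b : ℕ) : Prop := b ∈ V ∧ s.lb b = 1 ∧ s.bs b = b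

/-- a chain of bases from `a` upwards, newest first, and its end -/
inductive Chn (m : ℕ → ℕ) (s : St) (a : ℕ) : List ℕ → ℕ → Prop
  | nil : Chn m s a [] a
  | step {L : List ℕ} {b : ℕ} : Chn m s a L b → s.lb (m b) = 2 →
      Chn m s a (b :: L) (s.bs (s.br b).1)

variable {s s' : St}

theorem Inv.isB (I : Inv V E m s) {v : ℕ} (hv : v ∈ V) (o : s.out v) : IsB V s (s.bs v) :=
  have h := I.base v hv o
  ⟨h.1, h.2.1, h.2.2.1⟩

theorem Inv.up (hm : IsM V E m) (I : Inv V E m s) {b : ℕ} (hb : b ∈ V) (k : s.lb (m b) = 2) :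
    (s.br b).1 ∈ V ∧ s.out (s.br b).1 ∧ E (m b) (s.br b).1 ∧
      s.dep (s.bs (s.br b).1) < s.dep b := by
  have := (I.inn _ (hm.mem hb) k).2.2
  rwa [hm.inv hb] at this

theorem Chn.facts (hm : IsM V E m) (I : Inv V E m s) {a l : ℕ} {L : List ℕ} (ha : IsB V s a)
    (h : Chn m s a L l) : IsB V s l ∧ L.Nodup ∧
      ∀ b ∈ L, IsB V s b ∧ s.lb (m b) = 2 ∧ s.dep l < s.dep b := by
  induction h with
  | nil => exact ⟨ha, List.nodup_nil, by simp⟩
  | @step L b _ k ih =>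
    obtain ⟨h1, h2, h3⟩ := ih
    obtain ⟨u1, u2, -, u4⟩ := I.up hm h1.1 k
    refine ⟨I.isB u1 u2, List.nodup_cons.2 ⟨fun c => (h3 b c).2.2.false, h2⟩, fun c hc => ?_⟩
    rcases List.mem_cons.1 hc with rfl | hc
    · exact ⟨h1, k, u4⟩
    · exact ⟨(h3 c hc).1, (h3 c hc).2.1, u4.trans (h3 c hc).2.2⟩

theorem Chn.pre {a l b : ℕ} {L : List ℕ} (h : Chn m s a L l) (hb : b ∈ L) :
    ∃ L', Chn m s a L' b ∧ ∀ c ∈ L', c ∈ L := by
  induction h with
  | nil => cases hb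
  | @step L c h k ih =>
    rcases List.mem_cons.1 hb with rfl | hb
    · exact ⟨L, h, fun c => List.mem_cons_of_mem _⟩
    · obtain ⟨L', x, y⟩ := ih hb
      exact ⟨L', x, fun c k => List.mem_cons_of_mem _ (y c k)⟩

theorem Chn.suf {a l b : ℕ} {L : List ℕ} (h : Chn m s a L l) (hb : b ∈ L) :
    ∃ L', Chn m s b L' l ∧ ∀ c ∈ L', c ∈ L := by
  induction h with
  | nil => cases hb
  | @step L c h k ih =>
    rcases List.mem_cons.1 hb with rfl | hb
    · exact ⟨[b], .step .nil k, by simp⟩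
    · obtain ⟨L', x, y⟩ := ih hb
      refine ⟨c :: L', .step x k, fun d k => ?_⟩
      rcases List.mem_cons.1 k with rfl | k
      · exact List.mem_cons_self
      · exact List.mem_cons_of_mem _ (y d k)

theorem Chn.start {a l : ℕ} {L : List ℕ} (h : Chn m s a L l) : a ∈ L ∨ a = l := by
  induction h with
  | nil => exact .inr rfl
  | step _ _ ih => exact .inl (ih.elim (List.mem_cons_of_mem _) fun e => e ▸ List.mem_cons_self)

/-- the vertices met along a chain -/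
def Along (V : Finset ℕ) (m : ℕ → ℕ) (s : St) (L : List ℕ) (l w : ℕ) : Prop :=
  w ∈ V ∧ ((s.out w ∧ (s.bs w ∈ L ∨ s.bs w = l)) ∨ (s.lb w = 2 ∧ m w ∈ L))

theorem Inv.climb (hm : IsM V E m) (I : Inv V E m s) {z l : ℕ} {L : List ℕ} (hz : z ∈ V)
    (o : s.out z) (h : Chn m s (s.bs z) L l) : ∃ P, Seg E m s.lb s.br z l P ∧
      (z :: vs P).Nodup ∧ ∀ w ∈ z :: vs P, Along V m s L l w := by
  induction h with
  | nil =>
    obtain ⟨P, a, b, c⟩ := I.seg z hz o
    refine ⟨P, a, b, fun w k => ?_⟩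
    rcases List.mem_cons.1 k with rfl | k
    · exact ⟨hz, .inl ⟨o, .inr rfl⟩⟩
    · exact ⟨(c w k).1, .inl ⟨(c w k).2.1, .inr (c w k).2.2⟩⟩
  | @step L b h k ih =>
    obtain ⟨P, a1, a2, a3⟩ := ih
    obtain ⟨h1, -, h3⟩ := h.facts hm I (I.isB hz o)
    obtain ⟨u1, u2, u3, u4⟩ := I.up hm h1.1 k
    obtain ⟨Q, c1, c2, c3⟩ := I.seg _ u1 u2
    have hl := I.isB u1 u2
    have c4 : ∀ w ∈ (s.br b).1 :: vs Q, w ∈ V ∧ s.out w ∧ s.bs w = s.bs (s.br b).1 := by
      intro w k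
      rcases List.mem_cons.1 k with rfl | k
      · exact ⟨u1, u2, rfl⟩
      · exact c3 w k
    have key : ∀ w ∈ z :: vs P, s.out w → s.bs w ≠ s.bs (s.br b).1 := by
      intro w k ow e
      rcases (a3 w k).2 with ⟨-, x | x⟩ | ⟨x, -⟩
      · have := (h3 _ x).2.2; rw [e] at this; omega
      · rw [← e, x] at u4; omega
      · rcases ow with y | y <;> omega
    refine ⟨P ++ (m b, (s.br b).1) :: Q, a1.trans (.vert (fun e => ?_) h1.2.1 u3 c1)
      fun c => key _ c (.inl hl.2.1) hl.2.2, ?_, fun w k' => ?_⟩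
    · rw [← e] at u4; omega
    · rw [vs_append, vs_cons, ← List.cons_append, List.nodup_append]
      refine ⟨a2, List.nodup_cons.2 ⟨fun c => ?_, c2⟩, ?_⟩
      · rcases (c4 _ c).2.1 with y | y <;> simp only at y <;> omega
      · rintro w k1 _ k2 rfl
        rcases List.mem_cons.1 k2 with e | k2
        · rcases (a3 w k1).2 with ⟨y | y, -⟩ | ⟨-, x⟩
          · rw [e] at y; simp only at y; omega
          · rw [e] at y; simp only at y; omega
          · rw [e] at x; simp only [hm.inv h1.1] at x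
            exact (h3 b x).2.2.false
        · exact key w k1 (c4 w k2).2.1 (c4 w k2).2.2
    · rw [vs_append, vs_cons, ← List.cons_append, List.mem_append] at k'
      rcases k' with k' | k'
      · refine ⟨(a3 w k').1, ?_⟩
        rcases (a3 w k').2 with ⟨x, y | y⟩ | ⟨x, y⟩
        · exact .inl ⟨x, .inl (List.mem_cons_of_mem _ y)⟩
        · exact .inl ⟨x, .inl (y ▸ List.mem_cons_self)⟩
        · exact .inr ⟨x, List.mem_cons_of_mem _ y⟩
      · rcases List.mem_cons.1 k' with rfl | k'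
        · exact ⟨hm.mem h1.1, .inr ⟨k, by simp [hm.inv h1.1]⟩⟩
        · exact ⟨(c4 w k').1, .inl ⟨(c4 w k').2.1, .inr (c4 w k').2.2⟩⟩

/-- two chains without common base give disjoint paths -/
theorem along_disj {L L' : List ℕ} {l l' w : ℕ} (d : ∀ b ∈ L, b ∉ L') (d1 : l ∉ L') (d2 : l' ∉ L)
    (d3 : l ≠ l') (h : Along V m s L l w) (h' : Along V m s L' l' w) : False := by
  rcases h.2 with ⟨o, x⟩ | ⟨o, x⟩ <;> rcases h'.2 with ⟨o', y⟩ | ⟨o', y⟩
  · rcases x with x | x <;> rcases y with y | y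
    · exact d _ x y
    · exact d2 (y ▸ x)
    · exact d1 (x ▸ y)
    · exact d3 (x.symm.trans y)
  · rcases o with o | o <;> omega
  · rcases o' with o' | o' <;> omega
  · exact d _ x y

/-- **augmentation**: two chains that end at different roots -/
theorem Inv.aug (hm : IsM V E m) (I : Inv V E m s) {v u r r' : ℕ} {L L' : List ℕ} (hv : v ∈ V)
    (hu : u ∈ V) (ov : s.out v) (ou : s.out u) (e : E v u) (h : Chn m s (s.bs v) L r)
    (h' : Chn m s (s.bs u) L' r') (d : ∀ b ∈ L, b ∉ L') (ne : r ≠ r') (er : m r = r)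
    (er' : m r' = r') : ∃ P Q, Seg E m s.lb s.br v r P ∧ Seg E m s.lb s.br u r' Q ∧
      Imp V E m ((v, u) :: (P ++ Q)) := by
  obtain ⟨P, a1, a2, a3⟩ := I.climb hm hv ov h
  obtain ⟨Q, c1, c2, c3⟩ := I.climb hm hu ou h'
  obtain ⟨f1, -, f3⟩ := h.facts hm I (I.isB hv ov)
  obtain ⟨g1, -, g3⟩ := h'.facts hm I (I.isB hu ou)
  obtain ⟨a4, a5⟩ := a1.cl fun z k => hm.inv (a3 z k).1
  obtain ⟨c4, c5⟩ := c1.cl fun z k => hm.inv (c3 z k).1
  have p : (vs ((v, u) :: (P ++ Q))).Perm ((v :: vs P) ++ (u :: vs Q)) := by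
    rw [vs_cons, vs_append, List.cons_append]
    exact List.perm_middle.symm.cons _
  refine ⟨P, Q, a1, c1, ⟨p.nodup_iff.2 (List.nodup_append.2 ⟨a2, c2, ?_⟩), fun w k => ?_,
    fun w k => p.mem_iff.2 ?_, fun f k => ?_⟩, r, p.mem_iff.2 (List.mem_append_left _ a4), r',
    p.mem_iff.2 (List.mem_append_right _ c4), ne, er, er'⟩
  · rintro w k1 _ k2 rfl
    refine along_disj d (fun c => ?_) (fun c => ?_) ne (a3 w k1) (c3 w k2)
    · have := (g3 _ c).2.1; rw [er, f1.2.1] at this; omega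
    · have := (f3 _ c).2.1; rw [er', g1.2.1] at this; omega
  · exact (List.mem_append.1 (p.mem_iff.1 k)).elim (fun k => (a3 w k).1) fun k => (c3 w k).1
  · rcases List.mem_append.1 (p.mem_iff.1 k) with k | k
    · exact List.mem_append_left _ ((a5 w k).elim (fun x => by rw [x, er]; exact a4) id)
    · exact List.mem_append_right _ ((c5 w k).elim (fun x => by rw [x, er']; exact c4) id)
  · rcases List.mem_cons.1 k with rfl | k
    · exact e
    · exact (List.mem_append.1 k).elim (a1.ed f) (c1.ed f)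

end Crest.Agent.N325.Mt
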