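import Crest.Agent.N325.Mt.TopImpl
import Crest.Agent.N325.Mt.Search

/-!
# Row 325, M6: the Edmonds search is implementable (helper90)
-/

set_option autoImplicit false

namespace Crest.Agent.N325.Mt

variable {α : Type} [Rp α] {σ : Bool}

@[fun_prop] theorem pu_bsU {u : α → UA} {v : α → ℕ} (hu : Pu true u) (hv : Pu false v) :
    Pu σ fun a => bsU (u a) (v a) := by
  unfold bsU; impl

@[fun_prop] theorem impl_mvR {u : α → UA} {i j l : α → ℕ} (hu : Pu true u) (hi : Pu true i)
    (hj : Pu true j) (hl : Pu true l) : Impl fun a => mvR (u a) (i a) (j a) (l a) := by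
  unfold mvR; impl

@[fun_prop] theorem impl_uniR {u : α → UA} {i l : α → ℕ} (hu : Pu true u) (hi : Pu true i)
    (hl : Pu true l) : Impl fun a => uniR (u a) (i a) (l a) := by
  unfold uniR; impl

@[fun_prop] theorem impl_pushR {adj : α → Arr (List ℕ)} {w : α → ℕ} {q : α → List (ℕ × ℕ)}
    (h1 : Pu true adj) (h2 : Pu true w) (h3 : Pu true q) :
    Impl fun a => pushR (adj a) (w a) (q a) := by
  unfold pushR; impl

@[fun_prop] theorem impl_walkR {m : α → Arr ℕ} {s : α → SA} {fu x y : α → ℕ} (h1 : Pu true m)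
    (h2 : Pu true s) (h3 : Pu true fu) (h4 : Pu true x) (h5 : Pu true y) :
    Impl fun a => walkR (m a) (s a) (fu a) (x a) (y a) := by
  unfold walkR; impl

@[fun_prop] theorem impl_absR {m : α → Arr ℕ} {adj : α → Arr (List ℕ)} {w : α → ℕ × ℕ}
    {l b : α → ℕ} {s : α → SA} (h1 : Pu true m) (h2 : Pu true adj) (h3 : Pu true w)
    (h4 : Pu true l) (h5 : Pu true b) (h6 : Pu true s) :
    Impl fun a => absR (m a) (adj a) (w a) (l a) (b a) (s a) := by
  unfold absR; impl

@[fun_prop] theorem impl_growR {m : α → Arr ℕ} {adj : α → Arr (List ℕ)} {s : α → SA}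
    {v u : α → ℕ} {q : α → List (ℕ × ℕ)} (h1 : Pu true m) (h2 : Pu true adj) (h3 : Pu true s)
    (h4 : Pu true v) (h5 : Pu true u) (h6 : Pu true q) :
    Impl fun a => growR (m a) (adj a) (s a) (v a) (u a) (q a) := by
  unfold growR; impl

@[fun_prop] theorem impl_meetR {m : α → Arr ℕ} {adj : α → Arr (List ℕ)} {s : α → SA}
    {fu v u : α → ℕ} {q : α → List (ℕ × ℕ)} (h1 : Pu true m) (h2 : Pu true adj) (h0 : Pu true fu)
    (h3 : Pu true s) (h4 : Pu true v) (h5 : Pu true u) (h6 : Pu true q) :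
    Impl fun a => meetR (m a) (adj a) (fu a) (s a) (v a) (u a) (q a) := by
  unfold meetR; impl

@[fun_prop] theorem impl_edStep {m : α → Arr ℕ} {adj : α → Arr (List ℕ)} {fu : α → ℕ}
    {x : α → MS} (h1 : Pu true m) (h2 : Pu true adj) (h0 : Pu true fu) (h3 : Pu true x) :
    Impl fun a => edStep (m a) (adj a) (fu a) (x a) := by
  unfold edStep; impl

@[fun_prop] theorem impl_initR {m : α → Arr ℕ} {adj : α → Arr (List ℕ)} {l : α → List ℕ}
    (h1 : Pu true m) (h2 : Pu true adj) (h3 : Pu true l) :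
    Impl fun a => initR (m a) (adj a) (l a) := by
  unfold initR; impl

@[fun_prop] theorem impl_searchS {m : α → Arr ℕ} {adj : α → Arr (List ℕ)} {l : α → List ℕ}
    {fu : α → ℕ} (h2 : Pu true adj) (h3 : Pu true l) (h0 : Pu true fu) (h1 : Pu true m) :
    Impl fun a => searchS (adj a) (l a) (fu a) (m a) := by
  unfold searchS; impl

@[fun_prop] theorem impl_search {m : α → Arr ℕ} {adj : α → Arr (List ℕ)} {l : α → List ℕ}
    {fu : α → ℕ} (h2 : Pu true adj) (h3 : Pu true l) (h0 : Pu true fu) (h1 : Pu true m) :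
    Impl fun a => search (adj a) (l a) (fu a) (m a) := by
  unfold search; impl

end Crest.Agent.N325.Mt
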