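import Crest.Agent.N325.Mt.Inv

/-!
# Row 325, M6 (helper4): the steps of the Edmonds search keep the invariant
-/

set_option autoImplicit false
open Finset

namespace Crest.Agent.N325.Mt

variable {V : Finset ℕ} {E : ℕ → ℕ → Prop} {m : ℕ → ℕ} {s s' : St}

/-- `q'` consists of `q` and of all edges that start at a vertex of `N` -/
def QR (V : Finset ℕ) (E : ℕ → ℕ → Prop) (q q' : List (ℕ × ℕ)) (N : ℕ → Prop) : Prop :=
  ∀ e, e ∈ q' ↔ e ∈ q ∨ (N e.1 ∧ e.1 ∈ V ∧ e.2 ∈ V ∧ E e.1 e.2)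

theorem inv_init (hm : IsM V E m) (hl : ∀ v ∈ V, s.lb v = if m v = v then 1 else 0)
    (hb : ∀ v ∈ V, s.bs v = v) (hd : ∀ v ∈ V, s.dep v = 0)
    (hq : QR V E [] s.q fun v => m v = v) : Inv V E m s := by
  have o : ∀ v ∈ V, s.out v → m v = v := fun v hv o => by
    have := hl v hv
    by_contra c
    rw [if_neg c] at this
    rcases o with o | o <;> omega
  refine ⟨fun v hv => ?_, fun v hv e => ⟨by rw [hl v hv, if_pos e], hb v hv, hd v hv⟩,
    fun v hv e => ?_, fun v hv e => ?_, fun v hv _ => hb v hv, fun v hv k => ?_,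
    fun v hv _ k => absurd (hb v hv) k, fun v hv _ => ⟨[], ?_, by simp, by simp⟩,
    fun e k => ?_, fun v hv u hu k e => .inl ((hq _).2 (.inr ⟨o v hv k, hv, hu, e⟩))⟩
  · rw [hl v hv]; split_ifs <;> omega
  · rw [hl _ (hm.mem hv), hm.inv hv, if_neg]
    intro c
    rw [hl v hv, if_pos c.symm] at e; omega
  · rw [hl v hv] at e; split_ifs at e <;> omega
  · rw [hb v hv, hb v hv, hl v hv, if_pos (o v hv k)]
    exact ⟨hv, rfl, rfl, .inl (o v hv k)⟩
  · rw [hb v hv]; exact .stop _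
  · rcases (hq e).1 k with k | ⟨a, b, c, d⟩
    · cases k
    · exact ⟨b, c, .inl (by rw [hl _ b, if_pos a]), d⟩

theorem Inv.skip (I : Inv V E m s) {v u : ℕ} {q : List (ℕ × ℕ)} (hq : s.q = (v, u) :: q)
    (h2 : s.lb u = 2) : Inv V E m { s with q := q } := by
  refine ⟨I.le, I.root, I.zero, I.inn, I.sing, I.base, I.mate, I.seg,
    fun e k => I.qs e (hq ▸ List.mem_cons_of_mem _ k), fun z hz w hw o e => ?_⟩
  rcases I.qc z hz w hw o e with k | k | k
  · rcases List.mem_cons.1 (hq ▸ k) with k | k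
    · obtain ⟨-, rfl⟩ := Prod.ext_iff.1 k
      exact .inr (.inr (.inl h2))
    · exact .inl k
  · rcases List.mem_cons.1 (hq ▸ k) with k | k
    · obtain ⟨-, rfl⟩ := Prod.ext_iff.1 k
      rcases o with o | o <;> simp only at o h2 <;> omega
    · exact .inr (.inl k)
  · exact .inr (.inr k)

theorem Inv.grow (hE : ∀ a b, E a b → E b a) (hm : IsM V E m) (I : Inv V E m s) {v u : ℕ}
    {q : List (ℕ × ℕ)} (hq : s.q = (v, u) :: q) (h0 : s.lb u = 0)
    (hl : ∀ z, s'.lb z = if z = m u then 1 else if z = u then 2 else s.lb z)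
    (hr : (s'.br (m u)).1 = v) (hr' : ∀ z, z ≠ m u → s'.br z = s.br z) (hb : s'.bs = s.bs)
    (hd : ∀ z, s'.dep z = if z = m u then s.dep (s.bs v) + 1 else s.dep z)
    (hq' : QR V E q s'.q fun z => z = m u) : Inv V E m s' := by
  obtain ⟨hv, hu, ov, e⟩ := I.qs (v, u) (hq ▸ List.mem_cons_self)
  simp only at hv hu ov e
  have ne : u ≠ m u := fun c => by have := (I.root u hu c.symm).1; omega
  have y0 := I.zero u hu h0
  have hy := hm.mem hu
  have A : ∀ z, s.lb z ≠ 0 → s'.lb z = s.lb z ∧ s'.br z = s.br z ∧ s'.dep z = s.dep z := by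
    intro z k
    have a : z ≠ m u := fun c => k (c ▸ y0)
    have b : z ≠ u := fun c => k (c ▸ h0)
    rw [hl, hd, if_neg a, if_neg b, if_neg a]
    exact ⟨rfl, hr' z a, rfl⟩
  have O : ∀ z, s.out z → s'.out z := fun z o => by
    have := (A z (by rcases o with o | o <;> omega)).1
    unfold St.out at *; omega
  have ly : s'.lb (m u) = 1 := by rw [hl, if_pos rfl]
  have lu : s'.lb u = 2 := by rw [hl, if_neg ne, if_pos rfl]
  have by' : s.bs (m u) = m u := I.sing _ hy (by unfold St.out; omega)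
  have O' : ∀ z, s'.out z → z = m u ∨ s.out z := fun z o => by
    have := hl z
    unfold St.out at *
    split_ifs at this <;> omega
  refine ⟨fun z hz => ?_, fun z hz k => ?_, fun z hz k => ?_, fun z hz k => ?_,
    fun z hz k => ?_, fun z hz k => ?_, fun z hz k k' => ?_, fun z hz k => ?_, fun f k => ?_,
    fun z hz w hw o e' => ?_⟩
  · have := I.le z hz
    rw [hl]; split_ifs <;> omega
  · obtain ⟨a, b, c⟩ := I.root z hz k
    obtain ⟨x, -, y⟩ := A z (by omega)
    rw [x, y, hb]; exact ⟨a, b, c⟩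
  · have a : z ≠ m u := fun c => by rw [c] at k; omega
    have b : z ≠ u := fun c => by rw [c] at k; omega
    rw [hl, if_neg a, if_neg b] at k
    rw [hl, if_neg, if_neg]
    · exact I.zero z hz k
    · exact fun c => a (by rw [← c, hm.inv hz])
    · exact fun c => b (by rw [← hm.inv hz, c, hm.inv hu])
  · by_cases b : z = u
    · subst b
      rw [hr, hb, (A _ (by rw [(I.isB hv ov).2.1]; omega)).2.2, hd, if_pos rfl]
      exact ⟨ly, by', hv, O v ov, hE _ _ e, Nat.lt_succ_self _⟩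
    · have a : z ≠ m u := fun c => by rw [c] at k; omega
      rw [hl, if_neg a, if_neg b] at k
      obtain ⟨c1, c2, c3, c4, c5, c6⟩ := I.inn z hz k
      obtain ⟨x1, x2, x3⟩ := A (m z) (by omega)
      rw [x1, x2, x3, hb, (A _ (by rw [(I.isB c3 c4).2.1]; omega)).2.2]
      exact ⟨c1, c2, c3, O _ c4, c5, c6⟩
  · rw [hb]; exact I.sing z hz fun c => k (O z c)
  · rw [hb]
    rcases O' z k with rfl | o
    · rw [by', by', hm.inv hu]; exact ⟨hy, ly, rfl, .inr lu⟩
    · obtain ⟨c1, c2, c3, c4⟩ := I.base z hz o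
      exact ⟨c1, by rw [(A _ (by omega)).1, c2], c3, c4.imp id fun c => by
        rw [(A _ (by omega)).1, c]⟩
  · rw [hb] at k' ⊢
    rcases O' z k with rfl | o
    · exact absurd by' k'
    · exact (I.mate z hz o k').imp (O _) id
  · rw [hb]
    rcases O' z k with rfl | o
    · rw [by']; exact ⟨[], .stop _, by simp, by simp⟩
    · obtain ⟨P, c1, c2, c3⟩ := I.seg z hz o
      exact ⟨P, c1.mono fun w _ k => ⟨(A w (by omega)).1, (A w (by omega)).2.1⟩, c2,
        fun w k => ⟨(c3 w k).1, O w (c3 w k).2.1, (c3 w k).2.2⟩⟩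
  · rcases (hq' f).1 k with k | ⟨a, b, c, d⟩
    · obtain ⟨a, b, c, d⟩ := I.qs f (hq ▸ List.mem_cons_of_mem _ k)
      exact ⟨a, b, O _ c, d⟩
    · exact ⟨b, c, .inl (a ▸ ly), d⟩
  · rcases O' z o with a | o
    · exact .inl ((hq' _).2 (.inr ⟨a, hz, hw, e'⟩))
    rcases I.qc z hz w hw o e' with k | k | k | k
    · rcases List.mem_cons.1 (hq ▸ k) with k | k
      · obtain ⟨-, rfl⟩ := Prod.ext_iff.1 k
        exact .inr (.inr (.inl lu))
      · exact .inl ((hq' _).2 (.inl k))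
    · rcases List.mem_cons.1 (hq ▸ k) with k | k
      · obtain ⟨-, rfl⟩ := Prod.ext_iff.1 k
        rcases o with o | o <;> simp only at o h0 <;> omega
      · exact .inr (.inl ((hq' _).2 (.inl k)))
    · exact .inr (.inr (.inl (by rw [(A w (by omega)).1, k])))
    · exact .inr (.inr (.inr ⟨O w k.1, hb ▸ k.2⟩))

/-- the path of an inner vertex of the first chain through the bridge `v u` -/
theorem Inv.brid (hm : IsM V E m) (I : Inv V E m s) {v u l z : ℕ} {L L' : List ℕ} (hv : v ∈ V)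
    (hu : u ∈ V) (ov : s.out v) (ou : s.out u) (h : Chn m s (s.bs v) L l)
    (h' : Chn m s (s.bs u) L' l) (d : ∀ b ∈ L, b ∉ L') (hz : z ∈ V) (k : m z ∈ L) :
    ∃ P Q, Seg E m s.lb s.br v (m z) P ∧ Seg E m s.lb s.br u l Q ∧
      (z :: vs ((v, u) :: (P ++ Q))).Nodup ∧
      ∀ w ∈ vs ((v, u) :: (P ++ Q)), Along V m s (L ++ L') l w := by
  obtain ⟨L1, h1, s1⟩ := h.pre k
  obtain ⟨P, a1, a2, a3⟩ := I.climb hm hv ov h1
  obtain ⟨Q, c1, c2, c3⟩ := I.climb hm hu ou h'
  obtain ⟨-, -, f3⟩ := h.facts hm I (I.isB hv ov)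
  obtain ⟨-, -, g3⟩ := h1.facts hm I (I.isB hv ov)
  have z2 : s.lb z = 2 := by have := (f3 _ k).2.1; rwa [hm.inv hz] at this
  have p : (vs ((v, u) :: (P ++ Q))).Perm ((v :: vs P) ++ (u :: vs Q)) := by
    rw [vs_cons, vs_append, List.cons_append]
    exact List.perm_middle.symm.cons _
  refine ⟨P, Q, a1, c1, List.nodup_cons.2 ⟨fun c => ?_,
    p.nodup_iff.2 (List.nodup_append.2 ⟨a2, c2, ?_⟩)⟩, fun w c => ?_⟩
  · rcases List.mem_append.1 (p.mem_iff.1 c) with c | c
    · rcases (a3 z c).2 with ⟨o | o, -⟩ | ⟨-, x⟩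
      · omega
      · omega
      · exact (g3 _ x).2.2.false
    · rcases (c3 z c).2 with ⟨o | o, -⟩ | ⟨-, x⟩
      · omega
      · omega
      · exact d _ k x
  · rintro w k1 _ k2 rfl
    exact along_disj (fun b c => d b (s1 b c)) (d _ k) (fun c => (f3 _ (s1 _ c)).2.2.false)
      (fun c => by have := (f3 _ k).2.2; rw [c] at this; omega) (a3 w k1) (c3 w k2)
  · rcases List.mem_append.1 (p.mem_iff.1 c) with c | c
    · refine ⟨(a3 w c).1, (a3 w c).2.imp (.imp id fun x => .inl (List.mem_append_left _ ?_))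
        (.imp id fun x => List.mem_append_left _ (s1 _ x))⟩
      exact x.elim (s1 _) fun x => x ▸ k
    · exact ⟨(c3 w c).1, (c3 w c).2.imp (.imp id (.imp (List.mem_append_right _) id))
        (.imp id (List.mem_append_right _))⟩

theorem Inv.blossom (hE : ∀ a b, E a b → E b a) (hm : IsM V E m) (I : Inv V E m s) {v u l : ℕ}
    {q : List (ℕ × ℕ)} {L L' : List ℕ} (hq : s.q = (v, u) :: q) (ou : s.out u)
    (h : Chn m s (s.bs v) L l) (h' : Chn m s (s.bs u) L' l) (d : ∀ b ∈ L, b ∉ L')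
    (hl : ∀ z ∈ V, s'.lb z = if m z ∈ L ++ L' then 3 else s.lb z)
    (hr : ∀ z ∈ V, s'.br z = if m z ∈ L' then (u, v) else if m z ∈ L then (v, u) else s.br z)
    (hb : ∀ z ∈ V, s'.bs z = if s.bs z ∈ L ++ L' ∨ m z ∈ L ++ L' then l else s.bs z)
    (hd : s'.dep = s.dep) (hq' : QR V E q s'.q fun z => m z ∈ L ++ L') : Inv V E m s' := by
  obtain ⟨hv, hu, ov, e⟩ := I.qs (v, u) (hq ▸ List.mem_cons_self)
  simp only at hv hu ov e
  obtain ⟨Bl, -, f3⟩ := h.facts hm I (I.isB hv ov)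
  obtain ⟨-, -, g3⟩ := h'.facts hm I (I.isB hu ou)
  have hZ : ∀ b ∈ L ++ L', IsB V s b ∧ s.lb (m b) = 2 ∧ s.dep l < s.dep b := fun b k =>
    (List.mem_append.1 k).elim (f3 b) (g3 b)
  have F : ∀ z ∈ V, m z ∈ L ++ L' → s.lb z = 2 := fun z hz k => by
    have := (hZ _ k).2.1; rwa [hm.inv hz] at this
  have nl : l ∉ L ++ L' := fun c => (hZ _ c).2.2.false
  have N : ∀ z ∈ V, s.out z → m z ∉ L ++ L' := fun z hz o c => by
    have := F z hz c; rcases o with o | o <;> omega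
  have A : ∀ z ∈ V, s.out z → s'.lb z = s.lb z ∧ s'.br z = s.br z := fun z hz o => by
    have := N z hz o
    rw [hl z hz, hr z hz, if_neg this, if_neg fun c => this (List.mem_append_right _ c),
      if_neg fun c => this (List.mem_append_left _ c)]
    exact ⟨rfl, rfl⟩
  have O : ∀ z ∈ V, s.out z → s'.out z := fun z hz o => by
    have := (A z hz o).1
    unfold St.out at *; omega
  have O3 : ∀ z ∈ V, m z ∈ L ++ L' → s'.lb z = 3 ∧ s'.bs z = l := fun z hz k => by
    rw [hl z hz, hb z hz, if_pos k, if_pos (.inr k)]; exact ⟨rfl, rfl⟩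
  have O' : ∀ z ∈ V, s'.out z → m z ∉ L ++ L' → s.out z := fun z hz o k => by
    have := hl z hz
    rw [if_neg k] at this
    unfold St.out at *; omega
  have Al : ∀ w, Along V m s (L ++ L') l w → w ∈ V ∧ s'.out w ∧ s'.bs w = l := by
    rintro w ⟨hw, ⟨o, x⟩ | ⟨-, x⟩⟩
    · refine ⟨hw, O w hw o, ?_⟩
      rw [hb w hw]
      split_ifs with c
      · rfl
      · exact x.resolve_left fun x => c (.inl x)
    · exact ⟨hw, .inr (O3 w hw x).1, (O3 w hw x).2⟩
  have keep : ∀ b, IsB V s b → b ∉ L ++ L' → s'.lb b = 1 ∧ s'.bs b = b ∧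
      (m b = b ∨ s'.lb (m b) = 2) := fun b B k => by
    have o : s.out b := .inl B.2.1
    have := (I.base b B.1 o).2.2.2
    rw [B.2.2] at this
    rw [(A b B.1 o).1, hb b B.1, B.2.2, if_neg (not_or.2 ⟨k, N b B.1 o⟩), hl _ (hm.mem B.1),
      hm.inv B.1, if_neg k]
    exact ⟨B.2.1, rfl, this⟩
  have bv : s'.bs v = l := (Al v ⟨hv, .inl ⟨ov, h.start.imp (List.mem_append_left _) id⟩⟩).2.2
  have bu : s'.bs u = l := (Al u ⟨hu, .inl ⟨ou, h'.start.imp (List.mem_append_right _) id⟩⟩).2.2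
  have M : ∀ {a b : ℕ} {P : List (ℕ × ℕ)}, Seg E m s.lb s.br a b P → (∀ w ∈ a :: vs P, w ∈ V) →
      Seg E m s'.lb s'.br a b P := fun c k => c.mono fun w x o => A w (k w x) o
  refine ⟨fun z hz => ?_, fun z hz k => ?_, fun z hz k => ?_, fun z hz k => ?_,
    fun z hz k => ?_, fun z hz k => ?_, fun z hz k k' => ?_, fun z hz k => ?_, fun f k => ?_,
    fun z hz w hw o e' => ?_⟩
  · have := I.le z hz
    rw [hl z hz]; split_ifs <;> omega
  · obtain ⟨a, b, c⟩ := I.root z hz k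
    have := keep z ⟨hz, a, b⟩ fun x => by have := (hZ z x).2.1; rw [k] at this; omega
    exact ⟨this.1, this.2.1, hd ▸ c⟩
  · have a : m z ∉ L ++ L' := fun c => by have := (O3 z hz c).1; omega
    rw [hl z hz, if_neg a] at k
    rw [hl _ (hm.mem hz), hm.inv hz, if_neg fun c => by have := (hZ z c).1.2.1; omega]
    exact I.zero z hz k
  · have a : m z ∉ L ++ L' := fun c => by have := (O3 z hz c).1; omega
    rw [hl z hz, if_neg a] at k
    obtain ⟨c1, c2, c3, c4, c5, c6⟩ := I.inn z hz k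
    obtain ⟨x1, x2, -⟩ := keep _ ⟨hm.mem hz, c1, c2⟩ a
    rw [(A _ (hm.mem hz) (.inl c1)).2, hd]
    refine ⟨x1, x2, c3, O _ c3 c4, c5, lt_of_le_of_lt ?_ c6⟩
    rw [hb _ c3]
    split_ifs with c
    · exact (hZ _ (c.resolve_right (N _ c3 c4))).2.2.le
    · exact le_rfl
  · have a : m z ∉ L ++ L' := fun c => k (.inr (O3 z hz c).1)
    have b : ¬s.out z := fun c => k (O z hz c)
    rw [hb z hz, I.sing z hz b, if_neg (not_or.2 ⟨fun c => b (.inl (hZ z c).1.2.1), a⟩)]
  · rw [hb z hz]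
    split_ifs with c
    · exact ⟨Bl.1, keep l Bl nl⟩
    · have B := I.isB hz (O' z hz k fun x => c (.inr x))
      exact ⟨B.1, keep _ B fun x => c (.inl x)⟩
  · have hy := hm.mem hz
    by_cases c : m z ∈ L ++ L'
    · have B := (hZ _ c).1
      rw [(O3 z hz c).2]
      exact (Al _ ⟨hy, .inl ⟨.inl B.2.1, .inl (B.2.2.symm ▸ c)⟩⟩).2
    have o := O' z hz k c
    by_cases c' : z ∈ L ++ L'
    · have := O3 _ hy ((hm.inv hz).symm ▸ c')
      rw [hb z hz, if_pos (.inl ((hZ z c').1.2.2.symm ▸ c'))]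
      exact ⟨.inr this.1, this.2⟩
    have n : s.bs z ≠ z := fun x => k' (by rw [hb z hz, x, if_neg (not_or.2 ⟨c', c⟩)])
    obtain ⟨a, b⟩ := I.mate z hz o n
    refine ⟨O _ hy a, ?_⟩
    rw [hb z hz, hb _ hy, b, hm.inv hz]
    simp only [c, c']
  · by_cases c : m z ∈ L ++ L'
    · have zl : z ≠ l := fun x => by have := F z hz c; rw [x, Bl.2.1] at this; omega
      rw [(O3 z hz c).2]
      by_cases c' : m z ∈ L'
      · obtain ⟨P, Q, a1, a2, a3, a4⟩ :=
          I.brid hm hu hv ou ov h' h (fun b x y => d b y x) hz c'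
        have r : s'.br z = (u, v) := by rw [hr z hz, if_pos c']
        have a5 : ∀ w ∈ vs ((u, v) :: (P ++ Q)), Along V m s (L ++ L') l w := fun w x => by
          have := a4 w x
          simp only [Along, List.mem_append] at this ⊢; tauto
        refine ⟨(u, v) :: (P ++ Q), ?_, a3, fun w x => Al w (a5 w x)⟩
        have v1 := fun w (x : w ∈ z :: vs ((u, v) :: (P ++ Q))) =>
          (List.mem_cons.1 x).elim (fun y => y ▸ hz) fun y => (a5 w y).1
        have b1 := M a1 fun w x => v1 w (mem_brdg.2 (.inr (.inl x)))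
        have b2 := M a2 fun w x => v1 w (mem_brdg.2 (.inr (.inr x)))
        exact r ▸ .brdg zl (O3 z hz c).1 (r ▸ hE _ _ e) (r ▸ b1) (r ▸ b2)
      · have c'' := (List.mem_append.1 c).resolve_right c'
        obtain ⟨P, Q, a1, a2, a3, a5⟩ := I.brid hm hv hu ov ou h h' d hz c''
        have r : s'.br z = (v, u) := by rw [hr z hz, if_neg c', if_pos c'']
        refine ⟨(v, u) :: (P ++ Q), ?_, a3, fun w x => Al w (a5 w x)⟩
        have v1 := fun w (x : w ∈ z :: vs ((v, u) :: (P ++ Q))) =>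
          (List.mem_cons.1 x).elim (fun y => y ▸ hz) fun y => (a5 w y).1
        have b1 := M a1 fun w x => v1 w (mem_brdg.2 (.inr (.inl x)))
        have b2 := M a2 fun w x => v1 w (mem_brdg.2 (.inr (.inr x)))
        exact r ▸ .brdg zl (O3 z hz c).1 (r ▸ e) (r ▸ b1) (r ▸ b2)
    have o := O' z hz k c
    by_cases c' : s.bs z ∈ L ++ L'
    · obtain ⟨L2, x1, x2⟩ : ∃ L2, Chn m s (s.bs z) L2 l ∧ ∀ c ∈ L2, c ∈ L ++ L' := by
        rcases List.mem_append.1 c' with c' | c'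
        · obtain ⟨L2, x, y⟩ := h.suf c'
          exact ⟨L2, x, fun c k => List.mem_append_left _ (y c k)⟩
        · obtain ⟨L2, x, y⟩ := h'.suf c'
          exact ⟨L2, x, fun c k => List.mem_append_right _ (y c k)⟩
      obtain ⟨P, a1, a2, a3⟩ := I.climb hm hz o x1
      rw [hb z hz, if_pos (.inl c')]
      refine ⟨P, M a1 fun w x => (a3 w x).1, a2, fun w x => Al w ?_⟩
      have := a3 w (List.mem_cons_of_mem _ x)
      exact ⟨this.1, this.2.imp (.imp id (.imp (x2 _) id)) (.imp id (x2 _))⟩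
    · obtain ⟨P, a1, a2, a3⟩ := I.seg z hz o
      rw [hb z hz, if_neg (not_or.2 ⟨c', c⟩)]
      refine ⟨P, M a1 fun w x => (List.mem_cons.1 x).elim (fun y => y ▸ hz) fun y => (a3 w y).1,
        a2, fun w x => ?_⟩
      obtain ⟨y1, y2, y3⟩ := a3 w x
      rw [hb w y1, y3, if_neg (not_or.2 ⟨c', N w y1 y2⟩)]
      exact ⟨y1, O w y1 y2, rfl⟩
  · rcases (hq' f).1 k with k | ⟨a, b, c, d⟩
    · obtain ⟨a, b, c, d⟩ := I.qs f (hq ▸ List.mem_cons_of_mem _ k)
      exact ⟨a, b, O _ a c, d⟩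
    · exact ⟨b, c, .inr (O3 _ b a).1, d⟩
  · by_cases c : m z ∈ L ++ L'
    · exact .inl ((hq' _).2 (.inr ⟨c, hz, hw, e'⟩))
    have o' := O' z hz o c
    rcases I.qc z hz w hw o' e' with k | k | k | k
    · rcases List.mem_cons.1 (hq ▸ k) with k | k
      · obtain ⟨rfl, rfl⟩ := Prod.ext_iff.1 k
        exact .inr (.inr (.inr ⟨O _ hu ou, bu.trans bv.symm⟩))
      · exact .inl ((hq' _).2 (.inl k))
    · rcases List.mem_cons.1 (hq ▸ k) with k | k
      · obtain ⟨rfl, rfl⟩ := Prod.ext_iff.1 k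
        exact .inr (.inr (.inr ⟨O _ hv ov, bv.trans bu.symm⟩))
      · exact .inr (.inl ((hq' _).2 (.inl k)))
    · by_cases c' : m w ∈ L ++ L'
      · exact .inr (.inl ((hq' _).2 (.inr ⟨c', hw, hz, hE _ _ e'⟩)))
      · exact .inr (.inr (.inl (by rw [hl w hw, if_neg c', k])))
    · refine .inr (.inr (.inr ⟨O w hw k.1, ?_⟩))
      rw [hb w hw, hb z hz, k.2]
      simp only [c, N w hw k.1]

end Crest.Agent.N325.Mt
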