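import Crest.Agent.N325.Lst.ListImpl
import Crest.Agent.N325.Mt.Finish
import Crest.Agent.N325.Mt.SegR

/-!
# Row 325, M6: input, output, finish and path extraction are implementable (helper12)
-/

set_option autoImplicit false

namespace Crest.Agent.N325.Mt

variable {α : Type} [Rp α]

@[fun_prop] theorem impl_parseAdj {l : α → List ℕ} (hl : Pu true l) :
    Impl fun a => parseAdj (l a) := by
  unfold parseAdj; impl

@[fun_prop] theorem impl_outM {n : α → ℕ} {m : α → Arr ℕ} (hn : Pu true n) (hm : Pu true m) :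
    Impl fun a => outM (n a) (m a) := by
  unfold outM; impl

@[fun_prop] theorem impl_flpA {m : α → Arr ℕ} {P : α → List (ℕ × ℕ)} (hm : Pu true m)
    (hP : Pu true P) : Impl fun a => flpA (m a) (P a) := by
  unfold flpA; impl

@[fun_prop] theorem impl_finish {s : α → Arr ℕ → R (Option (List (ℕ × ℕ)))} {k : α → ℕ}
    {m : α → Arr ℕ} (hs : Impl fun p : α × Arr ℕ => s p.1 p.2) (hk : Pu true k) (hm : Pu true m) :
    Impl fun a => finish (s a) (k a) (m a) := by
  unfold finish; impl

@[fun_prop] theorem impl_segR {m lb : α → Arr ℕ} {br : α → Arr (ℕ × ℕ)} {fu : α → ℕ}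
    {st acc : α → List (ℕ × ℕ)} (hm : Pu true m) (hl : Pu true lb) (hb : Pu true br)
    (hf : Pu true fu) (hs : Pu true st) (ha : Pu true acc) :
    Impl fun a => segR (m a) (lb a) (br a) (fu a) (st a) (acc a) := by
  unfold segR; impl

@[fun_prop] theorem impl_adjOfE {l : α → List (ℕ × ℕ)} (hl : Pu true l) :
    Impl fun a => adjOfE (l a) := by
  unfold adjOfE; impl

end Crest.Agent.N325.Mt
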